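import Vale.Agent.P354x.Slice4
import Vale.Agent.P354w.Dir

set_option maxSynthPendingDepth 3

open Set MeasureTheory Filter Topology

namespace Vale.Agent.P354x

open Vale.Agent.P354w PreHyp CoreHyp

/-- exchange of the angular coordinates on the slice -/
noncomputable def tw : P3 ≃L[ℝ] P3 :=
  LinearEquiv.toContinuousLinearEquiv
    { toFun := fun a => (a.2.2, a.2.1, a.1)
      invFun := fun a => (a.2.2, a.2.1, a.1)
      map_add' := fun a b => rfl
      map_smul' := fun t a => rfl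
      left_inv := fun a => rfl
      right_inv := fun a => rfl }

/-- shear of the angular coordinates on the slice -/
noncomputable def ts : P3 ≃L[ℝ] P3 :=
  LinearEquiv.toContinuousLinearEquiv
    { toFun := fun a => (a.1, a.2.1, a.2.2 - a.1)
      invFun := fun a => (a.1, a.2.1, a.2.2 + a.1)
      map_add' := fun a b => by
        ext <;> simp
        ring
      map_smul' := fun t a => by
        ext <;> simp
        ring
      left_inv := fun a => by simp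
      right_inv := fun a => by simp }

lemma tw_apply (a : P3) : tw a = (a.2.2, a.2.1, a.1) := rfl
lemma ts_apply (a : P3) : ts a = (a.1, a.2.1, a.2.2 - a.1) := rfl

lemma mp_tw : MeasurePreserving (tw : P3 → P3) volume volume := by
  have h1 : MeasurePreserving (Prod.swap : ℝ × (ℝ × ℝ) → (ℝ × ℝ) × ℝ)
      (volume.prod (volume : Measure (ℝ × ℝ))) (Measure.prod (volume : Measure (ℝ × ℝ)) volume) :=
    Measure.measurePreserving_swap
  have h2 : MeasurePreserving (Prod.map (Prod.swap : ℝ × ℝ → ℝ × ℝ) (id : ℝ → ℝ))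
      (Measure.prod (volume : Measure (ℝ × ℝ)) volume)
      (Measure.prod (volume : Measure (ℝ × ℝ)) volume) := by
    have h3 : MeasurePreserving (Prod.swap : ℝ × ℝ → ℝ × ℝ) volume volume :=
      Measure.measurePreserving_swap
    exact h3.prod (MeasurePreserving.id _)
  have h4 : MeasurePreserving (MeasurableEquiv.prodAssoc : (ℝ × ℝ) × ℝ ≃ᵐ ℝ × ℝ × ℝ)
      (Measure.prod (volume : Measure (ℝ × ℝ)) volume) (volume : Measure P3) :=
    measurePreserving_prodAssoc volume volume volume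
  have h5 := h4.comp (h2.comp h1)
  exact h5

lemma mp_ts : MeasurePreserving (ts : P3 → P3) volume volume := by
  have h1 := MeasurePreserving.skew_product (μa := (volume : Measure ℝ))
    (μb := (volume : Measure ℝ)) (μc := (volume : Measure (ℝ × ℝ)))
    (μd := (volume : Measure (ℝ × ℝ))) (f := id) (MeasurePreserving.id _)
    (g := fun (a : ℝ) (p : ℝ × ℝ) => (p.1, p.2 - a)) (by fun_prop)
    (by
      apply ae_of_all
      intro a
      have h2 : MeasurePreserving (fun p : ℝ × ℝ => (p.1, p.2 - a)) volume volume :=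
        (MeasurePreserving.id (volume : Measure ℝ)).prod
          (measurePreserving_sub_right (volume : Measure ℝ) a)
      exact h2.map_eq)
  exact h1

lemma n3_le {y : P3} {m : ℝ} (h1 : |y.1| ≤ m) (h2 : |y.2.1| ≤ m) (h3 : |y.2.2| ≤ m) :
    ‖y‖ ≤ m := by
  simp only [Prod.norm_def, Real.norm_eq_abs]
  exact max_le h1 (max_le h2 h3)

lemma n3_1 (y : P3) : |y.1| ≤ ‖y‖ := by
  have := norm_fst_le y
  rwa [Real.norm_eq_abs] at this
lemma n3_2 (y : P3) : |y.2.1| ≤ ‖y‖ := by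
  have h1 := norm_snd_le y
  have h2 := norm_fst_le y.2
  rw [Real.norm_eq_abs] at h2
  exact h2.trans h1
lemma n3_3 (y : P3) : |y.2.2| ≤ ‖y‖ := by
  have h1 := norm_snd_le y
  have h2 := norm_snd_le y.2
  rw [Real.norm_eq_abs] at h2
  exact h2.trans h1

lemma tw_n1 (y : P3) : ‖tw y‖ ≤ 2 * ‖y‖ := by
  have h0 := norm_nonneg y
  have h1 := n3_1 y
  have h2 := n3_2 y
  have h3 := n3_3 y
  apply n3_le
  · show |y.2.2| ≤ _
    linarith
  · show |y.2.1| ≤ _
    linarith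
  · show |y.1| ≤ _
    linarith

lemma tw_n2 (y : P3) : ‖y‖ ≤ 2 * ‖tw y‖ := by
  have := tw_n1 (tw y)
  simpa [tw_apply] using this

lemma ts_n1 (y : P3) : ‖ts y‖ ≤ 2 * ‖y‖ := by
  have h0 := norm_nonneg y
  have h1 := n3_1 y
  have h2 := n3_2 y
  have h3 := n3_3 y
  apply n3_le
  · show |y.1| ≤ _
    linarith
  · show |y.2.1| ≤ _
    linarith
  · show |y.2.2 - y.1| ≤ _
    have := abs_sub y.2.2 y.1
    linarith

lemma ts_n2 (y : P3) : ‖y‖ ≤ 2 * ‖ts y‖ := by
  have h0 := norm_nonneg (ts y)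
  have h1 : |y.1| ≤ ‖ts y‖ := n3_1 (ts y)
  have h2 : |y.2.1| ≤ ‖ts y‖ := n3_2 (ts y)
  have h3 : |y.2.2 - y.1| ≤ ‖ts y‖ := n3_3 (ts y)
  apply n3_le
  · linarith
  · linarith
  · have := abs_add_le (y.2.2 - y.1) y.1
    rw [sub_add_cancel] at this
    linarith

variable {K K' : Coef} {G : P4 → P4 →L[ℝ] P4 →L[ℝ] ℝ} {Psi : P4 → P4} {V U : Set P4}
    {C R : ℝ} {cv cw cu : ℝ → ℝ} {t0 r : ℝ} {f : P3 → ℝ} {T : P4 ≃L[ℝ] P4}

/-- the local estimate, pulled back by a linear map of the slices -/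
lemma local_est_tr (h : CoreHyp K G Psi V U C R cv cw cu t0 r f) (hT : Tr K K' T)
    (hcv : ∫⁻ v in Ico (-(2 * R)) 0, ENNReal.ofReal (cv v) ≠ ⊤)
    (hcw : ∫⁻ v in Ico (-(2 * R)) 0, ENNReal.ofReal (cw v) ≠ ⊤)
    (hcu' : ∫⁻ u in Icc (-(2 * R)) (2 * R), ENNReal.ofReal (cu u) ≠ ⊤)
    (hcu : ∀ u, cu u ≤ C) {κ : ℝ} (hκ : 1 ≤ κ) {τ : P3 ≃L[ℝ] P3}
    (hτ : ∀ v y, ins v (τ y) = T (ins v y)) (hτm : MeasurePreserving (τ : P3 → P3) volume volume)
    (hτ1 : ∀ y, ‖τ y‖ ≤ 2 * ‖y‖) (hτ2 : ∀ y, ‖y‖ ≤ 2 * ‖τ y‖) {dK : P4 → ℝ}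
    (hd : ∀ x ∈ U, dg K' (T x) = dK x)
    (hb : ∀ x ∈ U, ∀ c, |fderiv ℝ K.g11 x (e4 K x)| ≤ c → |fderiv ℝ K.g12 x (e4 K x)| ≤ c →
      |fderiv ℝ K.g22 x (e4 K x)| ≤ c → |fderiv ℝ K'.g11 (T x) (e4 K' (T x))| ≤ 4 * c ∧
      |fderiv ℝ K'.g12 (T x) (e4 K' (T x))| ≤ 4 * c ∧
      |fderiv ℝ K'.g22 (T x) (e4 K' (T x))| ≤ 4 * c) :
    ∃ D : ℝ, 0 < D ∧ ∀ (v y0 ε σ γ c) (Y : Set P3), v < 0 →
      (∀ x : P3, ‖x‖ ≤ r / 2 → (Psi (t0, x)).2.1 < v) → 0 < ε → ε ≤ 1 → |σ| = 1 → 0 ≤ γ → 0 ≤ c →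
      MeasurableSet Y →
      (∀ y ∈ Y, ∃ z ∈ DD t0 r f, Psi z = ins v y ∧ ‖z.2‖ ≤ r / 4 ∧ QQ Psi z ≤ κ) →
      (∀ y ∈ Metric.ball y0 (2 * ε), ins v y ∈ Psi '' DD t0 r f →
        |fderiv ℝ K.g11 (ins v y) (e4 K (ins v y))| ≤ c ∧
        |fderiv ℝ K.g12 (ins v y) (e4 K (ins v y))| ≤ c ∧
        |fderiv ℝ K.g22 (ins v y) (e4 K (ins v y))| ≤ c ∧ γ ≤ σ * dK (ins v y)) →
      ENNReal.ofReal γ * volume (Metric.ball y0 (ε / 8) ∩ Y) ≤ ENNReal.ofReal D *
        (ENNReal.ofReal c * volume (Metric.ball y0 (2 * ε) \ Y) +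
          ENNReal.ofReal (1 / ε) * volume (Metric.ball y0 (2 * ε)) +
          ∫⁻ y in Metric.ball y0 (2 * ε), Lh G Psi V t0 r f (ins v y)) := by
  have hpre := h.toPreHyp
  have h' := h.tr hT hcv hcw hcu'
  have hpre' := h'.toPreHyp
  obtain ⟨D, hD, hest⟩ := local_est h' (fun u => by have := hcu u; linarith) hκ
  refine ⟨4 * D, by positivity, ?_⟩
  intro v y0 ε σ γ c Y hv hvlo hε hε1 hσ hγ hc0 hYm hY hball
  have hcτ : Continuous (τ : P3 → P3) := τ.continuous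
  have hτemb : MeasurableEmbedding (τ : P3 → P3) := τ.toHomeomorph.measurableEmbedding
  have hfd : ∀ z ∈ V, fderiv ℝ (fun z => T (Psi z)) z = (T : P4 →L[ℝ] P4).comp (fderiv ℝ Psi z) := by
    intro z hz
    have h1 : HasFDerivAt Psi (fderiv ℝ Psi z) z :=
      ((h.iso.contDiffAt hz).differentiableAt (by norm_num)).hasFDerivAt
    exact (T.hasFDerivAt.comp z h1).fderiv
  have hQ : ∀ z ∈ V, QQ (fun z => T (Psi z)) z = QQ Psi z := by
    intro z hz
    unfold QQ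
    rw [hfd z hz]
    show (T (fderiv ℝ Psi z e1)).2.2.1 + (T (fderiv ℝ Psi z e1)).2.1 = _
    rw [hT.u, hT.v]
  -- the transported set
  set Y' : Set P3 := τ.symm ⁻¹' Y with hY'
  have hY'm : MeasurableSet Y' := hYm.preimage τ.symm.continuous.measurable
  have hpreY : (τ : P3 → P3) ⁻¹' Y' = Y := by
    ext y
    simp [hY']
  have hvlo' : ∀ x : P3, ‖x‖ ≤ r / 2 → (T (Psi (t0, x))).2.1 < v := by
    intro x hx; rw [hT.v]; exact hvlo x hx
  have hY'g : ∀ y ∈ Y', ∃ z ∈ DD t0 r f, T (Psi z) = ins v y ∧ ‖z.2‖ ≤ r / 4 ∧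
      QQ (fun z => T (Psi z)) z ≤ κ := by
    intro y hy
    obtain ⟨z, hz, hzy, hzn, hzq⟩ := hY _ hy
    refine ⟨z, hz, ?_, hzn, ?_⟩
    · rw [hzy, ← hτ]; simp
    · rw [hQ z (h.DD_sub hz)]; exact hzq
  have hsub2 : (τ : P3 → P3) ⁻¹' Metric.ball (τ y0) ε ⊆ Metric.ball y0 (2 * ε) := by
    intro y hy
    rw [mem_preimage, Metric.mem_ball, dist_eq_norm, ← map_sub] at hy
    rw [Metric.mem_ball, dist_eq_norm]
    have := hτ2 (y - y0)
    linarith
  have hsub1 : Metric.ball y0 (ε / 8) ⊆ (τ : P3 → P3) ⁻¹' Metric.ball (τ y0) (ε / 4) := by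
    intro y hy
    rw [Metric.mem_ball, dist_eq_norm] at hy
    rw [mem_preimage, Metric.mem_ball, dist_eq_norm, ← map_sub]
    have := hτ1 (y - y0)
    linarith
  have hE := hest v (τ y0) ε σ γ (4 * c) Y' hv hvlo' hε hε1 hσ hγ (by positivity) hY'm hY'g
    (by
      intro y' hy' hm
      obtain ⟨z, hz, hzy⟩ := hm
      have hzy' : T (Psi z) = ins v y' := hzy
      set y := τ.symm y' with hy
      have hyy : τ y = y' := by rw [hy]; simp
      have hPz : Psi z = ins v y := by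
        apply T.injective
        rw [hzy', ← hyy, hτ]
      have hyb : y ∈ Metric.ball y0 (2 * ε) := hsub2 (by rw [mem_preimage, hyy]; exact hy')
      obtain ⟨k1, k2, k3, k4⟩ := hball y hyb ⟨z, hz, hPz⟩
      have hyU : ins v y ∈ U := by rw [← hPz]; exact h.maps (h.DD_sub hz)
      obtain ⟨l1, l2, l3⟩ := hb _ hyU c k1 k2 k3
      rw [← hyy, hτ]
      exact ⟨l1, l2, l3, by rw [hd _ hyU]; exact k4⟩)
  have m1 : volume (Metric.ball y0 (ε / 8) ∩ Y) ≤
      volume (Metric.ball (τ y0) (ε / 4) ∩ Y') := by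
    rw [← hτm.measure_preimage_emb hτemb (Metric.ball (τ y0) (ε / 4) ∩ Y'), preimage_inter, hpreY]
    exact measure_mono (inter_subset_inter_left _ hsub1)
  have m2 : volume (Metric.ball (τ y0) ε \ Y') ≤ volume (Metric.ball y0 (2 * ε) \ Y) := by
    rw [← hτm.measure_preimage_emb hτemb (Metric.ball (τ y0) ε \ Y'), preimage_sdiff, hpreY]
    exact measure_mono (sdiff_subset_sdiff_left hsub2)
  have m3 : volume (Metric.ball (τ y0) ε) ≤ volume (Metric.ball y0 (2 * ε)) := by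
    rw [← hτm.measure_preimage_emb hτemb (Metric.ball (τ y0) ε)]
    exact measure_mono hsub2
  have m4 : ∫⁻ y in Metric.ball (τ y0) ε, Lh G (fun z => T (Psi z)) V t0 r f (ins v y) ≤
      ∫⁻ y in Metric.ball y0 (2 * ε), Lh G Psi V t0 r f (ins v y) := by
    rw [← hτm.setLIntegral_comp_preimage_emb hτemb]
    have e : ∀ y : P3, Lh G (fun z => T (Psi z)) V t0 r f (ins v (τ y)) =
        Lh G Psi V t0 r f (ins v y) := by
      intro y
      rw [hτ]
      by_cases hy : ins v y ∈ Psi '' DD t0 r f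
      · have hy0 := hy
        obtain ⟨z, hz, hzy⟩ := hy
        have hy' : T (ins v y) ∈ (fun z => T (Psi z)) '' DD t0 r f := ⟨z, hz, by simp [hzy]⟩
        rw [Lh, Lh, indicator_of_mem hy', indicator_of_mem hy0]
        have e1' : Phi Psi V (ins v y) = z := by rw [← hzy]; exact h.Phi_left (h.DD_sub hz)
        have e2' : Phi (fun z => T (Psi z)) V (T (ins v y)) = z := by
          rw [← hzy]; exact hpre'.Phi_left (h.DD_sub hz)
        rw [e1', e2']
      · have hy' : T (ins v y) ∉ (fun z => T (Psi z)) '' DD t0 r f := by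
          rintro ⟨z, hz, hzy⟩
          exact hy ⟨z, hz, T.injective hzy⟩
        rw [Lh, Lh, indicator_of_notMem hy', indicator_of_notMem hy]
    simp only [e]
    exact lintegral_mono_set hsub2
  have h4 : ENNReal.ofReal (4 * c) = 4 * ENNReal.ofReal c := by
    rw [ENNReal.ofReal_mul (by norm_num)]; norm_num
  have hone : (1:ENNReal) ≤ 4 := by norm_num
  refine ((mul_le_mul_right m1 _).trans hE).trans ?_
  rw [h4]
  generalize volume (Metric.ball (τ y0) ε \ Y') = a1 at *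
  generalize volume (Metric.ball (τ y0) ε) = a2 at *
  generalize ∫⁻ y in Metric.ball (τ y0) ε, Lh G (fun z => T (Psi z)) V t0 r f (ins v y) = a3 at *
  generalize volume (Metric.ball y0 (2 * ε) \ Y) = b1 at *
  generalize volume (Metric.ball y0 (2 * ε)) = b2 at *
  generalize ∫⁻ y in Metric.ball y0 (2 * ε), Lh G Psi V t0 r f (ins v y) = b3 at *
  have q2 : ENNReal.ofReal (1 / ε) * b2 ≤ 4 * (ENNReal.ofReal (1 / ε) * b2) :=
    le_mul_of_one_le_left bot_le hone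
  have q3 : b3 ≤ 4 * b3 := le_mul_of_one_le_left bot_le hone
  calc ENNReal.ofReal D * (4 * ENNReal.ofReal c * a1 + ENNReal.ofReal (1 / ε) * a2 + a3)
      ≤ ENNReal.ofReal D * (4 * ENNReal.ofReal c * b1 + ENNReal.ofReal (1 / ε) * b2 + b3) := by
        gcongr
    _ ≤ ENNReal.ofReal D * (4 * ENNReal.ofReal c * b1 + 4 * (ENNReal.ofReal (1 / ε) * b2) +
          4 * b3) := by gcongr
    _ = _ := by
        rw [ENNReal.ofReal_mul (by norm_num : (0:ℝ) ≤ 4)]
        have : ENNReal.ofReal 4 = 4 := by norm_num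
        rw [this]; ring

end Vale.Agent.P354x
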