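import Vale.Agent.P354x.Gen2
import Vale.Agent.P354w.Bad

set_option maxSynthPendingDepth 3

open Set MeasureTheory Filter

namespace Vale.Agent.P354x

open Vale.Agent.P354w PreHyp CoreHyp

/-- insertion of the `v` coordinate; `y = (th1, u, th2)` -/
def ins (v : ℝ) (y : P3) : P4 := (y.1, v, y.2.1, y.2.2)

lemma hasDerivAt_ins (y : P3) (v : ℝ) : HasDerivAt (fun v => ins v y) ev v := by
  have h1 : HasDerivAt (fun v : ℝ => ((v, y.2.1, y.2.2) : ℝ × ℝ × ℝ)) (1, 0, 0) v :=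
    (hasDerivAt_id v).prodMk (hasDerivAt_const v _)
  exact (hasDerivAt_const v y.1).prodMk h1

lemma continuous_ins : Continuous (fun p : ℝ × P3 => ins p.1 p.2) := by
  unfold ins; fun_prop

/-- the sum of the two frame components -/
noncomputable def QQ (Psi : P4 → P4) (z : P4) : ℝ :=
  (fderiv ℝ Psi z e1).2.2.1 + (fderiv ℝ Psi z e1).2.1

variable {K : Coef} {G : P4 → P4 →L[ℝ] P4 →L[ℝ] ℝ} {Psi : P4 → P4} {V U : Set P4}
    {C R : ℝ} {cv cw cu : ℝ → ℝ} {t0 r : ℝ} {f : P3 → ℝ}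

lemma QQ_pos (h : PreHyp K G Psi V U C R cv cw cu t0 r f) {z : P4} (hz : z ∈ V) :
    0 < QQ Psi z := add_pos (h.pt hz).sq_le.2.1 (h.pos z hz)

lemma contAt_QQ (h : PreHyp K G Psi V U C R cv cw cu t0 r f) {z : P4} (hz : z ∈ V) :
    ContinuousAt (QQ Psi) z := by
  have h1 := (h.contDiffAt_P hz e1).continuousAt
  exact h1.snd.snd.fst.add h1.snd.fst

/-- the direction of the generators on the exotic side -/
noncomputable def Xf (Psi : P4 → P4) (V : Set P4) (z : P4) : P4 :=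
  fderiv ℝ (Phi Psi V) (Psi z) ev

lemma Xf_spec (h : PreHyp K G Psi V U C R cv cw cu t0 r f) {z : P4} (hz : z ∈ V) :
    fderiv ℝ Psi z (Xf Psi V z) = ev := by
  rw [Xf, (h.hasFDerivAt_Phi hz).fderiv, ← h.Aeq_apply hz]
  simp

lemma hasDerivAt_gen (h : PreHyp K G Psi V U C R cv cw cu t0 r f) {z : P4} (hz : z ∈ V)
    {v : ℝ} {y : P3} (hzy : Psi z = ins v y) :
    HasDerivAt (fun v => Phi Psi V (ins v y)) (Xf Psi V z) v := by
  have h1 : HasFDerivAt (Phi Psi V) (fderiv ℝ (Phi Psi V) (Psi z)) (ins v y) := by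
    rw [← hzy]; exact (h.hasFDerivAt_Phi hz).differentiableAt.hasFDerivAt
  exact h1.comp_hasDerivAt v (hasDerivAt_ins y v)

lemma hasDerivAt_PPgen (h : PreHyp K G Psi V U C R cv cw cu t0 r f) {z : P4} (hz : z ∈ V)
    {v : ℝ} {y : P3} (hzy : Psi z = ins v y) :
    HasDerivAt (fun v => fderiv ℝ Psi (Phi Psi V (ins v y)) e1)
      (Sd Psi z (Xf Psi V z) e1) v := by
  have h0 : Phi Psi V (ins v y) = z := by rw [← hzy]; exact h.Phi_left hz
  have h1 := hasDerivAt_gen h hz hzy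
  have h2 : HasFDerivAt (fderiv ℝ Psi) (fderiv ℝ (fderiv ℝ Psi) z) (Phi Psi V (ins v y)) := by
    rw [h0]; exact h.iso.hasFDerivAt_fderiv hz
  have h3 : HasDerivAt (fun v => fderiv ℝ Psi (Phi Psi V (ins v y)))
      (fderiv ℝ (fderiv ℝ Psi) z (Xf Psi V z)) v := h2.comp_hasDerivAt v h1
  have h4 := h3.clm_apply (hasDerivAt_const v e1)
  have e : fderiv ℝ (fderiv ℝ Psi) z (Xf Psi V z) e1
      + fderiv ℝ Psi (Phi Psi V (ins v y)) 0 = Sd Psi z (Xf Psi V z) e1 := by
    rw [map_zero, add_zero]; rfl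
  rw [e] at h4
  exact h4

lemma hasDerivAt_QQ (h : PreHyp K G Psi V U C R cv cw cu t0 r f) {z : P4} (hz : z ∈ V)
    {v : ℝ} {y : P3} (hzy : Psi z = ins v y) :
    HasDerivAt (fun v => QQ Psi (Phi Psi V (ins v y)))
      ((Sd Psi z (Xf Psi V z) e1).2.1 + (Sd Psi z (Xf Psi V z) e1).2.2.1) v := by
  have h4 := hasDerivAt_PPgen h hz hzy
  generalize Sd Psi z (Xf Psi V z) e1 = S at *
  have h5 : HasDerivAt (fun v => (fderiv ℝ Psi (Phi Psi V (ins v y)) e1).2.2.1) S.2.2.1 v :=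
    h4.snd.snd.fst
  have h6 : HasDerivAt (fun v => (fderiv ℝ Psi (Phi Psi V (ins v y)) e1).2.1) S.2.1 v :=
    h4.snd.fst
  have h7 := h5.add h6
  rw [add_comm S.2.1]
  exact h7

/-- `|dG|` along the generators, extended by zero -/
noncomputable def Lh (G : P4 → P4 →L[ℝ] P4 →L[ℝ] ℝ) (Psi : P4 → P4) (V : Set P4) (t0 r : ℝ)
    (f : P3 → ℝ) : P4 → ENNReal :=
  (Psi '' DD t0 r f).indicator (fun y => ‖fderiv ℝ G (Phi Psi V y)‖ₑ)

lemma norm_Xf (h : PreHyp K G Psi V U C R cv cw cu t0 r f) (hw : ∀ y ∈ U, PtW K y C) {z : P4}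
    (hz : z ∈ V) : ‖Xf Psi V z‖ ≤ 20 * C ^ 7 * QQ Psi z :=
  norm_Xv (h.pt hz) (hw _ (h.maps hz)).s1 (hw _ (h.maps hz)).s2 (Xf_spec h hz)

lemma deriv_QQ (h : PreHyp K G Psi V U C R cv cw cu t0 r f) (hw : ∀ y ∈ U, PtW K y C) {z : P4}
    (hz : z ∈ V) :
    |(Sd Psi z (Xf Psi V z) e1).2.1 + (Sd Psi z (Xf Psi V z) e1).2.2.1| ≤ 800 * C ^ 12 *
      (QQ Psi z * ((1 + cv (Psi z).2.1 + cw (Psi z).2.1 + cu (Psi z).2.2.1)
        + ‖fderiv ℝ G z‖ * QQ Psi z)) := by
  obtain ⟨N3, hN3⟩ := h.exists_pre hz (e3 K (Psi z))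
  obtain ⟨N4, hN4⟩ := h.exists_pre hz (e4 K (Psi z))
  exact S_q (h.pt hz) (hw _ (h.maps hz)) (Xf_spec h hz) hN3 hN4

/-- Growth of `QQ` along a piece of a generator. -/
lemma log_QQ (h : PreHyp K G Psi V U C R cv cw cu t0 r f) (hw : ∀ y ∈ U, PtW K y C)
    {y : P3} {v0 v1 κ : ℝ} (hv : v0 ≤ v1) (hκ : 0 ≤ κ)
    (hin : ∀ v ∈ Icc v0 v1, ∃ z ∈ DD t0 r f, Psi z = ins v y ∧ QQ Psi z ≤ κ) :
    ENNReal.ofReal |Real.log (QQ Psi (Phi Psi V (ins v1 y)))
        - Real.log (QQ Psi (Phi Psi V (ins v0 y)))| ≤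
      ENNReal.ofReal (800 * C ^ 12) * ((∫⁻ v in Icc v0 v1, ENNReal.ofReal
        (1 + cv v + cw v + cu y.2.1)) + ENNReal.ofReal κ *
          ∫⁻ v in Icc v0 v1, Lh G Psi V t0 r f (ins v y)) := by
  have hlog := log_bound (q := fun v => QQ Psi (Phi Psi V (ins v y)))
    (q' := fun v => (Sd Psi (Phi Psi V (ins v y)) (Xf Psi V (Phi Psi V (ins v y))) e1).2.1 +
      (Sd Psi (Phi Psi V (ins v y)) (Xf Psi V (Phi Psi V (ins v y))) e1).2.2.1)
    (a := v0) (b := v1) hv
    (W := fun v => ENNReal.ofReal (800 * C ^ 12) * (ENNReal.ofReal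
        (1 + cv v + cw v + cu y.2.1) + ENNReal.ofReal κ * Lh G Psi V t0 r f (ins v y)))
    (by
      intro v hvm
      obtain ⟨z, hz, hzy, _⟩ := hin v hvm
      have hzV := h.DD_sub hz
      have h0 : Phi Psi V (ins v y) = z := by rw [← hzy]; exact h.Phi_left hzV
      have h1 := hasDerivAt_QQ h hzV hzy
      rw [h0]
      exact h1)
    (by
      intro v hvm
      obtain ⟨z, hz, hzy, _⟩ := hin v hvm
      have hzV := h.DD_sub hz
      have h0 : Phi Psi V (ins v y) = z := by rw [← hzy]; exact h.Phi_left hzV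
      apply ContinuousAt.continuousWithinAt
      have c1 : ContinuousAt (fun v => Phi Psi V (ins v y)) v :=
        (hasDerivAt_gen h hzV hzy).continuousAt
      have c2 : ContinuousAt (fderiv ℝ (fderiv ℝ Psi)) (Phi Psi V (ins v y)) := by
        rw [h0]
        have h3 : ContDiffAt ℝ 0 (fderiv ℝ (fderiv ℝ Psi)) z :=
          (h.iso.contDiffAt_fderiv hzV).fderiv_right (by norm_num)
        exact h3.continuousAt
      have c3 : ContinuousAt (fun v => fderiv ℝ (fderiv ℝ Psi) (Phi Psi V (ins v y))) v :=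
        ContinuousAt.comp (g := fderiv ℝ (fderiv ℝ Psi)) (f := fun v => Phi Psi V (ins v y)) c2 c1
      have c4 : ContinuousAt (fderiv ℝ (Phi Psi V)) (ins v y) := by
        rw [← hzy]
        have h3 : ContDiffAt ℝ 0 (fderiv ℝ (Phi Psi V)) (Psi z) :=
          (h.contDiffAt_Phi hzV).fderiv_right (by norm_num)
        exact h3.continuousAt
      have c5 : ContinuousAt (fun v => fderiv ℝ (Phi Psi V) (ins v y) ev) v :=
        (ContinuousAt.comp (g := fderiv ℝ (Phi Psi V)) (f := fun v => ins v y) c4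
          (hasDerivAt_ins y v).continuousAt).clm_apply continuousAt_const
      have c6 : ContinuousAt (fun v => Xf Psi V (Phi Psi V (ins v y))) v := by
        apply c5.congr
        have o1 : ∀ᶠ w in nhds v, ins w y ∈ Psi '' DD t0 r f :=
          (hasDerivAt_ins y v).continuousAt.eventually
            ((h.isOpen_image h.openD h.DD_sub).mem_nhds
              (show ins v y ∈ _ by rw [← hzy]; exact mem_image_of_mem _ hz))
        filter_upwards [o1] with w hwm
        obtain ⟨z', hz', hz'y⟩ := hwm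
        rw [Xf, ← hz'y, h.Phi_left (h.DD_sub hz')]
      have c7 : ContinuousAt (fun v => Sd Psi (Phi Psi V (ins v y))
          (Xf Psi V (Phi Psi V (ins v y))) e1) v :=
        (c3.clm_apply c6).clm_apply continuousAt_const
      exact c7.snd.fst.add c7.snd.snd.fst)
    (by
      intro v hvm
      obtain ⟨z, hz, hzy, _⟩ := hin v hvm
      have hzV := h.DD_sub hz
      have h0 : Phi Psi V (ins v y) = z := by rw [← hzy]; exact h.Phi_left hzV
      show 0 < QQ Psi (Phi Psi V (ins v y))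
      rw [h0]; exact QQ_pos h hzV)
    (by
      intro v hvm
      obtain ⟨z, hz, hzy, hzκ⟩ := hin v hvm
      have hzV := h.DD_sub hz
      have h0 : Phi Psi V (ins v y) = z := by rw [← hzy]; exact h.Phi_left hzV
      have hq := QQ_pos h hzV
      have hd := deriv_QQ h hw hzV
      have hC : 1 ≤ C := (h.pt hzV).bd.one_le
      have hcv := (h.pt hzV).bd.cv0
      have hcw := (h.pt hzV).bd.cw0
      have hcu := (h.pt hzV).bd.cu0
      rw [hzy] at hd hcv hcw hcu
      simp only [ins] at hd hcv hcw hcu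
      have hL : Lh G Psi V t0 r f (ins v y) = ‖fderiv ℝ G z‖ₑ := by
        rw [Lh, indicator_of_mem (by rw [← hzy]; exact mem_image_of_mem _ hz), h0]
      have hLn := norm_nonneg (fderiv ℝ G z)
      simp only [h0]
      have h1 : |(Sd Psi z (Xf Psi V z) e1).2.1 + (Sd Psi z (Xf Psi V z) e1).2.2.1| / QQ Psi z ≤
          800 * C ^ 12 * ((1 + cv v + cw v + cu y.2.1) + κ * ‖fderiv ℝ G z‖) := by
        rw [div_le_iff₀ hq]
        refine hd.trans ?_
        have : ‖fderiv ℝ G z‖ * QQ Psi z ≤ κ * ‖fderiv ℝ G z‖ := by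
          rw [mul_comm κ]; gcongr
        calc 800 * C ^ 12 * (QQ Psi z * ((1 + cv v + cw v + cu y.2.1)
              + ‖fderiv ℝ G z‖ * QQ Psi z))
            ≤ 800 * C ^ 12 * (QQ Psi z * ((1 + cv v + cw v + cu y.2.1)
              + κ * ‖fderiv ℝ G z‖)) := by gcongr
          _ = _ := by ring
      refine (ENNReal.ofReal_le_ofReal h1).trans (le_of_eq ?_)
      rw [hL, ENNReal.ofReal_mul (by positivity), ENNReal.ofReal_add (by positivity)
        (by positivity), ENNReal.ofReal_mul hκ, ofReal_norm])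
  refine hlog.trans (le_of_eq ?_)
  rw [lintegral_const_mul' _ _ ENNReal.ofReal_ne_top]
  congr 1
  rw [lintegral_add_left, lintegral_const_mul' _ _ ENNReal.ofReal_ne_top]
  exact (((measurable_const.add h.cv_meas).add h.cw_meas).add measurable_const).ennreal_ofReal

end Vale.Agent.P354x
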