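import Vale.Agent.P354x.Gen6

set_option maxSynthPendingDepth 3

open Set MeasureTheory Filter Topology

namespace Vale.Agent.P354x

open Vale.Agent.P354w

lemma vol_ball (y : P3) {ρ : ℝ} (hρ : 0 ≤ ρ) :
    volume (Metric.ball y ρ) = ENNReal.ofReal (8 * ρ ^ 3) := by
  obtain ⟨a, b, c⟩ := y
  have e1 : Metric.ball ((a, b, c) : P3) ρ = Metric.ball a ρ ×ˢ Metric.ball ((b, c) : ℝ × ℝ) ρ :=
    (ball_prod_same a (b, c) ρ).symm
  have e2 : Metric.ball ((b, c) : ℝ × ℝ) ρ = Metric.ball b ρ ×ˢ Metric.ball c ρ :=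
    (ball_prod_same b c ρ).symm
  rw [e1, Measure.volume_eq_prod, Measure.prod_prod, e2, Measure.volume_eq_prod,
    Measure.prod_prod, Real.volume_ball, Real.volume_ball, Real.volume_ball,
    ← ENNReal.ofReal_mul (by positivity), ← ENNReal.ofReal_mul (by positivity)]
  congr 1
  ring

/-- the set where `y` is in the ball of radius `ε v` about `y0` -/
def Es (ε : ℝ → ℝ) : Set (P3 × ℝ × P3) := {p | ‖p.2.2 - p.1‖ < ε p.2.1}

lemma Es_1 (ε : ℝ → ℝ) (y0 y : P3) (v : ℝ) : (Es ε).indicator (fun _ => (1:ENNReal)) (y0, v, y) =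
    (Metric.ball y (ε v)).indicator (fun _ => 1) y0 := by
  by_cases hy : ‖y - y0‖ < ε v
  · have h1 : (y0, v, y) ∈ Es ε := hy
    have h2 : y0 ∈ Metric.ball y (ε v) := by rw [Metric.mem_ball, dist_comm, dist_eq_norm]; exact hy
    rw [indicator_of_mem h1, indicator_of_mem h2]
  · have h1 : (y0, v, y) ∉ Es ε := hy
    have h2 : y0 ∉ Metric.ball y (ε v) := by rw [Metric.mem_ball, dist_comm, dist_eq_norm]; exact hy
    rw [indicator_of_notMem h1, indicator_of_notMem h2]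

lemma Es_2 (ε : ℝ → ℝ) (y0 y : P3) (v : ℝ) : (Es ε).indicator (fun _ => (1:ENNReal)) (y0, v, y) =
    (Metric.ball y0 (ε v)).indicator (fun _ => 1) y := by
  by_cases hy : ‖y - y0‖ < ε v
  · have h1 : (y0, v, y) ∈ Es ε := hy
    have h2 : y ∈ Metric.ball y0 (ε v) := by rw [Metric.mem_ball, dist_eq_norm]; exact hy
    rw [indicator_of_mem h1, indicator_of_mem h2]
  · have h1 : (y0, v, y) ∉ Es ε := hy
    have h2 : y ∉ Metric.ball y0 (ε v) := by rw [Metric.mem_ball, dist_eq_norm]; exact hy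
    rw [indicator_of_notMem h1, indicator_of_notMem h2]

lemma measurable_Es {ε : ℝ → ℝ} (hε : Measurable ε) : MeasurableSet (Es ε) := by
  have h1 : Measurable (fun p : P3 × ℝ × P3 => ‖p.2.2 - p.1‖) := by fun_prop
  have h2 : Measurable (fun p : P3 × ℝ × P3 => ε p.2.1) := by fun_prop
  exact measurableSet_lt h1 h2

/-- the localised density -/
noncomputable def FF (L : ℝ → P3 → ENNReal) (ε : ℝ → ℝ) (y0 : P3) (v : ℝ) (y : P3) : ENNReal :=
  ENNReal.ofReal (8 * (ε v)⁻¹ ^ 3) * ((Es ε).indicator (fun _ => 1) (y0, v, y) * L v y ^ 2)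

variable {L : ℝ → P3 → ENNReal} {ε : ℝ → ℝ}

lemma measurable_FF (hL : Measurable (fun p : ℝ × P3 => L p.1 p.2)) (hε : Measurable ε) :
    Measurable (fun p : P3 × ℝ × P3 => FF L ε p.1 p.2.1 p.2.2) := by
  have h1 : Measurable (fun p : P3 × ℝ × P3 => ENNReal.ofReal (8 * (ε p.2.1)⁻¹ ^ 3)) := by
    fun_prop
  have h3 : Measurable (fun p : P3 × ℝ × P3 => L p.2.1 p.2.2 ^ 2) :=
    (hL.comp measurable_snd).pow_const 2
  exact h1.mul ((measurable_const.indicator (measurable_Es hε)).mul h3)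

lemma measurable_FF' (hL : Measurable (fun p : ℝ × P3 => L p.1 p.2)) (hε : Measurable ε) :
    Measurable (fun p : (P3 × ℝ) × P3 => FF L ε p.1.1 p.1.2 p.2) := by
  have h := measurable_FF hL hε
  have e1 : Measurable (fun p : (P3 × ℝ) × P3 => p.1.1) := measurable_fst.comp measurable_fst
  have e2 : Measurable (fun p : (P3 × ℝ) × P3 => p.1.2) := measurable_snd.comp measurable_fst
  have e3 : Measurable (fun p : (P3 × ℝ) × P3 => p.2) := measurable_snd
  have h2 : Measurable (fun p : (P3 × ℝ) × P3 => ((p.1.1, p.1.2, p.2) : P3 × ℝ × P3)) :=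
    e1.prodMk (e2.prodMk e3)
  show Measurable ((fun p : P3 × ℝ × P3 => FF L ε p.1 p.2.1 p.2.2) ∘
    (fun p : (P3 × ℝ) × P3 => ((p.1.1, p.1.2, p.2) : P3 × ℝ × P3)))
  exact h.comp h2

lemma FF_int1 (v : ℝ) (y : P3) (hpos : 0 < ε v) : ∫⁻ y0, FF L ε y0 v y = 64 * L v y ^ 2 := by
  have hB : MeasurableSet (Metric.ball y (ε v)) := Metric.isOpen_ball.measurableSet
  have e : ∀ y0 : P3, FF L ε y0 v y = (ENNReal.ofReal (8 * (ε v)⁻¹ ^ 3) * L v y ^ 2) *
      (Metric.ball y (ε v)).indicator (fun _ => 1) y0 := by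
    intro y0
    rw [FF, Es_1]
    ring
  simp only [e]
  rw [lintegral_const_mul _ (measurable_const.indicator hB), lintegral_indicator hB]
  simp only [lintegral_const, Measure.restrict_apply MeasurableSet.univ, univ_inter, one_mul]
  rw [vol_ball y hpos.le, mul_right_comm, ← ENNReal.ofReal_mul (by positivity)]
  congr 1
  have hv := hpos.ne'
  have e2 : 8 * (ε v)⁻¹ ^ 3 * (8 * ε v ^ 3) = 64 := by field_simp; norm_num
  rw [e2]
  norm_num

lemma FF_int (hL : Measurable (fun p : ℝ × P3 => L p.1 p.2)) (hε : Measurable ε)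
    (hpos : ∀ v, 0 < ε v) :
    ∫⁻ y0, ∫⁻ v, ∫⁻ y, FF L ε y0 v y = 64 * ∫⁻ v, ∫⁻ y, L v y ^ 2 := by
  have hm := measurable_FF' hL hε
  have hm1 : AEMeasurable (Function.uncurry fun (y0 : P3) (v : ℝ) => ∫⁻ y, FF L ε y0 v y)
      ((volume : Measure P3).prod (volume : Measure ℝ)) :=
    (hm.lintegral_prod_right').aemeasurable
  rw [lintegral_lintegral_swap hm1, ← lintegral_const_mul' _ _ (by norm_num)]
  apply lintegral_congr
  intro v
  have h2 : Measurable (fun p : P3 × P3 => ((p.1, v, p.2) : P3 × ℝ × P3)) := by fun_prop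
  have hm2 : AEMeasurable (Function.uncurry fun (y0 : P3) (y : P3) => FF L ε y0 v y)
      ((volume : Measure P3).prod (volume : Measure P3)) :=
    ((measurable_FF hL hε).comp h2).aemeasurable
  rw [lintegral_lintegral_swap hm2, ← lintegral_const_mul' _ _ (by norm_num)]
  apply lintegral_congr
  intro y
  exact FF_int1 v y (hpos v)

lemma FF_bound (hL : Measurable (fun p : ℝ × P3 => L p.1 p.2)) (y0 : P3) (v : ℝ)
    (hv : 0 < ε v) :
    (ENNReal.ofReal ((ε v)⁻¹ ^ 3) * ∫⁻ y in Metric.ball y0 (ε v), L v y) ^ 2 ≤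
      ∫⁻ y, FF L ε y0 v y := by
  have hB : MeasurableSet (Metric.ball y0 (ε v)) := Metric.isOpen_ball.measurableSet
  have hLv : Measurable (L v) := hL.comp measurable_prodMk_left
  have h1 := cs (μ := volume.restrict (Metric.ball y0 (ε v))) (f := L v)
    (g := fun _ => (1 : ENNReal)) hLv.aemeasurable aemeasurable_const
  simp only [mul_one, one_pow, lintegral_const, Measure.restrict_apply MeasurableSet.univ,
    univ_inter, one_mul] at h1
  have h2 : (∫⁻ y in Metric.ball y0 (ε v), L v y) ^ 2 ≤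
      (∫⁻ y in Metric.ball y0 (ε v), L v y ^ 2) * ENNReal.ofReal (8 * ε v ^ 3) := by
    calc (∫⁻ y in Metric.ball y0 (ε v), L v y) ^ 2
        ≤ ((∫⁻ y in Metric.ball y0 (ε v), L v y ^ 2) ^ (1/2:ℝ) *
          (volume (Metric.ball y0 (ε v))) ^ (1/2:ℝ)) ^ 2 := by gcongr
      _ = (∫⁻ y in Metric.ball y0 (ε v), L v y ^ 2) * volume (Metric.ball y0 (ε v)) := by
        rw [mul_pow, ← ENNReal.rpow_two, ← ENNReal.rpow_two, ← ENNReal.rpow_mul,
          ← ENNReal.rpow_mul]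
        norm_num
      _ = _ := by rw [vol_ball y0 hv.le]
  have e3 : ∫⁻ y, FF L ε y0 v y = ENNReal.ofReal (8 * (ε v)⁻¹ ^ 3) *
      ∫⁻ y in Metric.ball y0 (ε v), L v y ^ 2 := by
    simp only [FF, Es_2]
    rw [lintegral_const_mul' _ _ ENNReal.ofReal_ne_top, ← lintegral_indicator hB]
    congr 1
    apply lintegral_congr
    intro y
    by_cases hy : y ∈ Metric.ball y0 (ε v)
    · rw [indicator_of_mem hy, indicator_of_mem hy, one_mul]
    · rw [indicator_of_notMem hy, indicator_of_notMem hy, zero_mul]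
  rw [e3, mul_pow]
  calc ENNReal.ofReal ((ε v)⁻¹ ^ 3) ^ 2 * (∫⁻ y in Metric.ball y0 (ε v), L v y) ^ 2
      ≤ ENNReal.ofReal ((ε v)⁻¹ ^ 3) ^ 2 * ((∫⁻ y in Metric.ball y0 (ε v), L v y ^ 2) *
        ENNReal.ofReal (8 * ε v ^ 3)) := by gcongr
    _ = (ENNReal.ofReal ((ε v)⁻¹ ^ 3) ^ 2 * ENNReal.ofReal (8 * ε v ^ 3)) *
        ∫⁻ y in Metric.ball y0 (ε v), L v y ^ 2 := by ring
    _ = _ := by
      congr 1
      rw [← ENNReal.ofReal_pow (by positivity), ← ENNReal.ofReal_mul (by positivity)]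
      congr 1
      field_simp

/-- averages over balls of variable radius of a square integrable function -/
theorem avg_ae (hL : Measurable (fun p : ℝ × P3 => L p.1 p.2))
    (hfin : ∫⁻ v, ∫⁻ y, L v y ^ 2 ≠ ⊤) (hε : Measurable ε) (hpos : ∀ v, 0 < ε v) :
    ∀ᵐ y0 : P3, ∫⁻ v, (ENNReal.ofReal ((ε v)⁻¹ ^ 3) *
      ∫⁻ y in Metric.ball y0 (ε v), L v y) ^ 2 ≠ ⊤ := by
  have hm := measurable_FF' hL hε
  have h2 : Measurable (fun p : P3 × ℝ => ∫⁻ y, FF L ε p.1 p.2 y) := hm.lintegral_prod_right'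
  have hmeas : Measurable (fun y0 => ∫⁻ v, ∫⁻ y, FF L ε y0 v y) := h2.lintegral_prod_right'
  have hne : ∫⁻ y0, ∫⁻ v, ∫⁻ y, FF L ε y0 v y ≠ ⊤ := by
    rw [FF_int hL hε hpos]; exact ENNReal.mul_ne_top (by norm_num) hfin
  filter_upwards [ae_lt_top hmeas hne] with y0 hy0
  refine ne_top_of_le_ne_top hy0.ne ?_
  apply lintegral_mono
  intro v
  exact FF_bound hL y0 v (hpos v)

end Vale.Agent.P354x
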