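import Vale.Agent.P354x.Dir3

set_option maxSynthPendingDepth 3

open Set MeasureTheory Filter Topology

namespace Vale.Agent.P354x

open Vale.Agent.P354w PreHyp CoreHyp

variable {K : Coef} {G : P4 → P4 →L[ℝ] P4 →L[ℝ] ℝ} {Psi : P4 → P4} {V U : Set P4}
    {C R : ℝ} {cv cw cu : ℝ → ℝ} {t0 r : ℝ} {f : P3 → ℝ}

/-- The local estimate in the three directions. -/
theorem local_est3 (h : CoreHyp K G Psi V U C R cv cw cu t0 r f)
    (hcv : ∫⁻ v in Ico (-(2 * R)) 0, ENNReal.ofReal (cv v) ≠ ⊤)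
    (hcw : ∫⁻ v in Ico (-(2 * R)) 0, ENNReal.ofReal (cw v) ≠ ⊤)
    (hcu' : ∫⁻ u in Icc (-(2 * R)) (2 * R), ENNReal.ofReal (cu u) ≠ ⊤)
    (hcu : ∀ u, cu u ≤ C) {κ : ℝ} (hκ : 1 ≤ κ) :
    ∃ D : ℝ, 0 < D ∧ ∀ (j : Fin 3) (v y0 ε σ γ c) (Y : Set P3), v < 0 →
      (∀ x : P3, ‖x‖ ≤ r / 2 → (Psi (t0, x)).2.1 < v) → 0 < ε → ε ≤ 1 → |σ| = 1 → 0 ≤ γ → 0 ≤ c →
      MeasurableSet Y →
      (∀ y ∈ Y, ∃ z ∈ DD t0 r f, Psi z = ins v y ∧ ‖z.2‖ ≤ r / 4 ∧ QQ Psi z ≤ κ) →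
      (∀ y ∈ Metric.ball y0 (2 * ε), ins v y ∈ Psi '' DD t0 r f →
        |fderiv ℝ K.g11 (ins v y) (e4 K (ins v y))| ≤ c ∧
        |fderiv ℝ K.g12 (ins v y) (e4 K (ins v y))| ≤ c ∧
        |fderiv ℝ K.g22 (ins v y) (e4 K (ins v y))| ≤ c ∧ γ ≤ σ * D3 K j (ins v y)) →
      ENNReal.ofReal γ * volume (Metric.ball y0 (ε / 8) ∩ Y) ≤ ENNReal.ofReal D *
        (ENNReal.ofReal c * volume (Metric.ball y0 (2 * ε) \ Y) +
          ENNReal.ofReal (1 / ε) * volume (Metric.ball y0 (2 * ε)) +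
          ∫⁻ y in Metric.ball y0 (2 * ε), Lh G Psi V t0 r f (ins v y)) := by
  obtain ⟨Da, hDa, ha⟩ := local_est h hcu hκ
  have hKd : ∀ x ∈ U, K.DiffAt x := fun x hx => SmoothOn.diffAt h.smoothK h.openU hx
  obtain ⟨Db, hDb, hbb⟩ := local_est_tr h (tr_sw K) hcv hcw hcu' hcu hκ (τ := tw)
    (fun v y => rfl) mp_tw tw_n1 tw_n2 (dK := fun x => fderiv ℝ K.g22 x (e4 K x))
    (fun x hx => by
      show fderiv ℝ (fun y => K.g22 (Tw.symm y)) (Tw x) (e4 K.sw (Tw x)) = _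
      rw [fderiv_T (hKd x hx).g22, sw_e4])
    (fun x hx c h1 h2 h3 => by
      have hc : 0 ≤ c := (abs_nonneg _).trans h1
      refine ⟨?_, ?_, ?_⟩
      · show |fderiv ℝ (fun y => K.g22 (Tw.symm y)) (Tw x) (e4 K.sw (Tw x))| ≤ _
        rw [fderiv_T (hKd x hx).g22, sw_e4]; linarith only [h3, hc]
      · show |fderiv ℝ (fun y => K.g12 (Tw.symm y)) (Tw x) (e4 K.sw (Tw x))| ≤ _
        rw [fderiv_T (hKd x hx).g12, sw_e4]; linarith only [h2, hc]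
      · show |fderiv ℝ (fun y => K.g11 (Tw.symm y)) (Tw x) (e4 K.sw (Tw x))| ≤ _
        rw [fderiv_T (hKd x hx).g11, sw_e4]; linarith)
  obtain ⟨Dc, hDc, hcc⟩ := local_est_tr h (tr_sh K) hcv hcw hcu' hcu hκ (τ := ts)
    (fun v y => rfl) mp_ts ts_n1 ts_n2 (dK := fun x => fderiv ℝ K.g11 x (e4 K x) +
      2 * fderiv ℝ K.g12 x (e4 K x) + fderiv ℝ K.g22 x (e4 K x))
    (fun x hx => by
      show fderiv ℝ (fun y => K.g11 (Ts.symm y) +
          2 * K.g12 (Ts.symm y) + K.g22 (Ts.symm y)) (Ts x) (e4 K.sh (Ts x)) = _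
      rw [fT_add3 (hKd x hx).g11 (hKd x hx).g12 (hKd x hx).g22, sh_e4])
    (fun x hx c h1 h2 h3 => by
      have hc : 0 ≤ c := (abs_nonneg _).trans h1
      refine ⟨?_, ?_, ?_⟩
      · show |fderiv ℝ (fun y => K.g11 (Ts.symm y) +
          2 * K.g12 (Ts.symm y) + K.g22 (Ts.symm y)) (Ts x) (e4 K.sh (Ts x))| ≤ _
        rw [fT_add3 (hKd x hx).g11 (hKd x hx).g12 (hKd x hx).g22, sh_e4]
        rw [abs_le] at *
        constructor <;> linarith only [h1, h2, h3]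
      · show |fderiv ℝ (fun y => K.g12 (Ts.symm y) + K.g22 (Ts.symm y)) (Ts x)
          (e4 K.sh (Ts x))| ≤ _
        rw [fT_add (hKd x hx).g12 (hKd x hx).g22, sh_e4]
        rw [abs_le] at *
        constructor <;> linarith only [h1, h2, h3]
      · show |fderiv ℝ (fun y => K.g22 (Ts.symm y)) (Ts x) (e4 K.sh (Ts x))| ≤ _
        rw [fderiv_T (hKd x hx).g22, sh_e4]; linarith)
  set D := Da + Db + Dc with hD
  refine ⟨D, by positivity, ?_⟩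
  intro j v y0 ε σ γ c Y hv hvlo hε hε1 hσ hγ hc0 hYm hY hball
  have key : ∀ D' : ℝ, D' ≤ D → ∀ X : ENNReal, ENNReal.ofReal D' * X ≤ ENNReal.ofReal D * X :=
    fun D' hD' X => mul_le_mul_left (ENNReal.ofReal_le_ofReal hD') _
  fin_cases j
  · have hs1 : Metric.ball y0 (ε / 8) ∩ Y ⊆ Metric.ball y0 (ε / 4) ∩ Y :=
      inter_subset_inter_left _ (Metric.ball_subset_ball (by linarith only [hε]))
    have hs2 : Metric.ball y0 ε ⊆ Metric.ball y0 (2 * ε) := Metric.ball_subset_ball (by linarith)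
    have h1 := ha v y0 ε σ γ c Y hv hvlo hε hε1 hσ hγ hc0 hYm hY
      (fun y hy hm => hball y (hs2 hy) hm)
    calc ENNReal.ofReal γ * volume (Metric.ball y0 (ε / 8) ∩ Y)
        ≤ ENNReal.ofReal γ * volume (Metric.ball y0 (ε / 4) ∩ Y) := by gcongr
      _ ≤ _ := h1
      _ ≤ ENNReal.ofReal Da * (ENNReal.ofReal c * volume (Metric.ball y0 (2 * ε) \ Y) +
          ENNReal.ofReal (1 / ε) * volume (Metric.ball y0 (2 * ε)) +
          ∫⁻ y in Metric.ball y0 (2 * ε), Lh G Psi V t0 r f (ins v y)) := by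
        gcongr
      _ ≤ _ := key _ (by linarith only [hDb, hDc]) _
  · exact (hbb v y0 ε σ γ c Y hv hvlo hε hε1 hσ hγ hc0 hYm hY hball).trans
      (key _ (by linarith only [hDa, hDc]) _)
  · exact (hcc v y0 ε σ γ c Y hv hvlo hε hε1 hσ hγ hc0 hYm hY hball).trans
      (key _ (by linarith) _)

end Vale.Agent.P354x
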