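import Vale.Agent.P354x.Avg
import Vale.Agent.P354x.Dir4

set_option maxSynthPendingDepth 3

open Set MeasureTheory Filter Topology

namespace Vale.Agent.P354x

open Vale.Agent.P354w PreHyp CoreHyp

/-- the radius of the balls in the slice `v` -/
noncomputable def rad (cv : ℝ → ℝ) (n : ℕ) (v : ℝ) : ℝ :=
  ((n : ℝ) + 1)⁻¹ * (Real.sqrt (1 + max (cv v) 0))⁻¹

lemma rad_pos (cv : ℝ → ℝ) (n : ℕ) (v : ℝ) : 0 < rad cv n v := by
  unfold rad
  have : 0 ≤ max (cv v) 0 := le_max_right _ _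
  positivity

lemma one_le_rt (cv : ℝ → ℝ) (v : ℝ) : 1 ≤ Real.sqrt (1 + max (cv v) 0) := by
  rw [Real.one_le_sqrt]
  have : 0 ≤ max (cv v) 0 := le_max_right _ _
  linarith only [this]

lemma rad_le (cv : ℝ → ℝ) (n : ℕ) (v : ℝ) : rad cv n v ≤ ((n : ℝ) + 1)⁻¹ := by
  unfold rad
  have h1 := one_le_rt cv v
  have h2 : (Real.sqrt (1 + max (cv v) 0))⁻¹ ≤ 1 := inv_le_one_of_one_le₀ h1
  have h3 : (0:ℝ) < ((n : ℝ) + 1)⁻¹ := by positivity
  linarith only [mul_le_mul_of_nonneg_left h2 h3.le]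

lemma rad_le_one (cv : ℝ → ℝ) (n : ℕ) (v : ℝ) : rad cv n v ≤ 1 := by
  refine (rad_le cv n v).trans (inv_le_one_of_one_le₀ ?_)
  have : (0:ℝ) ≤ n := Nat.cast_nonneg n
  linarith

lemma inv_rad (cv : ℝ → ℝ) (n : ℕ) (v : ℝ) :
    (rad cv n v)⁻¹ = ((n : ℝ) + 1) * Real.sqrt (1 + max (cv v) 0) := by
  unfold rad
  rw [mul_inv, inv_inv, inv_inv]

lemma cv_rad_sq (cv : ℝ → ℝ) (n : ℕ) (v : ℝ) : cv v * rad cv n v ^ 2 ≤ ((n : ℝ) + 1)⁻¹ := by
  have h0 : 0 ≤ max (cv v) 0 := le_max_right _ _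
  have h1 : cv v ≤ max (cv v) 0 := le_max_left _ _
  have h2 : rad cv n v ^ 2 = (((n : ℝ) + 1)⁻¹) ^ 2 * (1 + max (cv v) 0)⁻¹ := by
    unfold rad
    rw [mul_pow, inv_pow (Real.sqrt _), Real.sq_sqrt (by linarith)]
  rw [h2]
  have h3 : (0:ℝ) < ((n : ℝ) + 1)⁻¹ := by positivity
  have h4 : ((n : ℝ) + 1)⁻¹ ≤ 1 := inv_le_one_of_one_le₀ (by
    have : (0:ℝ) ≤ n := Nat.cast_nonneg n
    linarith only [])
  have h5 : cv v * (1 + max (cv v) 0)⁻¹ ≤ 1 := by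
    rw [← div_eq_mul_inv, div_le_one (by linarith only [h0])]
    linarith only [h1]
  have h6 : (((n : ℝ) + 1)⁻¹) ^ 2 ≤ ((n : ℝ) + 1)⁻¹ := by linarith only [mul_le_mul_of_nonneg_left h4 h3.le]
  calc cv v * ((((n : ℝ) + 1)⁻¹) ^ 2 * (1 + max (cv v) 0)⁻¹)
      = (((n : ℝ) + 1)⁻¹) ^ 2 * (cv v * (1 + max (cv v) 0)⁻¹) := by ring
    _ ≤ (((n : ℝ) + 1)⁻¹) ^ 2 * 1 := by gcongr
    _ ≤ _ := by linarith only [h6]

lemma measurable_rad {cv : ℝ → ℝ} (h : Measurable cv) (n : ℕ) : Measurable (rad cv n) := by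
  unfold rad
  fun_prop

lemma vol_cball (y : P3) {ρ : ℝ} (hρ : 0 ≤ ρ) :
    volume (Metric.closedBall y ρ) = ENNReal.ofReal (8 * ρ ^ 3) := by
  obtain ⟨a, b, c⟩ := y
  have e1 : Metric.closedBall ((a, b, c) : P3) ρ =
      Metric.closedBall a ρ ×ˢ Metric.closedBall ((b, c) : ℝ × ℝ) ρ :=
    (closedBall_prod_same a (b, c) ρ).symm
  have e2 : Metric.closedBall ((b, c) : ℝ × ℝ) ρ = Metric.closedBall b ρ ×ˢ Metric.closedBall c ρ :=
    (closedBall_prod_same b c ρ).symm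
  rw [e1, Measure.volume_eq_prod, Measure.prod_prod, e2, Measure.volume_eq_prod,
    Measure.prod_prod, Real.volume_closedBall, Real.volume_closedBall, Real.volume_closedBall,
    ← ENNReal.ofReal_mul (by positivity), ← ENNReal.ofReal_mul (by positivity)]
  congr 1
  ring

/-- density points -/
lemma density {Y : Set P3} (hY : MeasurableSet Y) :
    ∀ᵐ y0 : P3, y0 ∈ Y → ∀ δ > 0, ∃ ρ0 > 0, ∀ ρ, 0 < ρ → ρ < ρ0 →
      volume (Metric.ball y0 ρ \ Y) ≤ ENNReal.ofReal (δ * ρ ^ 3) := by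
  have h1 := Besicovitch.ae_tendsto_measure_inter_div (volume : Measure P3) Y
  rw [ae_restrict_iff' hY] at h1
  filter_upwards [h1] with y0 hy0 hy δ hδ
  have ht := hy0 hy
  have hlt : (1 : ENNReal) - ENNReal.ofReal (min (δ / 8) 1) < 1 := by
    apply ENNReal.sub_lt_self (by norm_num) (by norm_num)
    rw [ne_eq, ENNReal.ofReal_eq_zero, not_le]
    exact lt_min (by positivity) (by norm_num)
  have hev : ∀ᶠ ρ in 𝓝[>] (0:ℝ), 1 - ENNReal.ofReal (min (δ / 8) 1) <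
      volume (Y ∩ Metric.closedBall y0 ρ) / volume (Metric.closedBall y0 ρ) :=
    ht.eventually (lt_mem_nhds hlt)
  rw [eventually_nhdsWithin_iff, Metric.eventually_nhds_iff] at hev
  obtain ⟨ρ0, hρ0, hb⟩ := hev
  refine ⟨ρ0, hρ0, ?_⟩
  intro ρ hρ hρρ
  have hb1 := hb (y := ρ) (by rw [Real.dist_eq, sub_zero, abs_of_pos hρ]; exact hρρ) hρ
  have hvol : volume (Metric.closedBall y0 ρ) = ENNReal.ofReal (8 * ρ ^ 3) := vol_cball y0 hρ.le
  rw [hvol] at hb1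
  set q := min (δ / 8) 1 with hq
  have hq0 : 0 < q := lt_min (by positivity) (by norm_num)
  have hq1 : q ≤ 1 := min_le_right _ _
  have hqd : q ≤ δ / 8 := min_le_left _ _
  have hbpos : (0:ℝ) < 8 * ρ ^ 3 := by positivity
  have e1 : (1 : ENNReal) - ENNReal.ofReal q = ENNReal.ofReal (1 - q) := by
    rw [ENNReal.ofReal_sub _ hq0.le, ENNReal.ofReal_one]
  rw [e1] at hb1
  have h2 : ENNReal.ofReal (1 - q) * ENNReal.ofReal (8 * ρ ^ 3) ≤
      volume (Y ∩ Metric.closedBall y0 ρ) := by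
    have := hb1.le
    rwa [ENNReal.le_div_iff_mul_le (Or.inl (by
      rw [ne_eq, ENNReal.ofReal_eq_zero, not_le]; exact hbpos)) (Or.inl ENNReal.ofReal_ne_top)]
      at this
  have h3 : volume (Y ∩ Metric.closedBall y0 ρ) + volume (Metric.closedBall y0 ρ \ Y) =
      ENNReal.ofReal (8 * ρ ^ 3) := by
    rw [← hvol, inter_comm]
    exact measure_inter_add_diff _ hY
  have h4 : ENNReal.ofReal ((1 - q) * (8 * ρ ^ 3)) + volume (Metric.closedBall y0 ρ \ Y) ≤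
      ENNReal.ofReal ((1 - q) * (8 * ρ ^ 3)) + ENNReal.ofReal (q * (8 * ρ ^ 3)) := by
    rw [← ENNReal.ofReal_add (mul_nonneg (by linarith only [hq1]) hbpos.le) (by positivity)]
    have e : (1 - q) * (8 * ρ ^ 3) + q * (8 * ρ ^ 3) = 8 * ρ ^ 3 := by ring
    rw [e, ← h3, ENNReal.ofReal_mul (by linarith only [hq1])]
    gcongr
  have h5 : volume (Metric.closedBall y0 ρ \ Y) ≤ ENNReal.ofReal (q * (8 * ρ ^ 3)) :=
    (ENNReal.add_le_add_iff_left ENNReal.ofReal_ne_top).mp h4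
  calc volume (Metric.ball y0 ρ \ Y) ≤ volume (Metric.closedBall y0 ρ \ Y) :=
        measure_mono (diff_subset_diff_left Metric.ball_subset_closedBall)
    _ ≤ ENNReal.ofReal (q * (8 * ρ ^ 3)) := h5
    _ ≤ ENNReal.ofReal (δ * ρ ^ 3) := by
      apply ENNReal.ofReal_le_ofReal
      have : 0 < ρ ^ 3 := by positivity
      nlinarith only [hqd, hbpos]

end Vale.Agent.P354x
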