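import Vale.Agent.P354x.Fin1

set_option maxSynthPendingDepth 3

open Set MeasureTheory Filter Topology

namespace Vale.Agent.P354x

open Vale.Agent.P354w PreHyp CoreHyp

variable {K : Coef} {G : P4 → P4 →L[ℝ] P4 →L[ℝ] ℝ} {Psi : P4 → P4} {V U : Set P4}
    {C R : ℝ} {cv cw cu : ℝ → ℝ} {t0 r : ℝ} {f : P3 → ℝ}

/-- real number bookkeeping: from the local estimate to a bound of `γ` -/
lemma absorb {γ D m ρ δ : ℝ} {A X1 X2 X3 : ENNReal} (hγ : 0 ≤ γ) (hD : 0 < D) (hm : 0 < m)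
    (hρ : 0 < ρ) (hδ : δ = (8192 * (1 + D * m))⁻¹)
    (h : ENNReal.ofReal γ * X1 ≤ ENNReal.ofReal D * (ENNReal.ofReal (m * γ) * X2 +
      ENNReal.ofReal (1 / (ρ / 2)) * ENNReal.ofReal (8 * ρ ^ 3) + X3))
    (h1 : ENNReal.ofReal (ρ ^ 3 / 512) ≤ X1 + ENNReal.ofReal (δ * ρ ^ 3))
    (h2 : X2 ≤ ENNReal.ofReal (δ * ρ ^ 3))
    (h3 : ENNReal.ofReal (ρ⁻¹ ^ 3) * X3 ≤ A) :
    ENNReal.ofReal γ ≤ ENNReal.ofReal (1024 * D) * (ENNReal.ofReal (16 * ρ⁻¹) + A) := by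
  by_cases hA : A = ⊤
  · have : ENNReal.ofReal (1024 * D) ≠ 0 := by
      rw [ne_eq, ENNReal.ofReal_eq_zero, not_le]; positivity
    rw [hA, add_top, ENNReal.mul_top this]
    exact le_top
  have hρ3 : 0 < ρ ^ 3 := by positivity
  have hi3 : 0 < ρ⁻¹ ^ 3 := by positivity
  have hX3 : X3 ≠ ⊤ := by
    intro ht
    rw [ht, ENNReal.mul_top (by rw [ne_eq, ENNReal.ofReal_eq_zero, not_le]; exact hi3)] at h3
    exact hA (top_le_iff.mp h3)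
  have hX2 : X2 ≠ ⊤ := ne_top_of_le_ne_top ENNReal.ofReal_ne_top h2
  have hδ0 : 0 < δ := by rw [hδ]; positivity
  obtain ⟨a, ha0, rfl⟩ : ∃ a : ℝ, 0 ≤ a ∧ A = ENNReal.ofReal a :=
    ⟨A.toReal, ENNReal.toReal_nonneg, (ENNReal.ofReal_toReal hA).symm⟩
  obtain ⟨x3, hx30, rfl⟩ : ∃ a : ℝ, 0 ≤ a ∧ X3 = ENNReal.ofReal a :=
    ⟨X3.toReal, ENNReal.toReal_nonneg, (ENNReal.ofReal_toReal hX3).symm⟩
  obtain ⟨x2, hx20, rfl⟩ : ∃ a : ℝ, 0 ≤ a ∧ X2 = ENNReal.ofReal a :=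
    ⟨X2.toReal, ENNReal.toReal_nonneg, (ENNReal.ofReal_toReal hX2).symm⟩
  rw [← ENNReal.ofReal_add (by positivity) ha0, ← ENNReal.ofReal_mul (by positivity)]
  apply ENNReal.ofReal_le_ofReal
  have h2' : x2 ≤ δ * ρ ^ 3 := by
    rwa [ENNReal.ofReal_le_ofReal_iff (by positivity)] at h2
  have h3' : x3 ≤ ρ ^ 3 * a := by
    rw [← ENNReal.ofReal_mul hi3.le, ENNReal.ofReal_le_ofReal_iff ha0] at h3
    have e : ρ ^ 3 * (ρ⁻¹ ^ 3 * x3) = x3 := by field_simp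
    calc x3 = ρ ^ 3 * (ρ⁻¹ ^ 3 * x3) := e.symm
      _ ≤ ρ ^ 3 * a := by gcongr
  have hR : ENNReal.ofReal D * (ENNReal.ofReal (m * γ) * ENNReal.ofReal x2 +
      ENNReal.ofReal (1 / (ρ / 2)) * ENNReal.ofReal (8 * ρ ^ 3) + ENNReal.ofReal x3) =
      ENNReal.ofReal (D * (m * γ * x2 + 16 * ρ ^ 2 + x3)) := by
    rw [← ENNReal.ofReal_mul (by positivity), ← ENNReal.ofReal_mul (by positivity),
      ← ENNReal.ofReal_add (by positivity) (by positivity),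
      ← ENNReal.ofReal_add (by positivity) (by positivity), ← ENNReal.ofReal_mul hD.le]
    congr 1
    field_simp
    ring
  rw [hR] at h
  have hm1 : ENNReal.ofReal (γ * (ρ ^ 3 / 512)) ≤
      ENNReal.ofReal (D * (m * γ * x2 + 16 * ρ ^ 2 + x3) + γ * (δ * ρ ^ 3)) := by
    rw [ENNReal.ofReal_mul hγ, ENNReal.ofReal_add (by positivity) (by positivity),
      ENNReal.ofReal_mul (p := γ) hγ]
    calc ENNReal.ofReal γ * ENNReal.ofReal (ρ ^ 3 / 512)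
        ≤ ENNReal.ofReal γ * (X1 + ENNReal.ofReal (δ * ρ ^ 3)) := by gcongr
      _ = ENNReal.ofReal γ * X1 + ENNReal.ofReal γ * ENNReal.ofReal (δ * ρ ^ 3) := by ring
      _ ≤ _ := by gcongr
  rw [ENNReal.ofReal_le_ofReal_iff (by positivity)] at hm1
  have hδ1 : δ * (1 + D * m) = 1 / 8192 := by
    rw [hδ]
    field_simp
  have key : γ * (ρ ^ 3 / 512) ≤ γ * ρ ^ 3 * (1 / 8192) + D * (16 * ρ ^ 2 + ρ ^ 3 * a) := by
    calc γ * (ρ ^ 3 / 512) ≤ D * (m * γ * x2 + 16 * ρ ^ 2 + x3) + γ * (δ * ρ ^ 3) := hm1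
      _ ≤ D * (m * γ * (δ * ρ ^ 3) + 16 * ρ ^ 2 + ρ ^ 3 * a) + γ * (δ * ρ ^ 3) := by gcongr
      _ = γ * ρ ^ 3 * (δ * (1 + D * m)) + D * (16 * ρ ^ 2 + ρ ^ 3 * a) := by ring
      _ = _ := by rw [hδ1]
  have key2 : γ * ρ ^ 3 ≤ 1024 * (D * (16 * ρ ^ 2 + ρ ^ 3 * a)) := by
    have : 0 ≤ γ * ρ ^ 3 := by positivity
    linarith
  have key3 : γ * ρ ^ 3 ≤ (1024 * D * (16 * ρ⁻¹ + a)) * ρ ^ 3 := by
    refine key2.trans (le_of_eq ?_)
    field_simp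
  exact le_of_mul_le_mul_right key3 hρ3

lemma add_sq_le4 (a b : ENNReal) : (a + b) ^ 2 ≤ 4 * (a ^ 2 + b ^ 2) := by
  rcases le_total a b with hab | hab
  · calc (a + b) ^ 2 ≤ (b + b) ^ 2 := by gcongr
      _ = 4 * (0 + b ^ 2) := by ring
      _ ≤ 4 * (a ^ 2 + b ^ 2) := by gcongr; exact bot_le
  · calc (a + b) ^ 2 ≤ (a + a) ^ 2 := by gcongr
      _ = 4 * (a ^ 2 + 0) := by ring
      _ ≤ 4 * (a ^ 2 + b ^ 2) := by gcongr; exact bot_le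

/-- the averaged `|dG|` near `y0` in the slice `v` -/
noncomputable def AvL (G : P4 → P4 →L[ℝ] P4 →L[ℝ] ℝ) (Psi : P4 → P4) (V : Set P4) (t0 r : ℝ)
    (f : P3 → ℝ) (cv : ℝ → ℝ) (n : ℕ) (y0 : P3) (v : ℝ) : ENNReal :=
  ENNReal.ofReal ((rad cv n v)⁻¹ ^ 3) *
    ∫⁻ y in Metric.ball y0 (rad cv n v), Lh G Psi V t0 r f (ins v y)

lemma avL_ae (h : PreHyp K G Psi V U C R cv cw cu t0 r f) (n : ℕ) :
    ∀ᵐ y0 : P3, ∫⁻ v, AvL G Psi V t0 r f cv n y0 v ^ 2 ≠ ⊤ := by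
  have h1 := lintegral_Lh_sq h
  rw [lintegral_ins ((measurable_Lh h).pow_const 2)] at h1
  exact avg_ae (L := fun v y => Lh G Psi V t0 r f (ins v y)) (ε := rad cv n)
    ((measurable_Lh h).comp measurable_ins) h1 (measurable_rad h.cv_meas n) (rad_pos cv n)

lemma lintegral_rt (h : PreHyp K G Psi V U C R cv cw cu t0 r f) {v0 : ℝ} (hv0 : -R ≤ v0) (c : ℝ) :
    ∫⁻ v in Ico v0 0, ENNReal.ofReal (c * Real.sqrt (1 + max (cv v) 0)) ^ 2 ≠ ⊤ := by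
  have h0 : ∀ v, 0 ≤ max (cv v) 0 := fun v => le_max_right _ _
  have e : ∀ v, ENNReal.ofReal (c * Real.sqrt (1 + max (cv v) 0)) ^ 2 ≤
      ENNReal.ofReal (c ^ 2) * (1 + ENNReal.ofReal (cv v)) := by
    intro v
    have hs : (c * Real.sqrt (1 + max (cv v) 0)) ^ 2 = c ^ 2 * (1 + max (cv v) 0) := by
      rw [mul_pow, Real.sq_sqrt (by linarith [h0 v])]
    by_cases hc : 0 ≤ c * Real.sqrt (1 + max (cv v) 0)
    · rw [← ENNReal.ofReal_pow hc, hs, ENNReal.ofReal_mul (by positivity),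
        ENNReal.ofReal_add (by norm_num) (h0 v), ENNReal.ofReal_one, ENNReal.ofReal_max,
        ENNReal.ofReal_zero, max_eq_left zero_le]
    · push Not at hc
      rw [ENNReal.ofReal_of_nonpos hc.le]
      simp
  have h1 : ∫⁻ v in Ico v0 0, ENNReal.ofReal (c ^ 2) * (1 + ENNReal.ofReal (cv v)) ≠ ⊤ := by
    rw [lintegral_const_mul' _ _ ENNReal.ofReal_ne_top, lintegral_add_left measurable_const]
    apply ENNReal.mul_ne_top ENNReal.ofReal_ne_top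
    apply ENNReal.add_ne_top.mpr
    constructor
    · simp
    · exact ne_top_of_le_ne_top h.cv_int (lintegral_mono_set (Ico_subset_Ico_left hv0))
  exact ne_top_of_le_ne_top h1 (lintegral_mono e)

/-- On a set of generators of positive measure, the metric derivatives which are comparable to
a constant on balls of radius `cv ^ (-1/2)` are square integrable. -/
theorem fin_core (h : CoreHyp K G Psi V U C R cv cw cu t0 r f) (hw : ∀ y ∈ U, PtW K y C)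
    (hcv : ∫⁻ v in Ico (-(2 * R)) 0, ENNReal.ofReal (cv v) ≠ ⊤)
    (hcw : ∫⁻ v in Ico (-(2 * R)) 0, ENNReal.ofReal (cw v) ≠ ⊤)
    (hcu' : ∫⁻ u in Icc (-(2 * R)) (2 * R), ENNReal.ofReal (cu u) ≠ ⊤)
    (hcu : ∀ u, cu u ≤ C) :
    ∃ v0 < 0, ∃ Z : Set P3, 0 < volume Z ∧ ∀ y0 ∈ Z,
      (∀ v ∈ Ico v0 0, ins v y0 ∈ Psi '' DD t0 r f) ∧
      ∀ m ρ : ℝ, 0 < m → 0 < ρ → ∃ B : ℝ → ENNReal, ∫⁻ v in Ico v0 0, B v ^ 2 ≠ ⊤ ∧
        ∀ v ∈ Ico v0 0, ∀ (j : Fin 3) (σ γ : ℝ), |σ| = 1 → 0 ≤ γ →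
          (∀ y : P3, ‖y - y0‖ < ρ → cv v * ‖y - y0‖ ^ 2 < ρ → ins v y ∈ Psi '' DD t0 r f →
            |fderiv ℝ K.g11 (ins v y) (e4 K (ins v y))| ≤ m * γ ∧
            |fderiv ℝ K.g12 (ins v y) (e4 K (ins v y))| ≤ m * γ ∧
            |fderiv ℝ K.g22 (ins v y) (e4 K (ins v y))| ≤ m * γ ∧
            γ ≤ σ * D3 K j (ins v y)) → ENNReal.ofReal γ ≤ B v := by
  obtain ⟨κ, hκ, v0, hv0, Y, hYm, hY0, hvlo, hY⟩ := good_gen h hw hcu
  obtain ⟨D, hD, hest⟩ := local_est3 h hcv hcw hcu' hcu hκ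
  refine ⟨v0, hv0, {y | y ∈ Y ∧ (∀ n, ∫⁻ v, AvL G Psi V t0 r f cv n y v ^ 2 ≠ ⊤) ∧
    ∀ δ > 0, ∃ ρ0 > 0, ∀ ρ, 0 < ρ → ρ < ρ0 →
      volume (Metric.ball y ρ \ Y) ≤ ENNReal.ofReal (δ * ρ ^ 3)}, ?_, ?_⟩
  · have hae : ∀ᵐ y : P3, y ∈ Y → (∀ n, ∫⁻ v, AvL G Psi V t0 r f cv n y v ^ 2 ≠ ⊤) ∧
        ∀ δ > 0, ∃ ρ0 > 0, ∀ ρ, 0 < ρ → ρ < ρ0 →
          volume (Metric.ball y ρ \ Y) ≤ ENNReal.ofReal (δ * ρ ^ 3) := by
      filter_upwards [density hYm, ae_all_iff.mpr (avL_ae h.toPreHyp)] with y h1 h2 hy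
      exact ⟨h2, h1 hy⟩
    have hle : volume Y ≤ volume {y | y ∈ Y ∧ (∀ n, ∫⁻ v, AvL G Psi V t0 r f cv n y v ^ 2 ≠ ⊤) ∧
        ∀ δ > 0, ∃ ρ0 > 0, ∀ ρ, 0 < ρ → ρ < ρ0 →
          volume (Metric.ball y ρ \ Y) ≤ ENNReal.ofReal (δ * ρ ^ 3)} := by
      apply measure_mono_ae
      filter_upwards [hae] with y hy hyY
      exact ⟨hyY, hy hyY⟩
    exact lt_of_lt_of_le hY0 hle
  rintro y0 ⟨hy0, havg, hdens⟩
  have himg : ∀ v ∈ Ico v0 0, ins v y0 ∈ Psi '' DD t0 r f := by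
    intro v hv
    obtain ⟨z, hz, hzy, _⟩ := hY y0 hy0 v hv
    exact ⟨z, hz, hzy⟩
  refine ⟨himg, ?_⟩
  have hRv : -R ≤ v0 := by
    obtain ⟨z, hz, hzy⟩ := himg v0 ⟨le_refl _, hv0⟩
    have := (h.U_sub _ (h.maps (h.DD_sub hz))).2.1
    rw [hzy] at this
    exact this
  intro m ρ hm hρ
  set δ : ℝ := (8192 * (1 + D * m))⁻¹ with hδ
  have hδ0 : 0 < δ := by rw [hδ]; positivity
  obtain ⟨ρ0, hρ0, hdn⟩ := hdens δ hδ0
  obtain ⟨n, hn⟩ := exists_nat_one_div_lt (lt_min hρ0 hρ)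
  rw [one_div, lt_min_iff] at hn
  refine ⟨fun v => ENNReal.ofReal (1024 * D) * (ENNReal.ofReal (16 * (rad cv n v)⁻¹) +
    AvL G Psi V t0 r f cv n y0 v), ?_, ?_⟩
  · have hb : ∀ v, (ENNReal.ofReal (1024 * D) * (ENNReal.ofReal (16 * (rad cv n v)⁻¹) +
        AvL G Psi V t0 r f cv n y0 v)) ^ 2 ≤ (ENNReal.ofReal (1024 * D) ^ 2 * 4) *
        (ENNReal.ofReal ((16 * ((n : ℝ) + 1)) * Real.sqrt (1 + max (cv v) 0)) ^ 2 +
        AvL G Psi V t0 r f cv n y0 v ^ 2) := by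
      intro v
      have e : 16 * (rad cv n v)⁻¹ = (16 * ((n : ℝ) + 1)) * Real.sqrt (1 + max (cv v) 0) := by
        rw [inv_rad]; ring
      rw [e, mul_pow, mul_assoc (ENNReal.ofReal (1024 * D) ^ 2)]
      exact mul_le_mul_right (add_sq_le4 _ _) _
    refine ne_top_of_le_ne_top ?_ (lintegral_mono hb)
    rw [lintegral_const_mul' _ _ (by
      apply ENNReal.mul_ne_top (ENNReal.pow_ne_top ENNReal.ofReal_ne_top) (by norm_num))]
    apply ENNReal.mul_ne_top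
    · exact ENNReal.mul_ne_top (ENNReal.pow_ne_top ENNReal.ofReal_ne_top) (by norm_num)
    rw [lintegral_add_left]
    · apply ENNReal.add_ne_top.mpr
      refine ⟨lintegral_rt h.toPreHyp hRv _, ?_⟩
      exact ne_top_of_le_ne_top (havg n) (setLIntegral_le_lintegral _ _)
    · have := h.cv_meas
      fun_prop
  · intro v hv j σ γ hσ hγ hball
    have hr0 := rad_pos cv n v
    have hr1 := rad_le cv n v
    have hr2 := rad_le_one cv n v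
    have hr3 := cv_rad_sq cv n v
    have hrr : 2 * (rad cv n v / 2) = rad cv n v := by ring
    have h1 := hest j v y0 (rad cv n v / 2) σ γ (m * γ) Y hv.2
      (fun x hx => lt_of_lt_of_le (hvlo x hx) hv.1) (by positivity) (by linarith) hσ hγ
      (by positivity) hYm (fun y hy => hY y hy v hv)
      (by
        intro y hy hyi
        rw [hrr, Metric.mem_ball, dist_eq_norm] at hy
        apply hball y (by linarith [hn.2]) _ hyi
        by_cases hcv0 : 0 ≤ cv v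
        · calc cv v * ‖y - y0‖ ^ 2 ≤ cv v * rad cv n v ^ 2 := by gcongr
            _ < ρ := by linarith [hn.2]
        · push Not at hcv0
          have : cv v * ‖y - y0‖ ^ 2 ≤ 0 := mul_nonpos_of_nonpos_of_nonneg hcv0.le (by positivity)
          linarith)
    rw [hrr, vol_ball y0 hr0.le] at h1
    refine absorb hγ hD hm hr0 hδ h1 ?_ ?_ (le_refl _)
    · have e1 : ENNReal.ofReal (rad cv n v ^ 3 / 512) = volume (Metric.ball y0 (rad cv n v / 2 / 8)) := by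
        rw [vol_ball y0 (by positivity)]
        congr 1
        ring
      rw [e1, ← measure_inter_add_diff (Metric.ball y0 (rad cv n v / 2 / 8)) hYm]
      gcongr
      refine le_trans (measure_mono ?_) (hdn _ hr0 (by linarith [hn.1]))
      apply diff_subset_diff_left
      apply Metric.ball_subset_ball
      linarith
    · exact hdn _ hr0 (by linarith [hn.1])

end Vale.Agent.P354x
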