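import Vale.Agent.P354x.Fin2

set_option maxSynthPendingDepth 3

open Set MeasureTheory Filter Topology

namespace Vale.Agent.P354x

open Vale.Agent.P354w PreHyp CoreHyp

variable {K : Coef} {G : P4 → P4 →L[ℝ] P4 →L[ℝ] ℝ} {Psi : P4 → P4} {V U : Set P4}
    {C R : ℝ} {cv cw cu : ℝ → ℝ} {t0 r : ℝ} {f : P3 → ℝ}

/-- the sum of the derivatives of the angular metric in the direction `e4` -/
noncomputable def chi4 (K : Coef) (x : P4) : ℝ :=
  |fderiv ℝ K.g11 x (e4 K x)| + |fderiv ℝ K.g12 x (e4 K x)| + |fderiv ℝ K.g22 x (e4 K x)|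

/-- real number bookkeeping: choice of the direction -/
lemma choose_dir {d11 d12 d22 w : ℝ} (hw : 0 ≤ w)
    (hM : 8 * w ≤ max |d11| (max |d22| |d11 + 2 * d12 + d22|)) :
    ∃ (j : Fin 3) (σ γ : ℝ), |σ| = 1 ∧ 0 ≤ γ ∧ |d11| + |d12| + |d22| ≤ 7 * γ ∧
      ∀ x11 x12 x22 : ℝ, |x11 - d11| ≤ w → |x12 - d12| ≤ w → |x22 - d22| ≤ w →
        |x11| ≤ 4 * γ ∧ |x12| ≤ 4 * γ ∧ |x22| ≤ 4 * γ ∧
        γ ≤ σ * (![x11, x22, x11 + 2 * x12 + x22] j) := by
  set M := max |d11| (max |d22| |d11 + 2 * d12 + d22|) with hMd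
  have h1 : |d11| ≤ M := le_max_left _ _
  have h2 : |d22| ≤ M := (le_max_left _ _).trans (le_max_right _ _)
  have h3 : |d11 + 2 * d12 + d22| ≤ M := (le_max_right _ _).trans (le_max_right _ _)
  have h4 : |d12| ≤ 3 / 2 * M := by
    rw [abs_le] at *
    constructor <;> linarith only [h1, h2, h3]
  have key : ∀ x11 x12 x22 : ℝ, |x11 - d11| ≤ w → |x12 - d12| ≤ w → |x22 - d22| ≤ w →
      |x11| ≤ 4 * (M - 4 * w) ∧ |x12| ≤ 4 * (M - 4 * w) ∧ |x22| ≤ 4 * (M - 4 * w) := by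
    intro x11 x12 x22 k1 k2 k3
    rw [abs_le] at *
    refine ⟨?_, ?_, ?_⟩
    all_goals first | rw [abs_le] | skip
    all_goals constructor <;> linarith only [hw, hM, h1, k1, h2, h3, k2, k3]
  have hsum : |d11| + |d12| + |d22| ≤ 7 * (M - 4 * w) := by linarith
  have hcases : M = |d11| ∨ M = |d22| ∨ M = |d11 + 2 * d12 + d22| := by
    rcases max_choice |d11| (max |d22| |d11 + 2 * d12 + d22|) with h | h
    · left; rw [hMd, h]
    · rcases max_choice |d22| |d11 + 2 * d12 + d22| with h' | h'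
      · right; left; rw [hMd, h, h']
      · right; right; rw [hMd, h, h']
  rcases hcases with hc | hc | hc
  · rcases le_total 0 d11 with hs | hs
    · refine ⟨0, 1, M - 4 * w, by norm_num, by linarith only [hw, hM], hsum, ?_⟩
      intro x11 x12 x22 k1 k2 k3
      obtain ⟨u1, u2, u3⟩ := key _ _ _ k1 k2 k3
      refine ⟨u1, u2, u3, ?_⟩
      rw [abs_of_nonneg hs] at hc
      simp only [Matrix.cons_val_zero]
      rw [abs_le] at k1
      linarith only [hw, hc, k1]
    · refine ⟨0, -1, M - 4 * w, by norm_num, by linarith only [hw, hM], hsum, ?_⟩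
      intro x11 x12 x22 k1 k2 k3
      obtain ⟨u1, u2, u3⟩ := key _ _ _ k1 k2 k3
      refine ⟨u1, u2, u3, ?_⟩
      rw [abs_of_nonpos hs] at hc
      simp only [Matrix.cons_val_zero]
      rw [abs_le] at k1
      linarith only [hw, hc, k1]
  · rcases le_total 0 d22 with hs | hs
    · refine ⟨1, 1, M - 4 * w, by norm_num, by linarith only [hw, hM], hsum, ?_⟩
      intro x11 x12 x22 k1 k2 k3
      obtain ⟨u1, u2, u3⟩ := key _ _ _ k1 k2 k3
      refine ⟨u1, u2, u3, ?_⟩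
      rw [abs_of_nonneg hs] at hc
      simp only [Matrix.cons_val_one, Matrix.cons_val_zero]
      rw [abs_le] at k3
      linarith only [hw, hc, k3]
    · refine ⟨1, -1, M - 4 * w, by norm_num, by linarith only [hw, hM], hsum, ?_⟩
      intro x11 x12 x22 k1 k2 k3
      obtain ⟨u1, u2, u3⟩ := key _ _ _ k1 k2 k3
      refine ⟨u1, u2, u3, ?_⟩
      rw [abs_of_nonpos hs] at hc
      simp only [Matrix.cons_val_one, Matrix.cons_val_zero]
      rw [abs_le] at k3
      linarith only [hw, hc, k3]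
  · rcases le_total 0 (d11 + 2 * d12 + d22) with hs | hs
    · refine ⟨2, 1, M - 4 * w, by norm_num, by linarith only [hw, hM], hsum, ?_⟩
      intro x11 x12 x22 k1 k2 k3
      obtain ⟨u1, u2, u3⟩ := key _ _ _ k1 k2 k3
      refine ⟨u1, u2, u3, ?_⟩
      rw [abs_of_nonneg hs] at hc
      simp only [Matrix.cons_val]
      rw [abs_le] at k1 k2 k3
      linarith only [hc, k1, k2, k3]
    · refine ⟨2, -1, M - 4 * w, by norm_num, by linarith only [hw, hM], hsum, ?_⟩
      intro x11 x12 x22 k1 k2 k3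
      obtain ⟨u1, u2, u3⟩ := key _ _ _ k1 k2 k3
      refine ⟨u1, u2, u3, ?_⟩
      rw [abs_of_nonpos hs] at hc
      simp only [Matrix.cons_val]
      rw [abs_le] at k1 k2 k3
      linarith only [hc, k1, k2, k3]

lemma D3_eq (K : Coef) (j : Fin 3) (x : P4) : D3 K j x =
    ![fderiv ℝ K.g11 x (e4 K x), fderiv ℝ K.g22 x (e4 K x), fderiv ℝ K.g11 x (e4 K x) +
      2 * fderiv ℝ K.g12 x (e4 K x) + fderiv ℝ K.g22 x (e4 K x)] j := by
  fin_cases j <;> rfl

/-- On a set of generators of positive measure the derivative of the metric is square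
integrable. -/
theorem fin6 (h : CoreHyp K G Psi V U C R cv cw cu t0 r f) (hw : ∀ y ∈ U, PtW K y C)
    (hcv : ∫⁻ v in Ico (-(2 * R)) 0, ENNReal.ofReal (cv v) ≠ ⊤)
    (hcw : ∫⁻ v in Ico (-(2 * R)) 0, ENNReal.ofReal (cw v) ≠ ⊤)
    (hcu' : ∫⁻ u in Icc (-(2 * R)) (2 * R), ENNReal.ofReal (cu u) ≠ ⊤)
    (hcu : ∀ u, cu u ≤ C) {P : ℝ} (hP : 0 ≤ P)
    (hosc : ∀ v y y', ins v y ∈ U → ins v y' ∈ U →
      |fderiv ℝ K.g11 (ins v y) (e4 K (ins v y)) - fderiv ℝ K.g11 (ins v y') (e4 K (ins v y'))| ≤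
        P * ‖y - y'‖ * cv v + P ∧
      |fderiv ℝ K.g12 (ins v y) (e4 K (ins v y)) - fderiv ℝ K.g12 (ins v y') (e4 K (ins v y'))| ≤
        P * ‖y - y'‖ * cv v + P ∧
      |fderiv ℝ K.g22 (ins v y) (e4 K (ins v y)) - fderiv ℝ K.g22 (ins v y') (e4 K (ins v y'))| ≤
        P * ‖y - y'‖ * cv v + P) :
    ∃ v0 < 0, ∃ Z : Set P3, 0 < volume Z ∧ ∀ y0 ∈ Z,
      (∀ v ∈ Ico v0 0, ins v y0 ∈ Psi '' DD t0 r f) ∧
      ∫⁻ v in Ico v0 0, ENNReal.ofReal (chi4 K (ins v y0)) ^ 2 ≠ ⊤ := by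
  obtain ⟨v0, hv0, Z, hZ, hcore⟩ := fin_core h hw hcv hcw hcu' hcu
  refine ⟨v0, hv0, Z, hZ, ?_⟩
  intro y0 hy0
  obtain ⟨himg, hB⟩ := hcore y0 hy0
  refine ⟨himg, ?_⟩
  obtain ⟨B, hBint, hBest⟩ := hB 4 1 (by norm_num) (by norm_num)
  have hRv : -R ≤ v0 := by
    obtain ⟨z, hz, hzy⟩ := himg v0 ⟨le_refl _, hv0⟩
    have := (h.U_sub _ (h.maps (h.DD_sub hz))).2.1
    rw [hzy] at this
    exact this
  have hUi : ∀ x, x ∈ Psi '' DD t0 r f → x ∈ U := by
    rintro _ ⟨z, hz, rfl⟩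
    exact h.maps (h.DD_sub hz)
  have hpt : ∀ v ∈ Ico v0 0, ENNReal.ofReal (chi4 K (ins v y0)) ≤
      7 * B v + ENNReal.ofReal ((56 * P) * Real.sqrt (1 + max (cv v) 0)) := by
    intro v hv
    have hyU := hUi _ (himg v hv)
    have hcv0 : 0 ≤ cv v := (h.bd _ hyU).cv0
    have hmax : max (cv v) 0 = cv v := max_eq_left hcv0
    set s := Real.sqrt (1 + max (cv v) 0) with hs
    have hs1 : 1 ≤ s := one_le_rt cv v
    have hs2 : s ^ 2 = 1 + cv v := by rw [hs, hmax, Real.sq_sqrt (by linarith)]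
    set w := 2 * P * s with hwd
    have hw0 : 0 ≤ w := by positivity
    have hω : ∀ y : P3, cv v * ‖y - y0‖ ^ 2 < 1 → P * ‖y - y0‖ * cv v + P ≤ w := by
      intro y hy
      have h1 : ‖y - y0‖ * cv v ≤ s := by
        apply le_of_sq_le_sq _ (by linarith only [hs1])
        calc (‖y - y0‖ * cv v) ^ 2 = (cv v * ‖y - y0‖ ^ 2) * cv v := by ring
          _ ≤ 1 * cv v := by gcongr
          _ ≤ s ^ 2 := by linarith only [hs2]
      calc P * ‖y - y0‖ * cv v + P = P * (‖y - y0‖ * cv v + 1) := by ring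
        _ ≤ P * (s + s) := by gcongr
        _ = w := by rw [hwd]; ring
    rcases le_total (8 * w) (max |fderiv ℝ K.g11 (ins v y0) (e4 K (ins v y0))|
        (max |fderiv ℝ K.g22 (ins v y0) (e4 K (ins v y0))|
          |fderiv ℝ K.g11 (ins v y0) (e4 K (ins v y0)) +
            2 * fderiv ℝ K.g12 (ins v y0) (e4 K (ins v y0)) +
            fderiv ℝ K.g22 (ins v y0) (e4 K (ins v y0))|)) with hc | hc
    · obtain ⟨j, σ, γ, hσ, hγ, hsum, hdir⟩ := choose_dir hw0 hc
      have h1 := hBest v hv j σ γ hσ hγ (by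
        intro y _ hy2 hyi
        have hyU' := hUi _ hyi
        obtain ⟨o1, o2, o3⟩ := hosc v y y0 hyU' hyU
        have hwy := hω y hy2
        have := hdir _ _ _ (o1.trans hwy) (o2.trans hwy) (o3.trans hwy)
        rw [D3_eq]
        exact this)
      calc ENNReal.ofReal (chi4 K (ins v y0)) ≤ ENNReal.ofReal (7 * γ) := by
            apply ENNReal.ofReal_le_ofReal
            exact hsum
        _ = 7 * ENNReal.ofReal γ := by
            rw [ENNReal.ofReal_mul (by norm_num)]; norm_num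
        _ ≤ 7 * B v := by gcongr
        _ ≤ _ := le_self_add
    · have hle : chi4 K (ins v y0) ≤ (56 * P) * s := by
        unfold chi4
        generalize fderiv ℝ K.g11 (ins v y0) (e4 K (ins v y0)) = d11 at *
        generalize fderiv ℝ K.g12 (ins v y0) (e4 K (ins v y0)) = d12 at *
        generalize fderiv ℝ K.g22 (ins v y0) (e4 K (ins v y0)) = d22 at *
        have h1 : |d11| ≤ 8 * w := (le_max_left _ _).trans hc
        have h2 : |d22| ≤ 8 * w := ((le_max_left _ _).trans (le_max_right _ _)).trans hc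
        have h3 : |d11 + 2 * d12 + d22| ≤ 8 * w :=
          ((le_max_right _ _).trans (le_max_right _ _)).trans hc
        have h4 : |d12| ≤ 12 * w := by
          rw [abs_le] at *
          constructor <;> linarith only [h1, h2, h3]
        have : 56 * P * s = 28 * w := by rw [hwd]; ring
        linarith only [h1, h2, h4]
      calc ENNReal.ofReal (chi4 K (ins v y0)) ≤ ENNReal.ofReal ((56 * P) * s) :=
            ENNReal.ofReal_le_ofReal hle
        _ ≤ _ := le_add_self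
  have hfin : ∫⁻ v in Ico v0 0, 4 * ((7 * B v) ^ 2 +
      ENNReal.ofReal ((56 * P) * Real.sqrt (1 + max (cv v) 0)) ^ 2) ≠ ⊤ := by
    rw [lintegral_const_mul' _ _ (by norm_num), lintegral_add_right]
    · apply ENNReal.mul_ne_top (by norm_num)
      apply ENNReal.add_ne_top.mpr
      refine ⟨?_, lintegral_rt h.toPreHyp hRv _⟩
      simp only [mul_pow]
      rw [lintegral_const_mul' _ _ (by norm_num)]
      exact ENNReal.mul_ne_top (by norm_num) hBint
    · have := h.cv_meas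
      fun_prop
  refine ne_top_of_le_ne_top hfin ?_
  apply setLIntegral_mono' measurableSet_Ico
  intro v hv
  refine (ENNReal.pow_le_pow_left (hpt v hv)).trans (add_sq_le4 _ _)

end Vale.Agent.P354x
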