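import Vale.Agent.P354w.PointEqZ

set_option maxSynthPendingDepth 3

namespace Vale.Agent.P354x

open Vale.Agent.P354w

/-- real number lemma for the v component -/
lemma alg_bV {C c4 c3 a b x1 x2 s1 s2 g11 g12 g22 o4 o3 o1 o2 g113 g123 g223 t1 t2 : ℝ}
    (hC : 1 ≤ C) (hc4 : 0 ≤ c4) (hc3 : 0 ≤ c3) (ha : 0 ≤ a) (hb : 0 ≤ b)
    (hx1 : |x1| ≤ C * (a + b)) (hx2 : |x2| ≤ C * (a + b)) (hs1 : |s1| ≤ C) (hs2 : |s2| ≤ C)
    (hg11 : |g11| ≤ C) (hg12 : |g12| ≤ C) (hg22 : |g22| ≤ C)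
    (ho4 : |o4| ≤ c4) (ho3 : |o3| ≤ c3) (ho1 : |o1| ≤ C) (ho2 : |o2| ≤ C)
    (hg113 : |g113| ≤ c3) (hg123 : |g123| ≤ c3) (hg223 : |g223| ≤ c3)
    (ht1 : |t1| ≤ C) (ht2 : |t2| ≤ C) :
    |-((o4 - s1 * o1 - s2 * o2) * b) - (x1 * o1 + b * o4 + a * o3 + x2 * o2) + o3 * a
      + (s1 * x1 * g113 + (s1 * x2 + s2 * x1) * g123 + s2 * x2 * g223)
      + (g11 * (t1 * x1 - s1 * t1 * b) + g12 * (t1 * x2 - s1 * t2 * b + t2 * x1 - s2 * t1 * b)
        + g22 * (t2 * x2 - s2 * t2 * b))|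
    ≤ 20 * C ^ 3 * ((1 + c4 + c3) * (a + b)) := by
  have hC0 : 0 < C := by linarith only [hC]
  have hM : 0 ≤ a + b := by linarith only [ha, hb]
  have c13 : C ≤ C ^ 3 := le_self_pow₀ hC (by norm_num)
  have c23 : C ^ 2 ≤ C ^ 3 := pow_le_pow_right₀ hC (by norm_num)
  have c03 : 1 ≤ C ^ 3 := one_le_pow₀ hC
  have hb' : |b| ≤ a + b := by rw [abs_of_nonneg hb]; linarith only [ha]
  have ha' : |a| ≤ a + b := by rw [abs_of_nonneg ha]; linarith only [hb]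
  set A := C ^ 3 * (a + b) with hA
  set B4 := C ^ 3 * (c4 * (a + b)) with hB4
  set B3 := C ^ 3 * (c3 * (a + b)) with hB3
  have m4 : c4 * (a + b) ≤ B4 := le_mul_of_one_le_left (by positivity) c03
  have m3 : c3 * (a + b) ≤ B3 := le_mul_of_one_le_left (by positivity) c03
  have m33 : C ^ 2 * (c3 * (a + b)) ≤ B3 := mul_le_mul_of_nonneg_right c23 (by positivity)
  have mA : C ^ 2 * (a + b) ≤ A := mul_le_mul_of_nonneg_right c23 hM
  have u1 : |o4 * b| ≤ B4 := (aux_mul2 ho4 hb').trans m4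
  have u2 : |s1 * o1 * b| ≤ A := (aux_mul3 hs1 ho1 hb').trans (by linarith only [mA])
  have u3 : |s2 * o2 * b| ≤ A := (aux_mul3 hs2 ho2 hb').trans (by linarith only [mA])
  have u4 : |x1 * o1| ≤ A := (aux_mul2 hx1 ho1).trans (by linarith only [mA])
  have u5 : |x2 * o2| ≤ A := (aux_mul2 hx2 ho2).trans (by linarith only [mA])
  have u6 : |o3 * a| ≤ B3 := (aux_mul2 ho3 ha').trans m3
  have v1 : |s1 * x1 * g113| ≤ B3 := (aux_mul3 hs1 hx1 hg113).trans (by linarith only [m33])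
  have v2 : |s1 * x2 * g123| ≤ B3 := (aux_mul3 hs1 hx2 hg123).trans (by linarith only [m33])
  have v3 : |s2 * x1 * g123| ≤ B3 := (aux_mul3 hs2 hx1 hg123).trans (by linarith only [m33])
  have v4 : |s2 * x2 * g223| ≤ B3 := (aux_mul3 hs2 hx2 hg223).trans (by linarith only [m33])
  have w : ∀ {g t x : ℝ}, |g| ≤ C → |t| ≤ C → |x| ≤ C * (a + b) → |g * t * x| ≤ A := by
    intro g t x h1 h2 h3
    exact (aux_mul3 h1 h2 h3).trans (by rw [hA]; apply le_of_eq; ring)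
  have w' : ∀ {g s t : ℝ}, |g| ≤ C → |s| ≤ C → |t| ≤ C → |g * s * t * b| ≤ A := by
    intro g s t h1 h2 h3
    exact (aux_mul2 (aux_mul3 h1 h2 h3) hb').trans (by rw [hA]; apply le_of_eq; ring)
  have w1 := w hg11 ht1 hx1
  have w2 := w' hg11 hs1 ht1
  have w3 := w hg12 ht1 hx2
  have w4 := w' hg12 hs1 ht2
  have w5 := w hg12 ht2 hx1
  have w6 := w' hg12 hs2 ht1
  have w7 := w hg22 ht2 hx2
  have w8 := w' hg22 hs2 ht2
  have e : -((o4 - s1 * o1 - s2 * o2) * b) - (x1 * o1 + b * o4 + a * o3 + x2 * o2) + o3 * a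
      + (s1 * x1 * g113 + (s1 * x2 + s2 * x1) * g123 + s2 * x2 * g223)
      + (g11 * (t1 * x1 - s1 * t1 * b) + g12 * (t1 * x2 - s1 * t2 * b + t2 * x1 - s2 * t1 * b)
        + g22 * (t2 * x2 - s2 * t2 * b))
      = -2 * (o4 * b) + s1 * o1 * b + s2 * o2 * b - x1 * o1 - x2 * o2
        + s1 * x1 * g113 + s1 * x2 * g123 + s2 * x1 * g123 + s2 * x2 * g223
        + g11 * t1 * x1 - g11 * s1 * t1 * b + g12 * t1 * x2 - g12 * s1 * t2 * b
        + g12 * t2 * x1 - g12 * s2 * t1 * b + g22 * t2 * x2 - g22 * s2 * t2 * b := by ring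
  have eR : 20 * C ^ 3 * ((1 + c4 + c3) * (a + b)) = 20 * A + 20 * B4 + 20 * B3 := by
    rw [hA, hB4, hB3]; ring
  rw [e, eR]
  have pA : 0 ≤ A := by positivity
  have pB4 : 0 ≤ B4 := by positivity
  have pB3 : 0 ≤ B3 := by positivity
  clear_value A B4 B3
  clear e eR w w' hA hB4 hB3
  generalize o4 * b = q1 at *
  generalize s1 * o1 * b = q2 at *
  generalize s2 * o2 * b = q3 at *
  generalize x1 * o1 = q4 at *
  generalize x2 * o2 = q5 at *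
  generalize s1 * x1 * g113 = q6 at *
  generalize s1 * x2 * g123 = q7 at *
  generalize s2 * x1 * g123 = q8 at *
  generalize s2 * x2 * g223 = q9 at *
  generalize g11 * t1 * x1 = q10 at *
  generalize g11 * s1 * t1 * b = q11 at *
  generalize g12 * t1 * x2 = q12 at *
  generalize g12 * s1 * t2 * b = q13 at *
  generalize g12 * t2 * x1 = q14 at *
  generalize g12 * s2 * t1 * b = q15 at *
  generalize g22 * t2 * x2 = q16 at *
  generalize g22 * s2 * t2 * b = q17 at *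
  clear * - u1 u2 u3 u4 u5 v1 v2 v3 v4 w1 w2 w3 w4 w5 w6 w7 w8 pA pB4 pB3
  rw [abs_le] at *
  obtain ⟨_, _⟩ := u1
  obtain ⟨_, _⟩ := u2
  obtain ⟨_, _⟩ := u3
  obtain ⟨_, _⟩ := u4
  obtain ⟨_, _⟩ := u5
  obtain ⟨_, _⟩ := v1
  obtain ⟨_, _⟩ := v2
  obtain ⟨_, _⟩ := v3
  obtain ⟨_, _⟩ := v4
  obtain ⟨_, _⟩ := w1
  obtain ⟨_, _⟩ := w2
  obtain ⟨_, _⟩ := w3
  obtain ⟨_, _⟩ := w4
  obtain ⟨_, _⟩ := w5
  obtain ⟨_, _⟩ := w6
  obtain ⟨_, _⟩ := w7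
  obtain ⟨_, _⟩ := w8
  constructor <;> linarith

/-- real number lemma for the u component -/
lemma alg_aV {C c4 a b x1 x2 s1 s2 g11 g12 g22 o1 o2 g114 g124 g224 s11 s12 s13 s21 s22 s23 : ℝ}
    (hC : 1 ≤ C) (hc4 : 0 ≤ c4) (ha : 0 ≤ a) (hb : 0 ≤ b)
    (hx1 : |x1| ≤ C * (a + b)) (hx2 : |x2| ≤ C * (a + b)) (hs1 : |s1| ≤ C) (hs2 : |s2| ≤ C)
    (hg11 : |g11| ≤ C) (hg12 : |g12| ≤ C) (hg22 : |g22| ≤ C)
    (ho1 : |o1| ≤ C) (ho2 : |o2| ≤ C)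
    (hg114 : |g114| ≤ c4) (hg124 : |g124| ≤ c4) (hg224 : |g224| ≤ c4)
    (h11 : |s11| ≤ C) (h12 : |s12| ≤ C) (h13 : |s13| ≤ C)
    (h21 : |s21| ≤ C) (h22 : |s22| ≤ C) (h23 : |s23| ≤ C) :
    |a * (s1 * o1 + s2 * o2) + (s1 * x1 * g114 + (s1 * x2 + s2 * x1) * g124 + s2 * x2 * g224)
      + (g11 * (x1 * (s1 * s11 + s2 * s12) + s1 * (x1 * s11 + a * s13 + x2 * s12))
        + g12 * (x1 * (s1 * s21 + s2 * s22) + s1 * (x1 * s21 + a * s23 + x2 * s22)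
          + x2 * (s1 * s11 + s2 * s12) + s2 * (x1 * s11 + a * s13 + x2 * s12))
        + g22 * (x2 * (s1 * s21 + s2 * s22) + s2 * (x1 * s21 + a * s23 + x2 * s22)))|
    ≤ 40 * C ^ 4 * ((1 + c4) * (a + b)) := by
  have hC0 : 0 < C := by linarith only [hC]
  have hM : 0 ≤ a + b := by linarith only [ha, hb]
  have c24 : C ^ 2 ≤ C ^ 4 := pow_le_pow_right₀ hC (by norm_num)
  have c34 : C ^ 3 ≤ C ^ 4 := pow_le_pow_right₀ hC (by norm_num)
  have ha' : |a| ≤ a + b := by rw [abs_of_nonneg ha]; linarith only [hb]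
  set A := C ^ 4 * (a + b) with hA
  set B4 := C ^ 4 * (c4 * (a + b)) with hB4
  have m33 : C ^ 2 * (c4 * (a + b)) ≤ B4 := mul_le_mul_of_nonneg_right c24 (by positivity)
  have mA : C ^ 2 * (a + b) ≤ A := mul_le_mul_of_nonneg_right c24 hM
  have mA3 : C ^ 3 * (a + b) ≤ A := mul_le_mul_of_nonneg_right c34 hM
  have pA : 0 ≤ A := by positivity
  have pB4 : 0 ≤ B4 := by positivity
  -- pair sums
  have y1 : |s1 * o1 + s2 * o2| ≤ 2 * C ^ 2 := by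
    have k1 := aux_mul2 hs1 ho1
    have k2 := aux_mul2 hs2 ho2
    refine (abs_add_le _ _).trans ?_
    linarith only [k1, k2]
  have y2 : |s1 * s11 + s2 * s12| ≤ 2 * C ^ 2 := by
    have k1 := aux_mul2 hs1 h11
    have k2 := aux_mul2 hs2 h12
    refine (abs_add_le _ _).trans ?_
    linarith only [k1, k2]
  have y3 : |s1 * s21 + s2 * s22| ≤ 2 * C ^ 2 := by
    have k1 := aux_mul2 hs1 h21
    have k2 := aux_mul2 hs2 h22
    refine (abs_add_le _ _).trans ?_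
    linarith only [k1, k2]
  have k4 : (a + b) * C ≤ C ^ 2 * (a + b) := by
    have h1 : C ≤ C ^ 2 := le_self_pow₀ hC (by norm_num)
    calc (a + b) * C = C * (a + b) := by ring
      _ ≤ C ^ 2 * (a + b) := mul_le_mul_of_nonneg_right h1 hM
  have yy : ∀ {p q r : ℝ}, |p| ≤ C → |q| ≤ C → |r| ≤ C →
      |x1 * p + a * q + x2 * r| ≤ 3 * C ^ 2 * (a + b) := by
    intro p q r hp hq hr
    have k1 := aux_mul2 hx1 hp
    have k2 := aux_mul2 ha' hq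
    have k3 := aux_mul2 hx2 hr
    have h1 := abs_add_le (x1 * p + a * q) (x2 * r)
    have h2 := abs_add_le (x1 * p) (a * q)
    have e1 : C * (a + b) * C = C ^ 2 * (a + b) := by ring
    rw [e1] at k1 k3
    linarith only [k4, k1, k2, k3, h1, h2]
  have y4 := yy h11 h13 h12
  have y5 := yy h21 h23 h22
  have u1 : |a * (s1 * o1 + s2 * o2)| ≤ 2 * A := (aux_mul2 ha' y1).trans (by linarith only [mA])
  have v1 : |s1 * x1 * g114| ≤ B4 := (aux_mul3 hs1 hx1 hg114).trans (by linarith only [m33])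
  have v2 : |s1 * x2 * g124| ≤ B4 := (aux_mul3 hs1 hx2 hg124).trans (by linarith only [m33])
  have v3 : |s2 * x1 * g124| ≤ B4 := (aux_mul3 hs2 hx1 hg124).trans (by linarith only [m33])
  have v4 : |s2 * x2 * g224| ≤ B4 := (aux_mul3 hs2 hx2 hg224).trans (by linarith only [m33])
  have w : ∀ {g x y : ℝ}, |g| ≤ C → |x| ≤ C * (a + b) → |y| ≤ 2 * C ^ 2 → |g * x * y| ≤ 2 * A := by
    intro g x y h1 h2 h3
    exact (aux_mul3 h1 h2 h3).trans (by rw [hA]; apply le_of_eq; ring)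
  have w' : ∀ {g s y : ℝ}, |g| ≤ C → |s| ≤ C → |y| ≤ 3 * C ^ 2 * (a + b) →
      |g * s * y| ≤ 3 * A := by
    intro g s y h1 h2 h3
    exact (aux_mul3 h1 h2 h3).trans (by rw [hA]; apply le_of_eq; ring)
  have w1 := w hg11 hx1 y2
  have w2 := w' hg11 hs1 y4
  have w3 := w hg12 hx1 y3
  have w4 := w' hg12 hs1 y5
  have w5 := w hg12 hx2 y2
  have w6 := w' hg12 hs2 y4
  have w7 := w hg22 hx2 y3
  have w8 := w' hg22 hs2 y5
  clear y1 y2 y3 y4 y5 w w' yy k4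
  have eR : 40 * C ^ 4 * ((1 + c4) * (a + b)) = 40 * A + 40 * B4 := by
    rw [hA, hB4]; ring
  rw [eR]
  generalize s1 * o1 + s2 * o2 = r1 at *
  generalize s1 * s11 + s2 * s12 = r2 at *
  generalize s1 * s21 + s2 * s22 = r3 at *
  generalize x1 * s11 + a * s13 + x2 * s12 = r4 at *
  generalize x1 * s21 + a * s23 + x2 * s22 = r5 at *
  have e : a * r1 + (s1 * x1 * g114 + (s1 * x2 + s2 * x1) * g124 + s2 * x2 * g224)
      + (g11 * (x1 * r2 + s1 * r4) + g12 * (x1 * r3 + s1 * r5 + x2 * r2 + s2 * r4)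
        + g22 * (x2 * r3 + s2 * r5))
      = a * r1 + s1 * x1 * g114 + s1 * x2 * g124 + s2 * x1 * g124 + s2 * x2 * g224
        + g11 * x1 * r2 + g11 * s1 * r4 + g12 * x1 * r3 + g12 * s1 * r5 + g12 * x2 * r2
        + g12 * s2 * r4 + g22 * x2 * r3 + g22 * s2 * r5 := by ring
  rw [e]
  clear_value A B4
  clear e eR hA hB4
  generalize a * r1 = q1 at *
  generalize s1 * x1 * g114 = q2 at *
  generalize s1 * x2 * g124 = q3 at *
  generalize s2 * x1 * g124 = q4 at *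
  generalize s2 * x2 * g224 = q5 at *
  generalize g11 * x1 * r2 = q6 at *
  generalize g11 * s1 * r4 = q7 at *
  generalize g12 * x1 * r3 = q8 at *
  generalize g12 * s1 * r5 = q9 at *
  generalize g12 * x2 * r2 = q10 at *
  generalize g12 * s2 * r4 = q11 at *
  generalize g22 * x2 * r3 = q12 at *
  generalize g22 * s2 * r5 = q13 at *
  clear * - u1 v1 v2 v3 v4 w1 w2 w3 w4 w5 w6 w7 w8 pA pB4
  rw [abs_le] at *
  obtain ⟨_, _⟩ := u1
  obtain ⟨_, _⟩ := v1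
  obtain ⟨_, _⟩ := v2
  obtain ⟨_, _⟩ := v3
  obtain ⟨_, _⟩ := v4
  obtain ⟨_, _⟩ := w1
  obtain ⟨_, _⟩ := w2
  obtain ⟨_, _⟩ := w3
  obtain ⟨_, _⟩ := w4
  obtain ⟨_, _⟩ := w5
  obtain ⟨_, _⟩ := w6
  obtain ⟨_, _⟩ := w7
  obtain ⟨_, _⟩ := w8
  constructor <;> linarith

/-- decomposition of the derivative in the direction `ev` -/
lemma fderiv_ev (K : Coef) (x : P4) (L : P4 →L[ℝ] ℝ) :
    L ev = L (e4 K x) - K.s1 x * L e1 - K.s2 x * L e2 := by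
  rw [clm_decomp L (e4 K x)]
  simp only [e4]
  ring

lemma comb_betaV (K : Coef) (x P : P4) (h1w : ∀ a, fderiv ℝ K.w1 x a = 0)
    (h2w : ∀ a, fderiv ℝ K.w2 x a = 0) :
    K.dgF x ev P (e3 K x) + K.dgF x P ev (e3 K x) - K.dgF x (e3 K x) ev P =
    -((fderiv ℝ K.om x (e4 K x) - K.s1 x * fderiv ℝ K.om x e1 - K.s2 x * fderiv ℝ K.om x e2)
        * P.2.1)
      - (K.h1 x P * fderiv ℝ K.om x e1 + P.2.1 * fderiv ℝ K.om x (e4 K x)
        + P.2.2.1 * fderiv ℝ K.om x (e3 K x) + K.h2 x P * fderiv ℝ K.om x e2)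
      + fderiv ℝ K.om x (e3 K x) * P.2.2.1
      + (K.s1 x * K.h1 x P * fderiv ℝ K.g11 x (e3 K x)
        + (K.s1 x * K.h2 x P + K.s2 x * K.h1 x P) * fderiv ℝ K.g12 x (e3 K x)
        + K.s2 x * K.h2 x P * fderiv ℝ K.g22 x (e3 K x))
      + (K.g11 x * ((fderiv ℝ K.s1 x (e3 K x) - fderiv ℝ K.w1 x (e4 K x)) * K.h1 x P
          - K.s1 x * (fderiv ℝ K.s1 x (e3 K x) - fderiv ℝ K.w1 x (e4 K x)) * P.2.1)
        + K.g12 x * ((fderiv ℝ K.s1 x (e3 K x) - fderiv ℝ K.w1 x (e4 K x)) * K.h2 x P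
          - K.s1 x * (fderiv ℝ K.s2 x (e3 K x) - fderiv ℝ K.w2 x (e4 K x)) * P.2.1
          + (fderiv ℝ K.s2 x (e3 K x) - fderiv ℝ K.w2 x (e4 K x)) * K.h1 x P
          - K.s2 x * (fderiv ℝ K.s1 x (e3 K x) - fderiv ℝ K.w1 x (e4 K x)) * P.2.1)
        + K.g22 x * ((fderiv ℝ K.s2 x (e3 K x) - fderiv ℝ K.w2 x (e4 K x)) * K.h2 x P
          - K.s2 x * (fderiv ℝ K.s2 x (e3 K x) - fderiv ℝ K.w2 x (e4 K x)) * P.2.1)) := by
  have hom := clm_decomp' K x (fderiv ℝ K.om x) P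
  have hev := fderiv_ev K x (fderiv ℝ K.om x)
  have k1 : K.h1 x (e3 K x) = 0 := by simp only [Coef.h1, e3, mul_zero, sub_zero, mul_one, sub_self]
  have k2 : K.h2 x (e3 K x) = 0 := by simp [Coef.h2, e3]
  have k3 : K.h1 x ev = - K.s1 x := by simp [Coef.h1, ev]
  have k4 : K.h2 x ev = - K.s2 x := by simp only [Coef.h2, ev, mul_one, zero_sub, mul_zero, sub_zero]
  simp only [Coef.dgF, Coef.d1, Coef.d2, k1, k2, k3, k4, h1w, h2w,
    show (e3 K x : P4).2.1 = 0 from rfl, show (e3 K x : P4).2.2.1 = 1 from rfl,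
    show (ev : P4).2.1 = 1 from rfl, show (ev : P4).2.2.1 = 0 from rfl]
  rw [hom, hev]
  ring

lemma comb_alphaV (K : Coef) (x P : P4) (h1w : ∀ a, fderiv ℝ K.w1 x a = 0)
    (h2w : ∀ a, fderiv ℝ K.w2 x a = 0) :
    K.dgF x ev P (e4 K x) + K.dgF x P ev (e4 K x) - K.dgF x (e4 K x) ev P =
    P.2.2.1 * (K.s1 x * fderiv ℝ K.om x e1 + K.s2 x * fderiv ℝ K.om x e2)
      + (K.s1 x * K.h1 x P * fderiv ℝ K.g11 x (e4 K x)
        + (K.s1 x * K.h2 x P + K.s2 x * K.h1 x P) * fderiv ℝ K.g12 x (e4 K x)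
        + K.s2 x * K.h2 x P * fderiv ℝ K.g22 x (e4 K x))
      + (K.g11 x * (K.h1 x P * (K.s1 x * fderiv ℝ K.s1 x e1 + K.s2 x * fderiv ℝ K.s1 x e2)
          + K.s1 x * (K.h1 x P * fderiv ℝ K.s1 x e1 + P.2.2.1 * fderiv ℝ K.s1 x (e3 K x)
            + K.h2 x P * fderiv ℝ K.s1 x e2))
        + K.g12 x * (K.h1 x P * (K.s1 x * fderiv ℝ K.s2 x e1 + K.s2 x * fderiv ℝ K.s2 x e2)
          + K.s1 x * (K.h1 x P * fderiv ℝ K.s2 x e1 + P.2.2.1 * fderiv ℝ K.s2 x (e3 K x)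
            + K.h2 x P * fderiv ℝ K.s2 x e2)
          + K.h2 x P * (K.s1 x * fderiv ℝ K.s1 x e1 + K.s2 x * fderiv ℝ K.s1 x e2)
          + K.s2 x * (K.h1 x P * fderiv ℝ K.s1 x e1 + P.2.2.1 * fderiv ℝ K.s1 x (e3 K x)
            + K.h2 x P * fderiv ℝ K.s1 x e2))
        + K.g22 x * (K.h2 x P * (K.s1 x * fderiv ℝ K.s2 x e1 + K.s2 x * fderiv ℝ K.s2 x e2)
          + K.s2 x * (K.h1 x P * fderiv ℝ K.s2 x e1 + P.2.2.1 * fderiv ℝ K.s2 x (e3 K x)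
            + K.h2 x P * fderiv ℝ K.s2 x e2))) := by
  have hs1 := clm_decomp' K x (fderiv ℝ K.s1 x) P
  have hs2 := clm_decomp' K x (fderiv ℝ K.s2 x) P
  have hev := fderiv_ev K x (fderiv ℝ K.om x)
  have hev1 := fderiv_ev K x (fderiv ℝ K.s1 x)
  have hev2 := fderiv_ev K x (fderiv ℝ K.s2 x)
  have k1 : K.h1 x (e4 K x) = 0 := by simp [Coef.h1, e4]
  have k2 : K.h2 x (e4 K x) = 0 := by simp [Coef.h2, e4]
  have k3 : K.h1 x ev = - K.s1 x := by simp [Coef.h1, ev]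
  have k4 : K.h2 x ev = - K.s2 x := by simp [Coef.h2, ev]
  simp only [Coef.dgF, Coef.d1, Coef.d2, k1, k2, k3, k4, h1w, h2w,
    show (e4 K x : P4).2.1 = 1 from rfl, show (e4 K x : P4).2.2.1 = 0 from rfl,
    show (ev : P4).2.1 = 1 from rfl, show (ev : P4).2.2.1 = 0 from rfl]
  rw [hs1, hs2, hev, hev1, hev2]
  ring

variable {K : Coef} {G : P4 → P4 →L[ℝ] P4 →L[ℝ] ℝ} {Psi : P4 → P4} {V : Set P4}
variable {z : P4} {C cv cw cu : ℝ}

/-- norm of the preimage of `ev` -/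
lemma norm_Xv (h : PtHyp K G Psi V z C cv cw cu) (hs1 : |K.s1 (Psi z)| ≤ C)
    (hs2 : |K.s2 (Psi z)| ≤ C) {X : P4} (hX : fderiv ℝ Psi z X = ev) :
    ‖X‖ ≤ 20 * C ^ 7 * ((PtHyp.PP Psi z).2.2.1 + (PtHyp.PP Psi z).2.1) := by
  have hC := h.bd.one_le
  have hC0 : 0 < C := by linarith
  have ha : 0 < (PtHyp.PP Psi z).2.2.1 := h.sq_le.2.1
  have hb : 0 < (PtHyp.PP Psi z).2.1 := h.pos
  obtain ⟨hx1, hx2⟩ := h.abs_h_le
  have hab := h.sq_le.2.2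
  have h1 := h.cone X
  rw [h.iso.iso z h.mem, h.iso.iso z h.mem, hX] at h1
  have k3 : K.h1 (Psi z) ev = - K.s1 (Psi z) := by simp [Coef.h1, ev]
  have k4 : K.h2 (Psi z) ev = - K.s2 (Psi z) := by simp [Coef.h2, ev]
  have g1 : K.gF (Psi z) ev ev = K.g11 (Psi z) * K.s1 (Psi z) * K.s1 (Psi z)
      + 2 * (K.g12 (Psi z) * K.s1 (Psi z) * K.s2 (Psi z))
      + K.g22 (Psi z) * K.s2 (Psi z) * K.s2 (Psi z) := by
    simp only [Coef.gF, k3, k4, show (ev : P4).2.1 = 1 from rfl,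
      show (ev : P4).2.2.1 = 0 from rfl]
    ring
  have g2 : K.gF (Psi z) ev (fderiv ℝ Psi z e1) = - (K.om (Psi z) * (PtHyp.PP Psi z).2.2.1)
      - K.g11 (Psi z) * K.s1 (Psi z) * K.h1 (Psi z) (PtHyp.PP Psi z)
      - K.g12 (Psi z) * K.s1 (Psi z) * K.h2 (Psi z) (PtHyp.PP Psi z)
      - K.g12 (Psi z) * K.s2 (Psi z) * K.h1 (Psi z) (PtHyp.PP Psi z)
      - K.g22 (Psi z) * K.s2 (Psi z) * K.h2 (Psi z) (PtHyp.PP Psi z) := by
    simp only [Coef.gF, k3, k4, show (ev : P4).2.1 = 1 from rfl,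
      show (ev : P4).2.2.1 = 0 from rfl, PtHyp.PP]
    ring
  set a := (PtHyp.PP Psi z).2.2.1 with hadef
  set b := (PtHyp.PP Psi z).2.1 with hbdef
  have b1 : K.gF (Psi z) ev ev ≤ 4 * C ^ 3 := by
    rw [g1]
    have u1 := (abs_le.mp (aux_mul3 h.bd.g11 hs1 hs1)).2
    have u2 := (abs_le.mp (aux_mul3 h.bd.g12 hs1 hs2)).2
    have u3 := (abs_le.mp (aux_mul3 h.bd.g22 hs2 hs2)).2
    linarith only [u1, u2, u3]
  have b2 : |K.gF (Psi z) ev (fderiv ℝ Psi z e1)| ≤ 5 * C ^ 3 * (a + b) := by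
    rw [g2]
    have hom : |K.om (Psi z) * a| ≤ C ^ 3 * (a + b) := by
      rw [abs_of_pos (mul_pos h.om_pos ha)]
      calc K.om (Psi z) * a ≤ C * (a + b) := by
            apply mul_le_mul h.bd.om_hi (by linarith only [hb]) ha.le hC0.le
        _ ≤ C ^ 3 * (a + b) := by
            apply mul_le_mul_of_nonneg_right (le_self_pow₀ hC (by norm_num)) (by linarith only [ha, hb])
    have u1 := aux_mul3 h.bd.g11 hs1 hx1
    have u2 := aux_mul3 h.bd.g12 hs1 hx2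
    have u3 := aux_mul3 h.bd.g12 hs2 hx1
    have u4 := aux_mul3 h.bd.g22 hs2 hx2
    have e : C * C * (C * (a + b)) = C ^ 3 * (a + b) := by ring
    rw [e] at u1 u2 u3 u4
    clear h1 g1 g2
    rw [abs_le] at *
    obtain ⟨_, _⟩ := hom
    obtain ⟨_, _⟩ := u1
    obtain ⟨_, _⟩ := u2
    obtain ⟨_, _⟩ := u3
    obtain ⟨_, _⟩ := u4
    constructor <;> linarith
  have hab2 : 1 ≤ 2 * C ^ 2 * (a + b) ^ 2 := by
    refine hab.trans ?_
    apply mul_le_mul_of_nonneg_left _ (by positivity)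
    linarith only [sq_nonneg (a + b), sq_nonneg a, sq_nonneg b]
  have hsq : (K.gF (Psi z) ev (fderiv ℝ Psi z e1)) ^ 2 ≤ (5 * C ^ 3 * (a + b)) ^ 2 := by
    rw [← sq_abs]
    gcongr
  apply le_of_sq_le_sq _ (by positivity) |> fun x => x
  have c1 : C ^ 6 ≤ C ^ 14 := pow_le_pow_right₀ hC (by norm_num)
  have c2 : C ^ 7 ≤ C ^ 14 := pow_le_pow_right₀ hC (by norm_num)
  have hs : 0 ≤ (a + b) ^ 2 := by positivity
  calc ‖X‖ ^ 2 ≤ C * K.gF (Psi z) ev ev + C * (K.gF (Psi z) ev (fderiv ℝ Psi z e1)) ^ 2 := h1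
    _ ≤ C * (4 * C ^ 3) + C * (5 * C ^ 3 * (a + b)) ^ 2 := by gcongr
    _ = 4 * C ^ 4 * 1 + 25 * C ^ 7 * (a + b) ^ 2 := by ring
    _ ≤ 4 * C ^ 4 * (2 * C ^ 2 * (a + b) ^ 2) + 25 * C ^ 7 * (a + b) ^ 2 := by gcongr
    _ = 8 * (C ^ 6 * (a + b) ^ 2) + 25 * (C ^ 7 * (a + b) ^ 2) := by ring
    _ ≤ 8 * (C ^ 14 * (a + b) ^ 2) + 25 * (C ^ 14 * (a + b) ^ 2) := by gcongr
    _ ≤ (20 * C ^ 7 * (a + b)) ^ 2 := by
      have : 0 ≤ C ^ 14 * (a + b) ^ 2 := by positivity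
      have e : (20 * C ^ 7 * (a + b)) ^ 2 = 400 * (C ^ 14 * (a + b) ^ 2) := by ring
      rw [e]; linarith only [this]

end Vale.Agent.P354x
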