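import Vale.Agent.P354x.Gen1

set_option maxSynthPendingDepth 3

namespace Vale.Agent.P354x

open Vale.Agent.P354w

variable {K : Coef} {G : P4 → P4 →L[ℝ] P4 →L[ℝ] ℝ} {Psi : P4 → P4} {V : Set P4}
variable {z : P4} {C cv cw cu : ℝ}

/-- pointwise extra hypotheses: the shift along `u` vanishes, the other one is bounded -/
structure PtW (K : Coef) (x : P4) (C : ℝ) : Prop where
  s1 : |K.s1 x| ≤ C
  s2 : |K.s2 x| ≤ C
  dw1 : ∀ a, fderiv ℝ K.w1 x a = 0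
  dw2 : ∀ a, fderiv ℝ K.w2 x a = 0

lemma PtW.s1_3 {x : P4} (h : PtW K x C) (hb : K.Bd x C cv cw cu) :
    |fderiv ℝ K.s1 x (e3 K x)| ≤ C := by
  have := hb.t1
  rw [h.dw1, sub_zero] at this
  exact this

lemma PtW.s2_3 {x : P4} (h : PtW K x C) (hb : K.Bd x C cv cw cu) :
    |fderiv ℝ K.s2 x (e3 K x)| ≤ C := by
  have := hb.t2
  rw [h.dw2, sub_zero] at this
  exact this

lemma S_vX (h : PtHyp K G Psi V z C cv cw cu) (hw : PtW K (Psi z) C) {X N : P4}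
    (hX : fderiv ℝ Psi z X = ev) (hN : fderiv ℝ Psi z N = e3 K (Psi z)) :
    |(Sd Psi z X e1).2.1| ≤ 20 * C ^ 4 * (‖fderiv ℝ G z‖ * ‖X‖ * (PtHyp.PP Psi z).2.1
      + (1 + cw + cu) * ((PtHyp.PP Psi z).2.2.1 + (PtHyp.PP Psi z).2.1)) := by
  have hC := h.bd.one_le
  have hC0 : 0 < C := by linarith
  have hb : 0 < (PtHyp.PP Psi z).2.1 := h.pos
  have ha : 0 < (PtHyp.PP Psi z).2.2.1 := h.sq_le.2.1
  have ht := h.iso.transf h.mem X e1 N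
  rw [hN, K.gF_symm, gF_e3, hX] at ht
  have hcomb := comb_betaV K (Psi z) (PtHyp.PP Psi z) hw.dw1 hw.dw2
  have hL := norm_nonneg (fderiv ℝ G z)
  have hXn := norm_nonneg X
  have hNn := h.norm_N hN
  obtain ⟨hx1, hx2⟩ := h.abs_h_le
  have hcu := h.bd.cu0
  have hcw := h.bd.cw0
  have d : ∀ p q r : P4, ‖p‖ * ‖q‖ * ‖r‖ ≤ ‖X‖ * (C ^ 2 * (PtHyp.PP Psi z).2.1) →
      |fderiv ℝ G z p q r| ≤ ‖fderiv ℝ G z‖ * (‖X‖ * (C ^ 2 * (PtHyp.PP Psi z).2.1)) := by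
    intro p q r hpqr
    calc |fderiv ℝ G z p q r| ≤ ‖fderiv ℝ G z‖ * ‖p‖ * ‖q‖ * ‖r‖ := PtHyp.DG_le G z p q r
      _ = ‖fderiv ℝ G z‖ * (‖p‖ * ‖q‖ * ‖r‖) := by ring
      _ ≤ _ := by gcongr
  have d1 := d X e1 N (by rw [PtHyp.norm_e1, mul_one]; gcongr)
  have d2 := d e1 X N (by rw [PtHyp.norm_e1, one_mul]; gcongr)
  have d3 := d N X e1 (by rw [PtHyp.norm_e1, mul_one, mul_comm]; gcongr)
  have halg := alg_bV (c4 := cw) (c3 := cu) hC hcw hcu ha.le hb.le hx1 hx2 hw.s1 hw.s2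
    h.bd.g11 h.bd.g12 h.bd.g22 h.bd.om_4 h.bd.om_3 h.bd.om_1 h.bd.om_2
    h.bd.g11_3 h.bd.g12_3 h.bd.g22_3 h.bd.t1 h.bd.t2
  rw [← hcomb] at halg
  have hom := h.om_pos
  have homlo := h.bd.om_lo
  have hmain : 2 * K.om (Psi z) * |(Sd Psi z X e1).2.1|
      ≤ 3 * (‖fderiv ℝ G z‖ * (‖X‖ * (C ^ 2 * (PtHyp.PP Psi z).2.1)))
        + 20 * C ^ 3 * ((1 + cw + cu) * ((PtHyp.PP Psi z).2.2.1 + (PtHyp.PP Psi z).2.1)) := by
    have e : 2 * K.om (Psi z) * |(Sd Psi z X e1).2.1|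
        = |2 * (-K.om (Psi z) * (Sd Psi z X e1).2.1)| := by
      rw [abs_mul, abs_mul, abs_neg, abs_of_pos hom, abs_of_pos (by norm_num : (0:ℝ) < 2)]; ring
    rw [e, ht]
    clear e ht hcomb
    rw [abs_le] at d1 d2 d3 halg ⊢
    obtain ⟨_, _⟩ := d1
    obtain ⟨_, _⟩ := d2
    obtain ⟨_, _⟩ := d3
    obtain ⟨_, _⟩ := halg
    constructor <;> linarith
  have hS0 := abs_nonneg (Sd Psi z X e1).2.1
  clear d1 d2 d3 halg hcomb ht d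
  generalize ‖fderiv ℝ G z‖ = L at *
  set a := (PtHyp.PP Psi z).2.2.1
  set b := (PtHyp.PP Psi z).2.1
  have hfin : 2 * |(Sd Psi z X e1).2.1| ≤ C * (3 * (L * (‖X‖ * (C ^ 2 * b)))
      + 20 * C ^ 3 * ((1 + cw + cu) * (a + b))) := by
    calc 2 * |(Sd Psi z X e1).2.1| = 1 * (2 * |(Sd Psi z X e1).2.1|) := by ring
      _ ≤ (C * K.om (Psi z)) * (2 * |(Sd Psi z X e1).2.1|) := by gcongr
      _ = C * (2 * K.om (Psi z) * |(Sd Psi z X e1).2.1|) := by ring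
      _ ≤ _ := by gcongr
  have c3 : C ^ 3 ≤ C ^ 4 := pow_le_pow_right₀ hC (by norm_num)
  calc |(Sd Psi z X e1).2.1| = (1/2) * (2 * |(Sd Psi z X e1).2.1|) := by ring
    _ ≤ (1/2) * (C * (3 * (L * (‖X‖ * (C ^ 2 * b)))
      + 20 * C ^ 3 * ((1 + cw + cu) * (a + b)))) := by gcongr
    _ = 3/2 * C ^ 3 * (L * ‖X‖ * b) + 10 * C ^ 4 * ((1 + cw + cu) * (a + b)) := by ring
    _ ≤ 20 * C ^ 4 * (L * ‖X‖ * b) + 20 * C ^ 4 * ((1 + cw + cu) * (a + b)) := by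
      gcongr <;> norm_num
    _ = _ := by ring

lemma S_uX (h : PtHyp K G Psi V z C cv cw cu) (hw : PtW K (Psi z) C) {X N : P4}
    (hX : fderiv ℝ Psi z X = ev) (hN : fderiv ℝ Psi z N = e4 K (Psi z)) :
    |(Sd Psi z X e1).2.2.1| ≤ 20 * C ^ 5 * (‖fderiv ℝ G z‖ * ‖X‖ * (PtHyp.PP Psi z).2.2.1
      + (1 + cv) * ((PtHyp.PP Psi z).2.2.1 + (PtHyp.PP Psi z).2.1)) := by
  have hC := h.bd.one_le
  have hC0 : 0 < C := by linarith
  have hb : 0 < (PtHyp.PP Psi z).2.1 := h.pos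
  have ha : 0 < (PtHyp.PP Psi z).2.2.1 := h.sq_le.2.1
  have ht := h.iso.transf h.mem X e1 N
  rw [hN, K.gF_symm, gF_e4, hX] at ht
  have hcomb := comb_alphaV K (Psi z) (PtHyp.PP Psi z) hw.dw1 hw.dw2
  have hL := norm_nonneg (fderiv ℝ G z)
  have hXn := norm_nonneg X
  have hNn := h.norm_N' hN
  obtain ⟨hx1, hx2⟩ := h.abs_h_le
  have hcv := h.bd.cv0
  have d : ∀ p q r : P4, ‖p‖ * ‖q‖ * ‖r‖ ≤ ‖X‖ * (C ^ 2 * (PtHyp.PP Psi z).2.2.1) →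
      |fderiv ℝ G z p q r| ≤ ‖fderiv ℝ G z‖ * (‖X‖ * (C ^ 2 * (PtHyp.PP Psi z).2.2.1)) := by
    intro p q r hpqr
    calc |fderiv ℝ G z p q r| ≤ ‖fderiv ℝ G z‖ * ‖p‖ * ‖q‖ * ‖r‖ := PtHyp.DG_le G z p q r
      _ = ‖fderiv ℝ G z‖ * (‖p‖ * ‖q‖ * ‖r‖) := by ring
      _ ≤ _ := by gcongr
  have d1 := d X e1 N (by rw [PtHyp.norm_e1, mul_one]; gcongr)
  have d2 := d e1 X N (by rw [PtHyp.norm_e1, one_mul]; gcongr)
  have d3 := d N X e1 (by rw [PtHyp.norm_e1, mul_one, mul_comm]; gcongr)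
  have halg := alg_aV (c4 := cv) hC hcv ha.le hb.le hx1 hx2 hw.s1 hw.s2
    h.bd.g11 h.bd.g12 h.bd.g22 h.bd.om_1 h.bd.om_2
    h.bd.g11_4 h.bd.g12_4 h.bd.g22_4 h.bd.s1_1 h.bd.s1_2 (hw.s1_3 h.bd)
    h.bd.s2_1 h.bd.s2_2 (hw.s2_3 h.bd)
  rw [← hcomb] at halg
  have hom := h.om_pos
  have homlo := h.bd.om_lo
  have hmain : 2 * K.om (Psi z) * |(Sd Psi z X e1).2.2.1|
      ≤ 3 * (‖fderiv ℝ G z‖ * (‖X‖ * (C ^ 2 * (PtHyp.PP Psi z).2.2.1)))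
        + 40 * C ^ 4 * ((1 + cv) * ((PtHyp.PP Psi z).2.2.1 + (PtHyp.PP Psi z).2.1)) := by
    have e : 2 * K.om (Psi z) * |(Sd Psi z X e1).2.2.1|
        = |2 * (-K.om (Psi z) * (Sd Psi z X e1).2.2.1)| := by
      rw [abs_mul, abs_mul, abs_neg, abs_of_pos hom, abs_of_pos (by norm_num : (0:ℝ) < 2)]; ring
    rw [e, ht]
    clear e ht hcomb
    rw [abs_le] at d1 d2 d3 halg ⊢
    obtain ⟨_, _⟩ := d1
    obtain ⟨_, _⟩ := d2
    obtain ⟨_, _⟩ := d3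
    obtain ⟨_, _⟩ := halg
    constructor <;> linarith
  have hS0 := abs_nonneg (Sd Psi z X e1).2.2.1
  clear d1 d2 d3 halg hcomb ht d
  generalize ‖fderiv ℝ G z‖ = L at *
  set a := (PtHyp.PP Psi z).2.2.1
  set b := (PtHyp.PP Psi z).2.1
  have hfin : 2 * |(Sd Psi z X e1).2.2.1| ≤ C * (3 * (L * (‖X‖ * (C ^ 2 * a)))
      + 40 * C ^ 4 * ((1 + cv) * (a + b))) := by
    calc 2 * |(Sd Psi z X e1).2.2.1| = 1 * (2 * |(Sd Psi z X e1).2.2.1|) := by ring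
      _ ≤ (C * K.om (Psi z)) * (2 * |(Sd Psi z X e1).2.2.1|) := by gcongr
      _ = C * (2 * K.om (Psi z) * |(Sd Psi z X e1).2.2.1|) := by ring
      _ ≤ _ := by gcongr
  have c3 : C ^ 3 ≤ C ^ 5 := pow_le_pow_right₀ hC (by norm_num)
  calc |(Sd Psi z X e1).2.2.1| = (1/2) * (2 * |(Sd Psi z X e1).2.2.1|) := by ring
    _ ≤ (1/2) * (C * (3 * (L * (‖X‖ * (C ^ 2 * a)))
      + 40 * C ^ 4 * ((1 + cv) * (a + b)))) := by gcongr
    _ = 3/2 * C ^ 3 * (L * ‖X‖ * a) + 20 * C ^ 5 * ((1 + cv) * (a + b)) := by ring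
    _ ≤ 20 * C ^ 5 * (L * ‖X‖ * a) + 20 * C ^ 5 * ((1 + cv) * (a + b)) := by
      gcongr; norm_num
    _ = _ := by ring

/-- the logarithmic derivative of `a + b` along the generators -/
lemma S_q (h : PtHyp K G Psi V z C cv cw cu) (hw : PtW K (Psi z) C) {X N3 N4 : P4}
    (hX : fderiv ℝ Psi z X = ev) (hN3 : fderiv ℝ Psi z N3 = e3 K (Psi z))
    (hN4 : fderiv ℝ Psi z N4 = e4 K (Psi z)) :
    |(Sd Psi z X e1).2.1 + (Sd Psi z X e1).2.2.1| ≤ 800 * C ^ 12 *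
      (((PtHyp.PP Psi z).2.2.1 + (PtHyp.PP Psi z).2.1) * ((1 + cv + cw + cu)
        + ‖fderiv ℝ G z‖ * ((PtHyp.PP Psi z).2.2.1 + (PtHyp.PP Psi z).2.1))) := by
  have hC := h.bd.one_le
  have hC0 : 0 < C := by linarith
  have hb : 0 < (PtHyp.PP Psi z).2.1 := h.pos
  have ha : 0 < (PtHyp.PP Psi z).2.2.1 := h.sq_le.2.1
  have h1 := S_vX h hw hX hN3
  have h2 := S_uX h hw hX hN4
  have h3 := norm_Xv h hw.s1 hw.s2 hX
  have hcu := h.bd.cu0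
  have hcw := h.bd.cw0
  have hcv := h.bd.cv0
  have hL := norm_nonneg (fderiv ℝ G z)
  have hX0 := norm_nonneg X
  generalize (Sd Psi z X e1).2.1 = p at *
  generalize (Sd Psi z X e1).2.2.1 = q at *
  generalize ‖fderiv ℝ G z‖ = L at *
  generalize ‖X‖ = x at *
  set a := (PtHyp.PP Psi z).2.2.1
  set b := (PtHyp.PP Psi z).2.1
  clear_value a b
  have c45 : C ^ 4 ≤ C ^ 5 := pow_le_pow_right₀ hC (by norm_num)
  have c512 : C ^ 5 ≤ C ^ 12 := pow_le_pow_right₀ hC (by norm_num)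
  have hs : 0 ≤ a + b := by linarith
  calc |p + q| ≤ |p| + |q| := abs_add_le _ _
    _ ≤ 20 * C ^ 4 * (L * x * b + (1 + cw + cu) * (a + b))
        + 20 * C ^ 5 * (L * x * a + (1 + cv) * (a + b)) := add_le_add h1 h2
    _ ≤ 20 * C ^ 5 * (L * x * b + (1 + cw + cu) * (a + b))
        + 20 * C ^ 5 * (L * x * a + (1 + cv) * (a + b)) := by
      gcongr
    _ = 20 * C ^ 5 * (L * x * (a + b)) + 20 * C ^ 5 * ((2 + cv + cw + cu) * (a + b)) := by ring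
    _ ≤ 20 * C ^ 5 * (L * (20 * C ^ 7 * (a + b)) * (a + b))
        + 20 * C ^ 5 * ((2 + cv + cw + cu) * (a + b)) := by gcongr
    _ = 400 * C ^ 12 * (L * (a + b) * (a + b)) + 20 * C ^ 5 * ((2 + cv + cw + cu) * (a + b)) := by
      ring
    _ ≤ 800 * C ^ 12 * (L * (a + b) * (a + b))
        + 400 * C ^ 12 * ((2 + cv + cw + cu) * (a + b)) := by
      gcongr <;> norm_num
    _ ≤ 800 * C ^ 12 * (L * (a + b) * (a + b))
        + 400 * C ^ 12 * ((2 * (1 + cv + cw + cu)) * (a + b)) := by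
      gcongr
      linarith
    _ = _ := by ring

end Vale.Agent.P354x
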