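import Vale.Agent.P354x.Gen3

set_option maxSynthPendingDepth 3

open Set MeasureTheory Filter Topology

namespace Vale.Agent.P354x

open Vale.Agent.P354w PreHyp CoreHyp

variable {K : Coef} {G : P4 → P4 →L[ℝ] P4 →L[ℝ] ℝ} {Psi : P4 → P4} {V U : Set P4}
    {C R : ℝ} {cv cw cu : ℝ → ℝ} {t0 r : ℝ} {f : P3 → ℝ}

lemma isOpen_good (h : PreHyp K G Psi V U C R cv cw cu t0 r f) (r2 κ : ℝ) :
    IsOpen (DD t0 r f ∩ {z | ‖z.2‖ < r2 ∧ QQ Psi z < κ}) := by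
  have hc : ContinuousOn (QQ Psi) (DD t0 r f) := fun z hz =>
    (contAt_QQ h (h.DD_sub hz)).continuousWithinAt
  have h1 := hc.isOpen_inter_preimage h.openD (isOpen_Iio (a := κ))
  have h2 : IsOpen {z : P4 | ‖z.2‖ < r2} :=
    isOpen_lt (continuous_norm.comp continuous_snd) continuous_const
  have e : DD t0 r f ∩ {z | ‖z.2‖ < r2 ∧ QQ Psi z < κ} =
      {z : P4 | ‖z.2‖ < r2} ∩ (DD t0 r f ∩ QQ Psi ⁻¹' Iio κ) := by
    ext z
    constructor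
    · rintro ⟨h1, h2, h3⟩; exact ⟨h2, h1, h3⟩
    · rintro ⟨h1, h2, h3⟩; exact ⟨h2, h1, h3⟩
  rw [e]
  exact h2.inter h1

/-- continuation of good generators -/
theorem gen_cont (h : CoreHyp K G Psi V U C R cv cw cu t0 r f) (hw : ∀ y ∈ U, PtW K y C)
    {y : P3} {v0 κ r1 r2 : ℝ} (hr2 : r2 < r) (hv0 : v0 < 0) (hκ : 0 < κ)
    (hvlo : ∀ x : P3, ‖x‖ ≤ r2 → (Psi (t0, x)).2.1 ≤ v0)
    (hstart : ∃ z ∈ DD t0 r f, Psi z = ins v0 y ∧ ‖z.2‖ ≤ r1 ∧ QQ Psi z ≤ κ)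
    (hdist : r1 + 40 * C ^ 7 * κ * (-v0) < r2)
    (hgr : ENNReal.ofReal (800 * C ^ 12) * ((∫⁻ v in Ico v0 0, ENNReal.ofReal
        (1 + cv v + cw v + cu y.2.1)) + ENNReal.ofReal (2 * κ) *
          ∫⁻ v in Ico v0 0, Lh G Psi V t0 r f (ins v y)) < ENNReal.ofReal (Real.log 2)) :
    ∀ v ∈ Ico v0 0, ∃ z ∈ DD t0 r f, Psi z = ins v y ∧ ‖z.2‖ ≤ r2 ∧ QQ Psi z ≤ 2 * κ := by
  have hpre : PreHyp K G Psi V U C R cv cw cu t0 r f := h.toPreHyp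
  obtain ⟨z0, hz0, hz0y, hz0n, hz0q⟩ := hstart
  have hC : 1 ≤ C := (h.pt (h.DD_sub hz0)).bd.one_le
  set W : Set P4 := DD t0 r f ∩ {z | ‖z.2‖ < r2 ∧ QQ Psi z < 2 * κ} with hW
  have hWo : IsOpen (Psi '' W) := h.isOpen_image (isOpen_good hpre r2 (2 * κ))
    (fun z hz => h.DD_sub hz.1)
  set Gd : Set ℝ := (fun v => ins v y) ⁻¹' (Psi '' W) with hGd
  have hcins : Continuous (fun v => ins v y) := by unfold ins; fun_prop
  have hGo : IsOpen Gd := hWo.preimage hcins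
  have hpos : 0 ≤ 40 * C ^ 7 * κ := by positivity
  have hr12 : r1 < r2 := by
    have : 0 ≤ 40 * C ^ 7 * κ * (-v0) := mul_nonneg hpos (by linarith)
    linarith
  have hv0G : v0 ∈ Gd := ⟨z0, ⟨hz0, lt_of_le_of_lt hz0n hr12, by linarith⟩, hz0y⟩
  suffices hall : ∀ v ∈ Ico v0 0, v ∈ Gd by
    intro v hv
    obtain ⟨z, ⟨hz, hzn, hzq⟩, hzy⟩ := hall v hv
    exact ⟨z, hz, hzy, hzn.le, hzq.le⟩
  intro v1 hv1
  by_contra hcon
  have hcomp : IsCompact (Icc v0 v1 ∩ Gdᶜ) := isCompact_Icc.inter_right hGo.isClosed_compl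
  obtain ⟨vs, ⟨⟨hs0, hs1⟩, hsG⟩, hleast⟩ := hcomp.exists_isLeast ⟨v1, ⟨hv1.1, le_refl _⟩, hcon⟩
  have hlt0 : v0 < vs := by
    rcases lt_or_eq_of_le hs0 with h1 | h1
    · exact h1
    · exact absurd (h1 ▸ hv0G) hsG
  have hvs0 : vs < 0 := lt_of_le_of_lt hs1 hv1.2
  have hbelow : ∀ v ∈ Ico v0 vs, v ∈ Gd := by
    intro v hv
    by_contra hc
    have := hleast ⟨⟨hv.1, hv.2.le.trans hs1⟩, hc⟩
    exact absurd hv.2 (not_lt.mpr this)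
  -- the end point
  have hcl : IsClosed ((fun v => ins v y) ⁻¹' (Psi '' KK Psi t0 r2 f vs)) :=
    (h.isCompact_image_KK hr2 hvs0).isClosed.preimage hcins
  have hsub : Ico v0 vs ⊆ (fun v => ins v y) ⁻¹' (Psi '' KK Psi t0 r2 f vs) := by
    intro v hv
    obtain ⟨z, ⟨hz, hzn, hzq⟩, hzy⟩ := hbelow v hv
    refine ⟨z, ⟨hzn.le, hz.2.1.le, hz.2.2, ?_⟩, hzy⟩
    rw [hzy]; exact hv.2.le
  have hcl2 := closure_minimal hsub hcl
  rw [closure_Ico hlt0.ne] at hcl2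
  obtain ⟨zs, hzsK, hzsy⟩ := hcl2 (right_mem_Icc.mpr hlt0.le)
  have hzsy' : Psi zs = ins vs y := hzsy
  have hzsv : (Psi zs).2.1 = vs := by rw [hzsy']; rfl
  have hzsD : zs ∈ DD t0 r f := CoreHyp.mem_DD_of_KK hr2 hvlo hzsK (by rw [hzsv]; exact hlt0)
  have hzsV := h.DD_sub hzsD
  have hin0 : ∀ v ∈ Icc v0 vs, ∃ z ∈ DD t0 r f, Psi z = ins v y := by
    intro v hv
    rcases lt_or_eq_of_le hv.2 with h1 | h1
    · obtain ⟨z, ⟨hz, _, _⟩, hzy⟩ := hbelow v ⟨hv.1, h1⟩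
      exact ⟨z, hz, hzy⟩
    · rw [h1]; exact ⟨zs, hzsD, hzsy'⟩
  have hPs : Phi Psi V (ins vs y) = zs := by rw [← hzsy']; exact h.Phi_left hzsV
  have hP0 : Phi Psi V (ins v0 y) = z0 := by rw [← hz0y]; exact h.Phi_left (h.DD_sub hz0)
  have hqs : QQ Psi zs ≤ 2 * κ := by
    have hc : Tendsto (fun v => QQ Psi (Phi Psi V (ins v y))) (𝓝[<] vs) (𝓝 (QQ Psi zs)) := by
      have h1 := (hasDerivAt_QQ hpre hzsV hzsy').continuousAt
      have h2 : Tendsto (fun v => QQ Psi (Phi Psi V (ins v y))) (𝓝 vs)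
          (𝓝 (QQ Psi (Phi Psi V (ins vs y)))) := h1
      rw [hPs] at h2
      exact h2.mono_left nhdsWithin_le_nhds
    apply le_of_tendsto hc
    have : Ioo v0 vs ∈ 𝓝[<] vs := Ioo_mem_nhdsLT hlt0
    filter_upwards [this] with v hv
    obtain ⟨z, ⟨hz, _, hzq⟩, hzy⟩ := hbelow v ⟨hv.1.le, hv.2⟩
    have hzy' : Psi z = ins v y := hzy
    have : Phi Psi V (ins v y) = z := by rw [← hzy']; exact h.Phi_left (h.DD_sub hz)
    rw [this]; exact hzq.le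
  have hin : ∀ v ∈ Icc v0 vs, ∃ z ∈ DD t0 r f, Psi z = ins v y ∧ QQ Psi z ≤ 2 * κ := by
    intro v hv
    rcases lt_or_eq_of_le hv.2 with h1 | h1
    · obtain ⟨z, ⟨hz, _, hzq⟩, hzy⟩ := hbelow v ⟨hv.1, h1⟩
      exact ⟨z, hz, hzy, hzq.le⟩
    · rw [h1]; exact ⟨zs, hzsD, hzsy', hqs⟩
  -- displacement
  have hmv := norm_image_sub_le_of_norm_deriv_le_segment' (a := v0) (b := vs)
    (f := fun v => Phi Psi V (ins v y)) (f' := fun v => Xf Psi V (Phi Psi V (ins v y)))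
    (C := 40 * C ^ 7 * κ)
    (by
      intro v hv
      obtain ⟨z, hz, hzy⟩ := hin0 v hv
      have h0 : Phi Psi V (ins v y) = z := by rw [← hzy]; exact h.Phi_left (h.DD_sub hz)
      rw [h0]
      exact (hasDerivAt_gen hpre (h.DD_sub hz) hzy).hasDerivWithinAt)
    (by
      intro v hv
      obtain ⟨z, hz, hzy, hzq⟩ := hin v ⟨hv.1, hv.2.le⟩
      have h0 : Phi Psi V (ins v y) = z := by rw [← hzy]; exact h.Phi_left (h.DD_sub hz)
      rw [h0]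
      refine (norm_Xf hpre hw (h.DD_sub hz)).trans ?_
      calc 20 * C ^ 7 * QQ Psi z ≤ 20 * C ^ 7 * (2 * κ) := by gcongr
        _ = _ := by ring) vs (right_mem_Icc.mpr hlt0.le)
  simp only [hPs, hP0] at hmv
  have hn : ‖zs.2‖ < r2 := by
    have h1 : ‖zs.2‖ ≤ ‖z0.2‖ + ‖(zs - z0).2‖ := by
      have : zs.2 = z0.2 + (zs - z0).2 := by simp
      calc ‖zs.2‖ = ‖z0.2 + (zs - z0).2‖ := by rw [← this]
        _ ≤ _ := norm_add_le _ _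
    have h2 : ‖(zs - z0).2‖ ≤ ‖zs - z0‖ := norm_snd_le _
    have h3 : 40 * C ^ 7 * κ * (vs - v0) ≤ 40 * C ^ 7 * κ * (-v0) := by
      apply mul_le_mul_of_nonneg_left _ hpos; linarith
    linarith
  -- growth
  have hlog := log_QQ hpre hw hlt0.le (by linarith : (0:ℝ) ≤ 2 * κ) hin
  rw [hPs, hP0] at hlog
  have hlog2 : ENNReal.ofReal |Real.log (QQ Psi zs) - Real.log (QQ Psi z0)| <
      ENNReal.ofReal (Real.log 2) := by
    refine lt_of_le_of_lt (hlog.trans ?_) hgr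
    have hsub2 : Icc v0 vs ⊆ Ico v0 0 := fun v hv => ⟨hv.1, lt_of_le_of_lt hv.2 hvs0⟩
    gcongr
  rw [ENNReal.ofReal_lt_ofReal_iff (Real.log_pos (by norm_num))] at hlog2
  have hq0 : 0 < QQ Psi z0 := QQ_pos hpre (h.DD_sub hz0)
  have hqs0 : 0 < QQ Psi zs := QQ_pos hpre hzsV
  have hlt : Real.log (QQ Psi zs) < Real.log (2 * QQ Psi z0) := by
    rw [Real.log_mul (by norm_num) hq0.ne']
    have := (abs_lt.mp hlog2).2
    linarith
  have hfin : QQ Psi zs < 2 * QQ Psi z0 :=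
    (Real.log_lt_log_iff hqs0 (by positivity)).mp hlt
  exact hsG ⟨zs, ⟨hzsD, hn, by linarith⟩, hzsy'⟩

end Vale.Agent.P354x
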