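import Vale.Agent.P354x.Gen4
import Vale.Agent.P354w.CS

set_option maxSynthPendingDepth 3

open Set MeasureTheory Filter Topology

namespace Vale.Agent.P354x

open Vale.Agent.P354w PreHyp CoreHyp

lemma measurable_ins : Measurable (fun p : ℝ × P3 => ins p.1 p.2) := continuous_ins.measurable

/-- Tonelli on the slices -/
lemma lintegral_ins {F : P4 → ENNReal} (hF : Measurable F) :
    ∫⁻ x, F x = ∫⁻ v : ℝ, ∫⁻ y : P3, F (ins v y) := by
  have h1 : ∫⁻ x : P4, F x = ∫⁻ t : ℝ, ∫⁻ v : ℝ, ∫⁻ w : ℝ × ℝ, F (t, v, w) := by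
    rw [Measure.volume_eq_prod, lintegral_prod _ hF.aemeasurable]
    apply lintegral_congr
    intro t
    have hm : Measurable (fun x : ℝ × ℝ × ℝ => F (t, x)) := hF.comp measurable_prodMk_left
    rw [Measure.volume_eq_prod, lintegral_prod _ hm.aemeasurable]
  have h2 : ∀ v : ℝ, ∫⁻ y : P3, F (ins v y) = ∫⁻ t : ℝ, ∫⁻ w : ℝ × ℝ, F (t, v, w) := by
    intro v
    have hm : Measurable (fun y : P3 => F (ins v y)) := by
      have : Measurable (fun y : P3 => ins v y) := by unfold ins; fun_prop
      exact hF.comp this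
    rw [Measure.volume_eq_prod, lintegral_prod _ hm.aemeasurable]
    rfl
  rw [h1]
  simp only [h2]
  rw [lintegral_lintegral_swap]
  have hm : Measurable (fun p : (ℝ × ℝ) × (ℝ × ℝ) => F (p.1.1, p.1.2, p.2)) :=
    hF.comp (by fun_prop)
  exact (hm.lintegral_prod_right').aemeasurable

variable {K : Coef} {G : P4 → P4 →L[ℝ] P4 →L[ℝ] ℝ} {Psi : P4 → P4} {V U : Set P4}
    {C R : ℝ} {cv cw cu : ℝ → ℝ} {t0 r : ℝ} {f : P3 → ℝ}

lemma continuousOn_Phi (h : PreHyp K G Psi V U C R cv cw cu t0 r f) :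
    ContinuousOn (Phi Psi V) (Psi '' DD t0 r f) := by
  rintro _ ⟨z, hz, rfl⟩
  exact (h.contDiffAt_Phi (h.DD_sub hz)).continuousAt.continuousWithinAt

lemma isOpen_imDD (h : PreHyp K G Psi V U C R cv cw cu t0 r f) : IsOpen (Psi '' DD t0 r f) :=
  h.isOpen_image h.openD h.DD_sub

/-- functions of the exotic side, transplanted to the standard side, are measurable -/
lemma measurable_tr (h : PreHyp K G Psi V U C R cv cw cu t0 r f) {F : P4 → ENNReal}
    (hF : Measurable F) : Measurable ((Psi '' DD t0 r f).indicator (fun y => F (Phi Psi V y))) := by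
  classical
  have hm : MeasurableSet (Psi '' DD t0 r f) := (isOpen_imDD h).measurableSet
  have h1 : Measurable ((Psi '' DD t0 r f).piecewise (Phi Psi V) (fun _ => (0 : P4))) :=
    (continuousOn_Phi h).measurable_piecewise continuousOn_const hm
  have e : (Psi '' DD t0 r f).indicator (fun y => F (Phi Psi V y)) =
      (Psi '' DD t0 r f).indicator (fun y => F ((Psi '' DD t0 r f).piecewise (Phi Psi V)
        (fun _ => (0 : P4)) y)) := by
    ext y
    by_cases hy : y ∈ Psi '' DD t0 r f
    · rw [indicator_of_mem hy, indicator_of_mem hy, piecewise_eq_of_mem _ _ _ hy]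
    · rw [indicator_of_notMem hy, indicator_of_notMem hy]
  rw [e]
  exact (hF.comp h1).indicator hm

lemma measurable_Lh (h : PreHyp K G Psi V U C R cv cw cu t0 r f) :
    Measurable (Lh G Psi V t0 r f) :=
  measurable_tr h ((measurable_fderiv ℝ G).enorm)

/-- change of variables -/
lemma lintegral_tr (h : PreHyp K G Psi V U C R cv cw cu t0 r f) (F : P4 → ENNReal)
    {A : Set P4} (hA : MeasurableSet A) (hAD : A ⊆ DD t0 r f) :
    ∫⁻ y in Psi '' A, F (Phi Psi V y) =
      ∫⁻ z in A, ENNReal.ofReal |(fderiv ℝ Psi z).det| * F z := by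
  have := haarP4
  have hfd : ∀ z ∈ A, HasFDerivWithinAt Psi (fderiv ℝ Psi z) A z :=
    fun z hz => (h.iso.hasFDerivAt (h.DD_sub (hAD hz))).hasFDerivWithinAt
  have hinj : InjOn Psi A := h.inj.mono (hAD.trans h.DD_sub)
  rw [lintegral_image_eq_lintegral_abs_det_fderiv_mul volume hA hfd hinj]
  apply setLIntegral_congr_fun hA
  intro z hz
  simp only [h.Phi_left (h.DD_sub (hAD hz))]

/-- the energy of a generator -/
noncomputable def Lam (G : P4 → P4 →L[ℝ] P4 →L[ℝ] ℝ) (Psi : P4 → P4) (V : Set P4) (t0 r : ℝ)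
    (f : P3 → ℝ) (y : P3) : ENNReal := ∫⁻ v : ℝ, (Lh G Psi V t0 r f (ins v y)) ^ 2

lemma measurable_Lam (h : PreHyp K G Psi V U C R cv cw cu t0 r f) :
    Measurable (Lam G Psi V t0 r f) := by
  unfold Lam
  have hm : Measurable (fun p : P3 × ℝ => (Lh G Psi V t0 r f (ins p.2 p.1)) ^ 2) :=
    ((measurable_Lh h).comp (measurable_ins.comp measurable_swap)).pow_const 2
  exact hm.lintegral_prod_right'

lemma lintegral_Lh_sq (h : PreHyp K G Psi V U C R cv cw cu t0 r f) :
    ∫⁻ y, (Lh G Psi V t0 r f y) ^ 2 ≠ ⊤ := by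
  have hm : MeasurableSet (Psi '' DD t0 r f) := (isOpen_imDD h).measurableSet
  have e : (fun y => (Lh G Psi V t0 r f y) ^ 2) =
      (Psi '' DD t0 r f).indicator (fun y => ‖fderiv ℝ G (Phi Psi V y)‖ₑ ^ 2) := by
    ext y
    by_cases hy : y ∈ Psi '' DD t0 r f
    · rw [Lh, indicator_of_mem hy, indicator_of_mem hy]
    · rw [Lh, indicator_of_notMem hy, indicator_of_notMem hy, zero_pow (by norm_num)]
  rw [e, lintegral_indicator hm,
    lintegral_tr h (fun z => ‖fderiv ℝ G z‖ₑ ^ 2) h.measDD Subset.rfl]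
  have h1 : ∫⁻ z in DD t0 r f, ENNReal.ofReal |(fderiv ℝ Psi z).det| * ‖fderiv ℝ G z‖ₑ ^ 2 ≤
      ∫⁻ z in DD t0 r f, ENNReal.ofReal C * ‖fderiv ℝ G z‖ₑ ^ 2 := by
    apply setLIntegral_mono' h.measDD
    intro z hz
    gcongr
    exact h.det_hi z (h.DD_sub hz)
  refine ne_top_of_le_ne_top ?_ h1
  rw [lintegral_const_mul' _ _ ENNReal.ofReal_ne_top]
  exact ENNReal.mul_ne_top ENNReal.ofReal_ne_top h.L2

lemma lintegral_Lam (h : PreHyp K G Psi V U C R cv cw cu t0 r f) :
    ∫⁻ y, Lam G Psi V t0 r f y ≠ ⊤ := by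
  have h1 := lintegral_Lh_sq h
  rw [lintegral_ins ((measurable_Lh h).pow_const 2)] at h1
  rw [lintegral_lintegral_swap] at h1
  · exact h1
  · exact (((measurable_Lh h).comp measurable_ins).pow_const 2).aemeasurable

/-- Cauchy-Schwarz along a generator -/
lemma lintegral_Lh_le (h : PreHyp K G Psi V U C R cv cw cu t0 r f) {y : P3} {v0 M : ℝ}
    (hv0 : v0 < 0) (hM : Lam G Psi V t0 r f y ≤ ENNReal.ofReal M) (hM0 : 0 ≤ M) :
    ∫⁻ v in Ico v0 0, Lh G Psi V t0 r f (ins v y) ≤ ENNReal.ofReal (Real.sqrt (M * -v0)) := by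
  have hcins : Measurable (fun v => ins v y) := by unfold ins; fun_prop
  have h1 := cs (μ := volume.restrict (Ico v0 0)) (f := fun v => Lh G Psi V t0 r f (ins v y))
    (g := fun _ => (1 : ENNReal)) ((measurable_Lh h).comp hcins).aemeasurable aemeasurable_const
  simp only [mul_one, one_pow, lintegral_const, Measure.restrict_apply MeasurableSet.univ,
    univ_inter, one_mul, Real.volume_Ico, zero_sub] at h1
  refine h1.trans ?_
  have h2 : ∫⁻ v in Ico v0 0, (Lh G Psi V t0 r f (ins v y)) ^ 2 ≤ ENNReal.ofReal M :=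
    (setLIntegral_le_lintegral _ _).trans hM
  calc (∫⁻ v in Ico v0 0, (Lh G Psi V t0 r f (ins v y)) ^ 2) ^ (1/2:ℝ) *
        ENNReal.ofReal (-v0) ^ (1/2:ℝ)
      ≤ (ENNReal.ofReal M) ^ (1/2:ℝ) * ENNReal.ofReal (-v0) ^ (1/2:ℝ) := by gcongr
    _ = ENNReal.ofReal (Real.sqrt (M * -v0)) := by
      rw [← ENNReal.mul_rpow_of_nonneg _ _ (by norm_num), ← ENNReal.ofReal_mul hM0,
        ENNReal.ofReal_rpow_of_nonneg (mul_nonneg hM0 (by linarith)) (by norm_num),
        Real.sqrt_eq_rpow]

/-- the slices of the good region are large -/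
lemma slice_large (h : CoreHyp K G Psi V U C R cv cw cu t0 r f) {A : Set P3}
    (hA : MeasurableSet A) {r1 r2 κ : ℝ} (hAr : ∀ x ∈ A, ‖x‖ ≤ r1) (hr1 : r1 < r2) (hr2 : r2 < r)
    (hAκ : ∀ z ∈ DD t0 r f, z.2 ∈ A → QQ Psi z ≤ κ) (hκ : 0 < κ)
    {v1 v2 vlo : ℝ} (hv2 : v2 < 0) (hlo : vlo < v1) (hv12 : v1 < v2)
    (hvlo : ∀ x : P3, ‖x‖ ≤ r1 → (Psi (t0, x)).2.1 ≤ vlo) (hA0 : volume A ≠ 0) :
    ∃ v ∈ Icc v1 v2, volume A ≤ ENNReal.ofReal (2 * κ * C) *
      volume {y : P3 | ins v y ∈ Psi '' (DD t0 r f ∩ {z | ‖z.2‖ < r2 ∧ QQ Psi z < 2 * κ})} := by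
  by_contra hcon
  push Not at hcon
  have hpre := h.toPreHyp
  have hC : 1 ≤ C := by
    have : ((t0, 0) : P4) ∈ V := h.memV 0 (by simpa only [Metric.mem_ball, dist_self] using h.r_pos) t0
      ⟨le_refl _, h.t0f 0 (by simpa only [Metric.mem_ball, dist_self] using h.r_pos)⟩
    exact (h.pt this).bd.one_le
  have hr1r : r1 < r := hr1.trans hr2
  set W : Set P4 := DD t0 r f ∩ {z | ‖z.2‖ < r2 ∧ QQ Psi z < 2 * κ} with hW
  have hWo : IsOpen (Psi '' W) := h.isOpen_image (isOpen_good hpre r2 (2 * κ))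
    (fun z hz => h.DD_sub hz.1)
  set T : Set ℝ := Icc v1 v2 with hT
  have hTm : MeasurableSet T := measurableSet_Icc
  set q : ℝ → ENNReal := T.indicator (fun _ => 1) with hq
  have hqm : Measurable q := measurable_const.indicator hTm
  have T1 := h.tonelli_eq hqm hr1r hv2 hlo hvlo (fun v hv => indicator_of_notMem hv _) hA hAr
  have hqi : ∫⁻ v, q v = volume T := by
    rw [hq, lintegral_indicator hTm]; simp only [lintegral_const, MeasurableSet.univ, Measure.restrict_apply, univ_inter, one_mul]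
  rw [hqi] at T1
  -- upper bound of the left side
  set S : Set P4 := W ∩ {z | (Psi z).2.1 ∈ T} with hS
  have hSm : MeasurableSet S := by
    have e : S = W ∩ Psi ⁻¹' {y | y.2.1 ∈ T} := rfl
    have hc : ContinuousOn Psi W := h.iso.smooth.continuousOn.mono (fun z hz => h.DD_sub hz.1)
    have hcl : IsClosed {y : P4 | y.2.1 ∈ T} := isClosed_Icc.preimage (by fun_prop)
    obtain ⟨O, hO, hOe⟩ := continuousOn_iff_isClosed.mp hc _ hcl
    rw [e, inter_comm, hOe]
    exact hO.measurableSet.inter (isOpen_good hpre r2 (2 * κ)).measurableSet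
  have hSD : S ⊆ DD t0 r f := fun z hz => hz.1.1
  have u1 : volume A * volume T ≤ ENNReal.ofReal κ * volume S := by
    rw [← T1]
    calc ∫⁻ z in DD t0 r f, A.indicator (fun _ => (1:ENNReal)) z.2 *
          (ENNReal.ofReal (fderiv ℝ Psi z e1).2.1 * q (Psi z).2.1)
        ≤ ∫⁻ z in DD t0 r f, ENNReal.ofReal κ * S.indicator (fun _ => (1:ENNReal)) z := by
          apply setLIntegral_mono' h.measDD
          intro z hz
          by_cases hzA : z.2 ∈ A
          · by_cases hzT : (Psi z).2.1 ∈ T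
            · have hq1 := hAκ z hz hzA
              have hzS : z ∈ S := ⟨⟨hz, lt_of_le_of_lt (hAr _ hzA) hr1, by linarith only [hκ, hq1]⟩, hzT⟩
              rw [indicator_of_mem hzA, indicator_of_mem hzS, hq, indicator_of_mem hzT, one_mul,
                mul_one, mul_one]
              apply ENNReal.ofReal_le_ofReal
              have := (h.pt (h.DD_sub hz)).sq_le.2.1
              unfold QQ at hq1
              linarith only [hq1, this]
            · rw [hq, indicator_of_notMem hzT, mul_zero, mul_zero]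
              exact bot_le
          · rw [indicator_of_notMem hzA, zero_mul]
            exact bot_le
      _ = ENNReal.ofReal κ * volume S := by
          rw [lintegral_const_mul' _ _ ENNReal.ofReal_ne_top, lintegral_indicator hSm,
            Measure.restrict_restrict hSm, inter_eq_self_of_subset_left hSD]
          simp only [lintegral_const, MeasurableSet.univ, Measure.restrict_apply, univ_inter, one_mul]
  have u2 : volume S ≤ ENNReal.ofReal C * volume (Psi '' S) := by
    have e := lintegral_tr hpre (fun _ => (1:ENNReal)) hSm hSD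
    simp only [mul_one, lintegral_const, Measure.restrict_apply MeasurableSet.univ, univ_inter,
      one_mul] at e
    rw [e]
    calc volume S = ∫⁻ z in S, 1 := by simp only [lintegral_const, MeasurableSet.univ, Measure.restrict_apply, univ_inter, one_mul]
      _ ≤ ∫⁻ z in S, ENNReal.ofReal C * ENNReal.ofReal |(fderiv ℝ Psi z).det| := by
        apply setLIntegral_mono' hSm
        intro z hz
        rw [← ENNReal.ofReal_mul (by linarith only [hC]), ← ENNReal.ofReal_one]
        exact ENNReal.ofReal_le_ofReal (h.det_lo z (h.DD_sub (hSD hz)))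
      _ = _ := by rw [lintegral_const_mul' _ _ ENNReal.ofReal_ne_top]
  have u3 : volume (Psi '' S) ≤ ∫⁻ v in T, volume {y : P3 | ins v y ∈ Psi '' W} := by
    have hm : MeasurableSet (Psi '' W ∩ {y : P4 | y.2.1 ∈ T}) :=
      hWo.measurableSet.inter (hTm.preimage (by fun_prop))
    have hsub : Psi '' S ⊆ Psi '' W ∩ {y : P4 | y.2.1 ∈ T} := by
      rintro _ ⟨z, hz, rfl⟩
      exact ⟨mem_image_of_mem _ hz.1, hz.2⟩
    refine (measure_mono hsub).trans ?_
    rw [← lintegral_indicator_one hm, lintegral_ins (measurable_one.indicator hm),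
      ← lintegral_indicator hTm]
    apply lintegral_mono
    intro v
    by_cases hv : v ∈ T
    · simp only [indicator_of_mem hv]
      have hm2 : MeasurableSet {y : P3 | ins v y ∈ Psi '' W} :=
        hWo.measurableSet.preimage (by unfold ins; fun_prop)
      rw [← lintegral_indicator_one hm2]
      apply lintegral_mono
      intro y
      show (Psi '' W ∩ {y : P4 | y.2.1 ∈ T}).indicator (1 : P4 → ENNReal) (ins v y) ≤
        ({y : P3 | ins v y ∈ Psi '' W}).indicator 1 y
      by_cases hy : ins v y ∈ Psi '' W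
      · rw [indicator_of_mem (show ins v y ∈ Psi '' W ∩ {y : P4 | y.2.1 ∈ T} from ⟨hy, hv⟩),
          indicator_of_mem (show y ∈ {y : P3 | ins v y ∈ Psi '' W} from hy)]
        exact le_refl _
      · have hn : ins v y ∉ Psi '' W ∩ {y : P4 | y.2.1 ∈ T} := fun hh => hy hh.1
        rw [indicator_of_notMem hn]
        exact bot_le
    · simp only [indicator_of_notMem hv]
      have : ∀ y : P3, (Psi '' W ∩ {y : P4 | y.2.1 ∈ T}).indicator (1 : P4 → ENNReal)
          (ins v y) = 0 := by
        intro y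
        rw [indicator_of_notMem]
        rintro ⟨_, h2⟩
        exact hv h2
      simp only [this, lintegral_const, zero_mul, Std.le_refl]
  -- conclusion
  have hA1 : volume A ≠ ⊤ := by
    have hcb : volume (Metric.closedBall (0 : P3) r1) ≠ ⊤ :=
      (isCompact_closedBall (0 : P3) r1).measure_lt_top.ne
    apply ne_top_of_le_ne_top hcb
    apply measure_mono
    intro x hx
    rw [mem_closedBall_zero_iff]; exact hAr x hx
  have hT0 : volume T ≠ 0 := by
    rw [hT, Real.volume_Icc]
    simp only [ne_eq, ENNReal.ofReal_eq_zero, not_le]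
    linarith only [hv12]
  have hT1 : volume T ≠ ⊤ := by rw [hT, Real.volume_Icc]; exact ENNReal.ofReal_ne_top
  have hcκ : (0:ℝ) < 2 * κ * C := by positivity
  have hsl : ∀ v ∈ T, ENNReal.ofReal (2 * κ * C) * volume {y : P3 | ins v y ∈ Psi '' W} ≤
      volume A := fun v hv => (hcon v hv).le
  have hfin : 2 * (volume A * volume T) ≤ volume A * volume T := by
    calc 2 * (volume A * volume T) ≤ 2 * (ENNReal.ofReal κ * (ENNReal.ofReal C *
          ∫⁻ v in T, volume {y : P3 | ins v y ∈ Psi '' W})) := by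
          have u12 : volume A * volume T ≤ ENNReal.ofReal κ * (ENNReal.ofReal C *
              ∫⁻ v in T, volume {y : P3 | ins v y ∈ Psi '' W}) :=
            u1.trans (mul_le_mul_right (u2.trans (mul_le_mul_right u3 _)) _)
          exact mul_le_mul_right u12 _
      _ = ∫⁻ v in T, ENNReal.ofReal (2 * κ * C) * volume {y : P3 | ins v y ∈ Psi '' W} := by
          rw [lintegral_const_mul' _ _ ENNReal.ofReal_ne_top, ENNReal.ofReal_mul (by positivity),
            ENNReal.ofReal_mul (by norm_num)]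
          have : ENNReal.ofReal 2 = 2 := by simp
          rw [this]; ring
      _ ≤ ∫⁻ v in T, volume A := setLIntegral_mono' hTm hsl
      _ = volume A * volume T := by rw [lintegral_const]; simp only [MeasurableSet.univ, Measure.restrict_apply, univ_inter]
  have hP0 : volume A * volume T ≠ 0 := mul_ne_zero hA0 hT0
  have hPt : volume A * volume T ≠ ⊤ := ENNReal.mul_ne_top hA1 hT1
  rw [two_mul] at hfin
  have := ENNReal.lt_add_right hPt hP0
  exact absurd hfin (not_le.mpr this)

end Vale.Agent.P354x
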