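import Vale.Agent.P354x.Gen5

set_option maxSynthPendingDepth 3

open Set MeasureTheory Filter Topology

namespace Vale.Agent.P354x

open Vale.Agent.P354w PreHyp CoreHyp

/-- integrals over shrinking intervals tend to zero -/
lemma exists_small {g : ℝ → ENNReal} {R : ℝ} (hR : 0 < R) (hg : ∫⁻ v in Ico (-R) 0, g v ≠ ⊤)
    {ε : ENNReal} (hε : 0 < ε) : ∃ v1 < 0, -R ≤ v1 ∧ ∫⁻ v in Ico v1 0, g v ≤ ε := by
  have h1 : Tendsto (fun n : ℕ => ∫⁻ v in Ico (-(R / (n + 1))) 0, g v
      ∂(volume.restrict (Ico (-R) (0:ℝ)))) atTop (𝓝 0) := by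
    apply tendsto_setLIntegral_zero hg
    have h2 : ∀ n : ℕ, (volume.restrict (Ico (-R) (0:ℝ))) (Ico (-(R / ((n:ℝ) + 1))) 0) ≤
        ENNReal.ofReal (R / (n + 1)) := by
      intro n
      refine (Measure.restrict_le_self _).trans ?_
      rw [Real.volume_Ico]; simp
    have h3 : Tendsto (fun n : ℕ => ENNReal.ofReal (R / ((n:ℝ) + 1))) atTop (𝓝 0) := by
      have h4 : Tendsto (fun n : ℕ => R / ((n:ℝ) + 1)) atTop (𝓝 0) := by
        have := tendsto_one_div_add_atTop_nhds_zero_nat (𝕜 := ℝ)
        have h5 := this.const_mul R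
        simp only [mul_zero] at h5
        refine h5.congr fun n => ?_
        ring
      have := ENNReal.tendsto_ofReal h4
      simpa only [ENNReal.ofReal_zero] using this
    exact tendsto_of_tendsto_of_tendsto_of_le_of_le tendsto_const_nhds h3 (fun _ => bot_le) h2
  obtain ⟨n, hn⟩ := (ENNReal.tendsto_nhds_zero.mp h1 ε hε).exists
  have hn1 : (1:ℝ) ≤ (n:ℝ) + 1 := by
    have : (0:ℝ) ≤ n := Nat.cast_nonneg n
    linarith
  have hle : R / ((n:ℝ) + 1) ≤ R := div_le_self hR.le hn1
  have hpos : 0 < R / ((n:ℝ) + 1) := by positivity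
  refine ⟨-(R / ((n:ℝ) + 1)), by linarith only [hpos], by linarith, ?_⟩
  rwa [Measure.restrict_restrict measurableSet_Ico, inter_eq_self_of_subset_left
    (Ico_subset_Ico_left (by linarith only [hle]))] at hn

variable {K : Coef} {G : P4 → P4 →L[ℝ] P4 →L[ℝ] ℝ} {Psi : P4 → P4} {V U : Set P4}
    {C R : ℝ} {cv cw cu : ℝ → ℝ} {t0 r : ℝ} {f : P3 → ℝ}

lemma exists_vlo (h : CoreHyp K G Psi V U C R cv cw cu t0 r f) :
    ∃ vlo < 0, -R ≤ vlo ∧ ∀ x : P3, ‖x‖ ≤ r / 2 → (Psi (t0, x)).2.1 ≤ vlo := by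
  have hr := h.r_pos
  have hmem0 : ∀ x : P3, ‖x‖ ≤ r / 2 → ((t0, x) : P4) ∈ V := by
    intro x hx
    have hxb : x ∈ Metric.ball (0 : P3) r := by
      rw [mem_ball_zero_iff]; linarith only [hr, hx]
    exact h.memV x hxb t0 ⟨le_refl _, h.t0f x hxb⟩
  have hcomp : IsCompact (Metric.closedBall (0 : P3) (r/2)) := isCompact_closedBall _ _
  have hne : (Metric.closedBall (0 : P3) (r/2)).Nonempty := ⟨0, by simp only [Metric.mem_closedBall, dist_self]; linarith only [hr]⟩
  have hcont : ContinuousOn (fun x : P3 => (Psi (t0, x)).2.1)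
      (Metric.closedBall (0 : P3) (r/2)) := by
    intro x hx
    rw [mem_closedBall_zero_iff] at hx
    have h1 : ContinuousAt Psi (t0, x) := (h.iso.contDiffAt (hmem0 x hx)).continuousAt
    have h2 : ContinuousAt (fun x : P3 => ((t0, x) : P4)) x := by fun_prop
    have h3 : ContinuousAt (fun x : P3 => Psi (t0, x)) x :=
      ContinuousAt.comp (g := Psi) (f := fun x : P3 => ((t0, x) : P4)) h1 h2
    exact (h3.snd.fst).continuousWithinAt
  obtain ⟨x0, hx0, hmax⟩ := hcomp.exists_isMaxOn hne hcont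
  refine ⟨(Psi (t0, x0)).2.1, ?_, ?_, ?_⟩
  · rw [mem_closedBall_zero_iff] at hx0
    exact (h.U_sub _ (h.maps (hmem0 x0 hx0))).2.2.1
  · rw [mem_closedBall_zero_iff] at hx0
    exact (h.U_sub _ (h.maps (hmem0 x0 hx0))).2.1
  · intro x hx
    exact hmax (by rwa [mem_closedBall_zero_iff])

/-- **Good generators.** -/
theorem good_gen (h : CoreHyp K G Psi V U C R cv cw cu t0 r f) (hw : ∀ y ∈ U, PtW K y C)
    (hcu : ∀ u, cu u ≤ C) : ∃ κ : ℝ, 1 ≤ κ ∧ ∃ v0 < 0, ∃ Y : Set P3, MeasurableSet Y ∧
      0 < volume Y ∧ (∀ x : P3, ‖x‖ ≤ r / 2 → (Psi (t0, x)).2.1 < v0) ∧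
      ∀ y ∈ Y, ∀ v ∈ Ico v0 0, ∃ z ∈ DD t0 r f, Psi z = ins v y ∧ ‖z.2‖ ≤ r / 4 ∧
        QQ Psi z ≤ κ := by
  have hr := h.r_pos
  have hpre := h.toPreHyp
  have hC : 1 ≤ C := by
    have : ((t0, 0) : P4) ∈ V := h.memV 0 (by simpa only [Metric.mem_ball, dist_self] using hr) t0
      ⟨le_refl _, h.t0f 0 (by simpa only [Metric.mem_ball, dist_self] using hr)⟩
    exact (h.pt this).bd.one_le
  have hC0 : 0 < C := by linarith
  obtain ⟨vlo, hvlo0, hRvlo, hvlo⟩ := exists_vlo h
  have hR : 0 < R := by linarith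
  -- good lines
  set mI := volume (Metric.closedBall (0 : P3) (r/16)) with hmI
  have hmI0 : 0 < mI := by
    have : Metric.ball (0:P3) (r/16) ⊆ Metric.closedBall (0 : P3) (r/16) :=
      Metric.ball_subset_closedBall
    have h2 : 0 < volume (Metric.ball (0:P3) (r/16)) :=
      Metric.isOpen_ball.measure_pos _ ⟨0, by simp only [Metric.mem_ball, dist_self, Nat.ofNat_pos, div_pos_iff_of_pos_right]; linarith only [hr]⟩
    exact lt_of_lt_of_le h2 (measure_mono this)
  obtain ⟨n, hn1, hn⟩ : ∃ n : ℕ, 1 ≤ n ∧ volume (NN Psi t0 r f n) < mI := by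
    have h1 := (tendsto_order.mp h.tendsto_NN).2 mI hmI0
    obtain ⟨n, hn⟩ := (h1.and (eventually_ge_atTop 1)).exists
    exact ⟨n, hn.2, hn.1⟩
  set κ0 : ℝ := (n:ℝ) with hκ0
  have hκ1 : 1 ≤ κ0 := by rw [hκ0]; exact_mod_cast hn1
  have hκ00 : 0 < κ0 := by linarith only [hκ1]
  set A : Set P3 := Metric.closedBall (0 : P3) (r/16) \ NN Psi t0 r f n with hA
  have hAm : MeasurableSet A := Metric.isClosed_closedBall.measurableSet.diff
    h.isOpen_NN.measurableSet
  have hAr : ∀ x ∈ A, ‖x‖ ≤ r / 16 := fun x hx => by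
    have := hx.1
    rwa [mem_closedBall_zero_iff] at this
  have hA0 : volume A ≠ 0 := by
    intro h0
    have h1 : mI ≤ volume A + volume (NN Psi t0 r f n) := by
      refine (measure_mono ?_).trans (measure_union_le _ _)
      intro x hx
      by_cases hx2 : x ∈ NN Psi t0 r f n
      · exact Or.inr hx2
      · exact Or.inl ⟨hx, hx2⟩
    rw [h0, zero_add] at h1
    exact absurd hn (not_lt.mpr h1)
  have hA1 : volume A ≠ ⊤ := by
    have hcb : volume (Metric.closedBall (0 : P3) (r/16)) ≠ ⊤ :=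
      (isCompact_closedBall (0 : P3) (r/16)).measure_lt_top.ne
    exact ne_top_of_le_ne_top hcb (measure_mono sdiff_subset)
  have hAκ : ∀ z ∈ DD t0 r f, z.2 ∈ A → QQ Psi z ≤ κ0 := by
    intro z hz hzA
    obtain ⟨n1, n2⟩ := not_NN hz hzA.2
    unfold QQ
    have : (fderiv ℝ Psi z e1).2.2.1 + (fderiv ℝ Psi z e1).2.1 ≤ κ0 / 2 + κ0 / 2 :=
      add_le_add n2 n1
    linarith only [n1, n2]
  -- Chebyshev
  set a : ℝ := (volume A).toReal with ha
  have ha0 : 0 < a := ENNReal.toReal_pos hA0 hA1
  set J := ∫⁻ y, Lam G Psi V t0 r f y with hJ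
  have hJt : J ≠ ⊤ := lintegral_Lam hpre
  set M : ℝ := (4 * κ0 * C / a) * J.toReal + 1 with hM
  have hM0 : 0 < M := by positivity
  have hcheb : ENNReal.ofReal (2 * κ0 * C) * volume {y : P3 | ENNReal.ofReal M ≤
      Lam G Psi V t0 r f y} < volume A := by
    have h1 := mul_meas_ge_le_lintegral (measurable_Lam hpre) (ENNReal.ofReal M)
      (μ := (volume : Measure P3))
    set B := volume {y : P3 | ENNReal.ofReal M ≤ Lam G Psi V t0 r f y} with hB
    have h1' : ENNReal.ofReal M * B ≤ J := h1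
    have hBt : B ≠ ⊤ := by
      intro htop
      rw [htop, ENNReal.mul_top (by simpa only [ne_eq, ENNReal.ofReal_eq_zero, not_le] using hM0)] at h1'
      exact hJt (top_le_iff.mp h1')
    have h2 : M * B.toReal ≤ J.toReal := by
      have := ENNReal.toReal_mono hJt h1'
      rwa [ENNReal.toReal_mul, ENNReal.toReal_ofReal hM0.le] at this
    have h3 : 2 * κ0 * C * B.toReal < a := by
      have hj0 : 0 ≤ J.toReal := ENNReal.toReal_nonneg
      have hb0 : 0 ≤ B.toReal := ENNReal.toReal_nonneg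
      have h4 : (4 * κ0 * C / a) * (M * B.toReal) ≤ (4 * κ0 * C / a) * J.toReal := by
        gcongr
      have h5 : (4 * κ0 * C / a) * J.toReal = M - 1 := by rw [hM]; ring
      rw [h5] at h4
      have h6 : (4 * κ0 * C * B.toReal) * M ≤ a * (M - 1) := by
        have : (4 * κ0 * C / a) * (M * B.toReal) = (4 * κ0 * C * B.toReal) * M / a := by
          field_simp
        rw [this, div_le_iff₀ ha0] at h4
        linarith only [h4]
      have h7 : (4 * κ0 * C * B.toReal) * M < a * M := by linarith only [ha0, h6]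
      have h8 : 4 * κ0 * C * B.toReal < a := lt_of_mul_lt_mul_right h7 hM0.le
      have h9 : 0 ≤ κ0 * C * B.toReal := by positivity
      linarith only [ha0, h8]
    rw [← ENNReal.ofReal_toReal hBt, ← ENNReal.ofReal_mul (by positivity),
      ← ENNReal.ofReal_toReal hA1]
    exact (ENNReal.ofReal_lt_ofReal_iff ha0).mpr h3
  -- choice of the interval
  set lg := Real.log 2 with hlg
  have hlg0 : 0 < lg := Real.log_pos (by norm_num)
  set D : ℝ := 800 * C ^ 12 with hD
  have hD0 : 0 < D := by positivity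
  have hint : ∫⁻ v in Ico (-R) 0, ENNReal.ofReal (1 + cv v + cw v + C) ≠ ⊤ := by
    have h1 : ∀ v, ENNReal.ofReal (1 + cv v + cw v + C) ≤
        ENNReal.ofReal (1 + C) + ENNReal.ofReal (cv v) + ENNReal.ofReal (cw v) := by
      intro v
      calc ENNReal.ofReal (1 + cv v + cw v + C)
          = ENNReal.ofReal ((1 + C) + cv v + cw v) := by congr 1; ring
        _ ≤ _ := (ENNReal.ofReal_add_le).trans (add_le_add_left (ENNReal.ofReal_add_le) _)
    refine ne_top_of_le_ne_top ?_ (lintegral_mono h1)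
    rw [lintegral_add_right _ h.cw_meas.ennreal_ofReal, lintegral_add_right _
      h.cv_meas.ennreal_ofReal, lintegral_const]
    refine ENNReal.add_ne_top.mpr ⟨ENNReal.add_ne_top.mpr ⟨?_, h.cv_int⟩, h.cw_int⟩
    apply ENNReal.mul_ne_top ENNReal.ofReal_ne_top
    simp only [MeasurableSet.univ, Measure.restrict_apply, univ_inter, Real.volume_Ico, sub_neg_eq_add, zero_add, ne_eq, ENNReal.ofReal_ne_top, not_false_eq_true]
  obtain ⟨va, hva0, _, hva⟩ := exists_small hR hint (ε := ENNReal.ofReal (lg / (4 * D)))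
    (by simpa only [ENNReal.ofReal_pos] using by positivity)
  -- the distance and energy conditions
  set E : ℝ := (lg / (4 * D * (4 * κ0))) ^ 2 / M with hE
  have hE0 : 0 < E := by positivity
  set F : ℝ := r / 16 / (80 * C ^ 7 * κ0) with hF
  have hF0 : 0 < F := by positivity
  set v1 : ℝ := max (max (vlo / 2) va) (max (-E) (-F)) with hv1
  have hv10 : v1 < 0 := max_lt (max_lt (by linarith only [hvlo0]) hva0) (max_lt (by linarith only [hE0]) (by linarith only [hF0]))
  have g1 : vlo / 2 ≤ v1 := (le_max_left _ _).trans (le_max_left _ _)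
  have g2 : va ≤ v1 := (le_max_right _ _).trans (le_max_left _ _)
  have g3 : -E ≤ v1 := (le_max_left _ _).trans (le_max_right _ _)
  have g4 : -F ≤ v1 := (le_max_right _ _).trans (le_max_right _ _)
  obtain ⟨v0, hv0m, hslice⟩ := slice_large h hAm (r1 := r/16) (r2 := r/8) hAr (by linarith only [hr])
    (by linarith only [hr]) hAκ hκ00 (v1 := v1) (v2 := v1 / 2) (vlo := vlo) (by linarith only [hv10]) (by linarith only [hv10, g1])
    (by linarith only [hv10]) (fun x hx => hvlo x (by linarith only [hr, hx])) hA0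
  have hv00 : v0 < 0 := lt_of_le_of_lt hv0m.2 (by linarith only [hv10])
  set W : Set P4 := DD t0 r f ∩ {z | ‖z.2‖ < r/8 ∧ QQ Psi z < 2 * κ0} with hW
  have hWo : IsOpen (Psi '' W) := h.isOpen_image (isOpen_good hpre (r/8) (2 * κ0))
    (fun z hz => h.DD_sub hz.1)
  set Y : Set P3 := {y : P3 | ins v0 y ∈ Psi '' W} \ {y | ENNReal.ofReal M ≤
    Lam G Psi V t0 r f y} with hY
  have hY1 : MeasurableSet {y : P3 | ins v0 y ∈ Psi '' W} :=
    hWo.measurableSet.preimage (by unfold ins; fun_prop)
  have hY2 : MeasurableSet {y : P3 | ENNReal.ofReal M ≤ Lam G Psi V t0 r f y} :=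
    measurableSet_le measurable_const (measurable_Lam hpre)
  refine ⟨4 * κ0, by linarith only [hκ1], v0, hv00, Y, hY1.diff hY2, ?_, ?_, ?_⟩
  · -- positive measure
    rw [pos_iff_ne_zero]
    intro h0
    have h1 : volume {y : P3 | ins v0 y ∈ Psi '' W} ≤ volume Y +
        volume {y : P3 | ENNReal.ofReal M ≤ Lam G Psi V t0 r f y} := by
      refine (measure_mono ?_).trans (measure_union_le _ _)
      intro y hy
      by_cases hy2 : y ∈ {y : P3 | ENNReal.ofReal M ≤ Lam G Psi V t0 r f y}
      · exact Or.inr hy2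
      · exact Or.inl ⟨hy, hy2⟩
    rw [h0, zero_add] at h1
    have h2 : volume A ≤ ENNReal.ofReal (2 * κ0 * C) *
        volume {y : P3 | ENNReal.ofReal M ≤ Lam G Psi V t0 r f y} :=
      hslice.trans (mul_le_mul_right h1 _)
    exact absurd hcheb (not_lt.mpr h2)
  · intro x hx
    have := hvlo x hx
    have := hv0m.1
    linarith
  · intro y hy v hv
    obtain ⟨z, ⟨hz, hzn, hzq⟩, hzy⟩ := hy.1
    have hyM : Lam G Psi V t0 r f y ≤ ENNReal.ofReal M := (not_le.mp hy.2).le
    have hLh := lintegral_Lh_le hpre hv00 hyM hM0.le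
    have e1 : -v0 ≤ E := by have := hv0m.1; linarith only [g3, this]
    have e2 : -v0 ≤ F := by have := hv0m.1; linarith only [g4, this]
    have hsq : Real.sqrt (M * -v0) ≤ lg / (4 * D * (4 * κ0)) := by
      rw [Real.sqrt_le_left (by positivity)]
      calc M * -v0 ≤ M * E := by gcongr
        _ = (lg / (4 * D * (4 * κ0))) ^ 2 := by rw [hE]; field_simp
    have hres := gen_cont h hw (y := y) (v0 := v0) (κ := 2 * κ0) (r1 := r/8) (r2 := r/4)
      (by linarith only [hr]) hv00 (by positivity)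
      (fun x hx => by
        have := hvlo x (by linarith only [hr, hx])
        have := hv0m.1
        linarith)
      ⟨z, hz, hzy, hzn.le, hzq.le⟩
      (by
        have : 40 * C ^ 7 * (2 * κ0) * -v0 ≤ 40 * C ^ 7 * (2 * κ0) * F := by gcongr
        have e3 : 40 * C ^ 7 * (2 * κ0) * F = r / 16 := by rw [hF]; field_simp; ring
        linarith only [hr, this, e3])
      (by
        have i1 : ∫⁻ v in Ico v0 0, ENNReal.ofReal (1 + cv v + cw v + cu y.2.1) ≤
            ENNReal.ofReal (lg / (4 * D)) := by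
          refine le_trans ?_ hva
          calc ∫⁻ v in Ico v0 0, ENNReal.ofReal (1 + cv v + cw v + cu y.2.1)
              ≤ ∫⁻ v in Ico v0 0, ENNReal.ofReal (1 + cv v + cw v + C) := by
                apply lintegral_mono
                intro v
                apply ENNReal.ofReal_le_ofReal
                have := hcu y.2.1
                linarith only [this]
            _ ≤ _ := by
                apply lintegral_mono_set
                apply Ico_subset_Ico_left
                have := hv0m.1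
                linarith only [g2, this]
        have i2 : ENNReal.ofReal (2 * (2 * κ0)) * ∫⁻ v in Ico v0 0, Lh G Psi V t0 r f (ins v y) ≤
            ENNReal.ofReal (lg / (4 * D)) := by
          calc ENNReal.ofReal (2 * (2 * κ0)) * ∫⁻ v in Ico v0 0, Lh G Psi V t0 r f (ins v y)
              ≤ ENNReal.ofReal (2 * (2 * κ0)) * ENNReal.ofReal (lg / (4 * D * (4 * κ0))) := by
                gcongr
                exact hLh.trans (ENNReal.ofReal_le_ofReal hsq)
            _ = ENNReal.ofReal (lg / (4 * D)) := by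
                rw [← ENNReal.ofReal_mul (by positivity)]
                congr 1
                field_simp
                ring
        calc ENNReal.ofReal D * ((∫⁻ v in Ico v0 0, ENNReal.ofReal
              (1 + cv v + cw v + cu y.2.1)) + ENNReal.ofReal (2 * (2 * κ0)) *
                ∫⁻ v in Ico v0 0, Lh G Psi V t0 r f (ins v y))
            ≤ ENNReal.ofReal D * (ENNReal.ofReal (lg / (4 * D)) +
                ENNReal.ofReal (lg / (4 * D))) := by gcongr
          _ = ENNReal.ofReal (lg / 2) := by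
              rw [← ENNReal.ofReal_add (by positivity) (by positivity),
                ← ENNReal.ofReal_mul hD0.le]
              congr 1
              field_simp
              ring
          _ < ENNReal.ofReal lg := (ENNReal.ofReal_lt_ofReal_iff hlg0).mpr (by linarith only [hlg0]))
      v hv
    obtain ⟨z', hz', hz'y, hz'n, hz'q⟩ := hres
    exact ⟨z', hz', hz'y, hz'n, by linarith only [hz'q]⟩

end Vale.Agent.P354x
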