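import Vale.Agent.P354x.Avg

set_option maxSynthPendingDepth 3

open Set MeasureTheory Filter Topology

namespace Vale.Agent.P354x

open Vale.Agent.P354w PreHyp CoreHyp

variable {K : Coef} {G : P4 → P4 →L[ℝ] P4 →L[ℝ] ℝ} {Psi : P4 → P4} {V U : Set P4}
    {C R : ℝ} {cv cw cu : ℝ → ℝ} {t0 r : ℝ} {f : P3 → ℝ}

lemma pointwise' (h : PreHyp K G Psi V U C R cv cw cu t0 r f) {hh : P3 → ℝ} (hhs : ContDiff ℝ 1 hh)
    (hh0 : ∀ x, 0 ≤ hh x) (hh1 : ∀ x, hh x ≤ 1) {hb : ℝ} (hhb : ∀ x, ‖fderiv ℝ hh x‖ ≤ hb)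
    {B : ℝ} (hB : 1 ≤ B) (hBeta : ∀ s, |deriv eta s| ≤ B) {κ : ℝ} (hκ : 1 ≤ κ)
    {z : P4} (hz : z ∈ V) {Z : P4} (hZ : fderiv ℝ Psi z Z = e1) {c w u : ℝ}
    (hp : PtHyp K G Psi V z C c w u) :
    |fderiv ℝ (Theta K Psi hh κ) z Z + (1/2) * (fderiv ℝ Psi z e1).2.1
        * fderiv ℝ K.g11 (Psi z) (e4 K (Psi z)) * (hh z.2 * (eta ((fderiv ℝ Psi z e1).2.1 / κ)
          * eta ((fderiv ℝ Psi z e1).2.2.1 / κ)))|
    ≤ 8 * C ^ 4 * B * (c * (fderiv ℝ Psi z e1).2.1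
        * (hh z.2 * eta ((fderiv ℝ Psi z e1).2.1 / κ))
        * (if κ ≤ (fderiv ℝ Psi z e1).2.2.1 then 1 else 0))
      + Ck C B hb κ * (1 + u + ‖fderiv ℝ G z‖) := by
  have hC := hp.bd.one_le
  have hκ0 : 0 < κ := by linarith
  have hB0 : 0 < B := by linarith only [hB]
  have hC0 : 0 < C := by linarith
  have hbp : 0 < (fderiv ℝ Psi z e1).2.1 := hp.pos
  have hap : 0 < (fderiv ℝ Psi z e1).2.2.1 := hp.sq_le.2.1
  have hcv := hp.bd.cv0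
  have hcu := hp.bd.cu0
  have hL := norm_nonneg (fderiv ℝ G z)
  have hhb0 : 0 ≤ hb := (norm_nonneg _).trans (hhb 0)
  have hCk : 0 ≤ Ck C B hb κ := by unfold Ck; positivity
  rw [h.fderiv_Theta hz hhs κ hZ]
  have hH0 := hh0 z.2
  have heb0 := eta_nonneg ((fderiv ℝ Psi z e1).2.1 / κ)
  by_cases hcase : (fderiv ℝ Psi z e1).2.2.1 ≤ 2 * κ ∧ (fderiv ℝ Psi z e1).2.1 ≤ 2 * κ
  · obtain ⟨ha2, hb2⟩ := hcase
    obtain ⟨Nu, hNu⟩ := h.exists_pre hz (e3 K (Psi z))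
    obtain ⟨N4, hN4⟩ := h.exists_pre hz (e4 K (Psi z))
    have hxi : K.gF (Psi z) (fderiv ℝ Psi z e1) e1 = PtHyp.xi K Psi z := by
      rw [K.gF_symm, gF_e1]
    have hX : |K.gF (Psi z) (fderiv ℝ Psi z e1) e1|
        ≤ C * (|K.h1 (Psi z) (fderiv ℝ Psi z e1)| + |K.h2 (Psi z) (fderiv ℝ Psi z e1)|) := by
      rw [hxi]
      have t1 := aux_mul2 hp.bd.g11 (le_refl |K.h1 (Psi z) (fderiv ℝ Psi z e1)|)
      have t2 := aux_mul2 hp.bd.g12 (le_refl |K.h2 (Psi z) (fderiv ℝ Psi z e1)|)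
      refine (abs_add_le _ _).trans ?_
      rw [mul_add]
      exact add_le_add t1 t2
    have hZsq := hp.sq_norm_Z hZ
    rw [← hxi] at hZsq
    have hH' : |fderiv ℝ hh z.2 Z.2| ≤ hb * ‖Z‖ := by
      have h1 := (fderiv ℝ hh z.2).le_opNorm Z.2
      rw [Real.norm_eq_abs] at h1
      refine h1.trans ?_
      have : ‖Z.2‖ ≤ ‖Z‖ := norm_snd_le Z
      gcongr
      exact hhb z.2
    have hda0 : (fderiv ℝ Psi z e1).2.2.1 < κ → deriv eta ((fderiv ℝ Psi z e1).2.2.1 / κ) = 0 := by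
      intro hlt
      apply deriv_eta_zero_left
      rw [div_lt_one hκ0]; exact hlt
    exact pe_alg hC hB hκ hcv hcu hL hap hbp ha2 hb2 hp.sq_le.1 hX (norm_nonneg Z) hZsq hhb0 hH'
      hH0 (hh1 z.2) heb0 (eta_le_one _) (eta_nonneg _) (eta_le_one _) (hBeta _) (hBeta _) hda0
      (hp.Sv_Z hNu hZ) (hp.Su_Z hN4 hZ) (hp.xi_Z hZ)
  · have hzero : fderiv ℝ hh z.2 Z.2 * (eta ((fderiv ℝ Psi z e1).2.1 / κ)
          * (eta ((fderiv ℝ Psi z e1).2.2.1 / κ) * K.gF (Psi z) (fderiv ℝ Psi z e1) e1))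
      + hh z.2 * ((deriv eta ((fderiv ℝ Psi z e1).2.1 / κ) * ((Sd Psi z Z e1).2.1 / κ))
          * (eta ((fderiv ℝ Psi z e1).2.2.1 / κ) * K.gF (Psi z) (fderiv ℝ Psi z e1) e1))
      + hh z.2 * (eta ((fderiv ℝ Psi z e1).2.1 / κ)
          * ((deriv eta ((fderiv ℝ Psi z e1).2.2.1 / κ) * ((Sd Psi z Z e1).2.2.1 / κ))
            * K.gF (Psi z) (fderiv ℝ Psi z e1) e1))
      + hh z.2 * (eta ((fderiv ℝ Psi z e1).2.1 / κ) * (eta ((fderiv ℝ Psi z e1).2.2.1 / κ)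
          * (K.dgF (Psi z) e1 (fderiv ℝ Psi z e1) e1 + K.gF (Psi z) (Sd Psi z Z e1) e1)))
      + (1/2) * (fderiv ℝ Psi z e1).2.1
        * fderiv ℝ K.g11 (Psi z) (e4 K (Psi z)) * (hh z.2 * (eta ((fderiv ℝ Psi z e1).2.1 / κ)
          * eta ((fderiv ℝ Psi z e1).2.2.1 / κ))) = 0 := by
      rw [not_and_or] at hcase
      rcases hcase with hc | hc
      · push Not at hc
        have h2 : 2 < (fderiv ℝ Psi z e1).2.2.1 / κ := by
          rw [lt_div_iff₀ hκ0]; exact hc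
        rw [deriv_eta_zero_right h2, eta_zero h2.le]
        ring
      · push Not at hc
        have h2 : 2 < (fderiv ℝ Psi z e1).2.1 / κ := by
          rw [lt_div_iff₀ hκ0]; exact hc
        rw [deriv_eta_zero_right h2, eta_zero h2.le]
        ring
    rw [hzero, abs_zero]
    have hif : (0:ℝ) ≤ (if κ ≤ (fderiv ℝ Psi z e1).2.2.1 then 1 else 0) := by
      split_ifs <;> norm_num
    positivity


end Vale.Agent.P354x
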