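import Vale.Agent.P354x.Slice1

set_option maxSynthPendingDepth 3

open Set MeasureTheory Filter Topology

namespace Vale.Agent.P354x

open Vale.Agent.P354w PreHyp CoreHyp

variable {K : Coef} {G : P4 → P4 →L[ℝ] P4 →L[ℝ] ℝ} {Psi : P4 → P4} {V U : Set P4}
    {C R : ℝ} {cv cw cu : ℝ → ℝ} {t0 r : ℝ} {f : P3 → ℝ}

/-- the coefficient of the main term -/
noncomputable def mm (Psi : P4 → P4) (hh : P3 → ℝ) (κ : ℝ) (z : P4) : ℝ :=
  (1/2) * (fderiv ℝ Psi z e1).2.1 * (hh z.2 * (eta ((fderiv ℝ Psi z e1).2.1 / κ)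
    * eta ((fderiv ℝ Psi z e1).2.2.1 / κ)))

lemma hasFDerivAt_insv (v : ℝ) (y : P3) : ∃ L : P3 →L[ℝ] P4, HasFDerivAt (fun y => ins v y) L y ∧
    L (1, 0, 0) = e1 := by
  refine ⟨(ContinuousLinearMap.fst ℝ ℝ (ℝ × ℝ)).prod ((0 : P3 →L[ℝ] ℝ).prod
    (((ContinuousLinearMap.fst ℝ ℝ ℝ).comp (ContinuousLinearMap.snd ℝ ℝ (ℝ × ℝ))).prod
      ((ContinuousLinearMap.snd ℝ ℝ ℝ).comp (ContinuousLinearMap.snd ℝ ℝ (ℝ × ℝ))))), ?_, ?_⟩
  · unfold ins
    have h1 : HasFDerivAt (fun y : P3 => y.1) (ContinuousLinearMap.fst ℝ ℝ (ℝ × ℝ)) y :=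
      hasFDerivAt_fst
    have h2 : HasFDerivAt (fun y : P3 => y.2.1)
        ((ContinuousLinearMap.fst ℝ ℝ ℝ).comp (ContinuousLinearMap.snd ℝ ℝ (ℝ × ℝ))) y :=
      ((ContinuousLinearMap.fst ℝ ℝ ℝ).comp (ContinuousLinearMap.snd ℝ ℝ (ℝ × ℝ))).hasFDerivAt
    have h3 : HasFDerivAt (fun y : P3 => y.2.2)
        ((ContinuousLinearMap.snd ℝ ℝ ℝ).comp (ContinuousLinearMap.snd ℝ ℝ (ℝ × ℝ))) y :=
      ((ContinuousLinearMap.snd ℝ ℝ ℝ).comp (ContinuousLinearMap.snd ℝ ℝ (ℝ × ℝ))).hasFDerivAt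
    exact h1.prodMk ((hasFDerivAt_const v y).prodMk (h2.prodMk h3))
  · rfl

lemma contDiff_insv (v : ℝ) : ContDiff ℝ 1 (fun y : P3 => ins v y) := by
  unfold ins; fun_prop

/-- the transplanted test function on the slice -/
noncomputable def Tv (K : Coef) (Psi : P4 → P4) (V : Set P4) (t0 r : ℝ) (f : P3 → ℝ)
    (hh : P3 → ℝ) (κ v : ℝ) (y : P3) : ℝ := That K Psi V t0 r f hh κ (ins v y)

lemma contDiff_Tv (h : CoreHyp K G Psi V U C R cv cw cu t0 r f) {hh : P3 → ℝ}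
    (hhs : ContDiff ℝ 1 hh) {κ r' v vlo : ℝ} (hr' : r' < r) (hv : v < 0)
    (hhr : ∀ x, r' < ‖x‖ → hh x = 0)
    (hvlo : ∀ x : P3, ‖x‖ ≤ r' → (Psi (t0, x)).2.1 ≤ vlo) (h1 : vlo < v) :
    ContDiff ℝ 1 (Tv K Psi V t0 r f hh κ v) := by
  rw [contDiff_iff_contDiffAt]
  intro y
  have h2 : ContDiffAt ℝ 1 (That K Psi V t0 r f hh κ) (ins v y) :=
    h.contDiffAt_That hhs hr' (v2 := v / 2) (by linarith) hhr hvlo h1
      (show v < v / 2 by linarith)
  exact h2.comp y (contDiff_insv v).contDiffAt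

lemma compact_Tv (h : CoreHyp K G Psi V U C R cv cw cu t0 r f) {hh : P3 → ℝ}
    {κ r' v : ℝ} (hr' : r' < r) (hv : v < 0) (hhr : ∀ x, r' < ‖x‖ → hh x = 0) :
    HasCompactSupport (Tv K Psi V t0 r f hh κ v) := by
  have hK := h.isCompact_image_KK hr' hv
  have hproj : Continuous (fun x : P4 => ((x.1, x.2.2.1, x.2.2.2) : P3)) := by fun_prop
  apply HasCompactSupport.intro (hK.image hproj)
  intro y hy
  apply h.That_zero_of hhr (v2 := v)
  · intro hm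
    exact hy ⟨ins v y, hm, rfl⟩
  · exact le_refl _

lemma fderiv_Tv (h : CoreHyp K G Psi V U C R cv cw cu t0 r f) {hh : P3 → ℝ}
    (hhs : ContDiff ℝ 1 hh) {κ r' v vlo : ℝ} (hr' : r' < r) (hv : v < 0)
    (hhr : ∀ x, r' < ‖x‖ → hh x = 0)
    (hvlo : ∀ x : P3, ‖x‖ ≤ r' → (Psi (t0, x)).2.1 ≤ vlo) (h1 : vlo < v) (y : P3) :
    fderiv ℝ (Tv K Psi V t0 r f hh κ v) y (1, 0, 0) =
      fderiv ℝ (That K Psi V t0 r f hh κ) (ins v y) e1 := by
  have h2 : ContDiffAt ℝ 1 (That K Psi V t0 r f hh κ) (ins v y) :=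
    h.contDiffAt_That hhs hr' (v2 := v / 2) (by linarith) hhr hvlo h1
      (show v < v / 2 by linarith)
  obtain ⟨L, hL, hL1⟩ := hasFDerivAt_insv v y
  have h3 := ((h2.differentiableAt (by norm_num)).hasFDerivAt).comp y hL
  have h4 : fderiv ℝ (Tv K Psi V t0 r f hh κ v) y =
      (fderiv ℝ (That K Psi V t0 r f hh κ) (ins v y)).comp L := h3.fderiv
  rw [h4, ContinuousLinearMap.comp_apply, hL1]

/-- integration by parts on the slice -/
lemma slice_ibp (h : CoreHyp K G Psi V U C R cv cw cu t0 r f) {hh : P3 → ℝ}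
    (hhs : ContDiff ℝ 1 hh) {κ r' v vlo : ℝ} (hr' : r' < r) (hv : v < 0)
    (hhr : ∀ x, r' < ‖x‖ → hh x = 0)
    (hvlo : ∀ x : P3, ‖x‖ ≤ r' → (Psi (t0, x)).2.1 ≤ vlo) (h1 : vlo < v) {φ : P3 → ℝ}
    (hφ : ContDiff ℝ 1 φ) (hφc : HasCompactSupport φ) :
    Integrable (fun y => φ y * fderiv ℝ (That K Psi V t0 r f hh κ) (ins v y) e1
      + fderiv ℝ φ y (1, 0, 0) * Tv K Psi V t0 r f hh κ v y) ∧
    ∫ y, (φ y * fderiv ℝ (That K Psi V t0 r f hh κ) (ins v y) e1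
      + fderiv ℝ φ y (1, 0, 0) * Tv K Psi V t0 r f hh κ v y) = 0 := by
  have := haarP3
  have hT := contDiff_Tv h hhs (κ := κ) hr' hv hhr hvlo h1
  have hTc := compact_Tv h (κ := κ) hr' hv hhr
  have c1 : Continuous (fun y => fderiv ℝ φ y (1, 0, 0)) :=
    (hφ.continuous_fderiv (by norm_num)).clm_apply continuous_const
  have c2 : Continuous (fun y => fderiv ℝ (Tv K Psi V t0 r f hh κ v) y (1, 0, 0)) :=
    (hT.continuous_fderiv (by norm_num)).clm_apply continuous_const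
  have i1 : Integrable (fun y => fderiv ℝ φ y (1, 0, 0) * Tv K Psi V t0 r f hh κ v y) :=
    (c1.mul hT.continuous).integrable_of_hasCompactSupport hTc.mul_left
  have i2 : Integrable (fun y => φ y * fderiv ℝ (Tv K Psi V t0 r f hh κ v) y (1, 0, 0)) :=
    (hφ.continuous.mul c2).integrable_of_hasCompactSupport hφc.mul_right
  have i3 : Integrable (fun y => φ y * Tv K Psi V t0 r f hh κ v y) :=
    (hφ.continuous.mul hT.continuous).integrable_of_hasCompactSupport hφc.mul_right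
  have e := integral_mul_fderiv_eq_neg_fderiv_mul_of_integrable (μ := (volume : Measure P3))
    (f := φ) (g := Tv K Psi V t0 r f hh κ v) (v := ((1, 0, 0) : P3)) i1 i2 i3
    (fun x _ => (hφ.differentiable (by norm_num)) x)
    (fun x _ => (hT.differentiable (by norm_num)) x)
  have e2 : ∀ y, fderiv ℝ (Tv K Psi V t0 r f hh κ v) y (1, 0, 0) =
      fderiv ℝ (That K Psi V t0 r f hh κ) (ins v y) e1 := fun y =>
    fderiv_Tv h hhs hr' hv hhr hvlo h1 y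
  simp only [e2] at i2 e
  refine ⟨i2.add i1, ?_⟩
  rw [integral_add i2 i1, e]
  simp

/-- bound of the test function -/
lemma Theta_le (h : PreHyp K G Psi V U C R cv cw cu t0 r f) {hh : P3 → ℝ}
    (hh0 : ∀ x, 0 ≤ hh x) (hh1 : ∀ x, hh x ≤ 1) {κ : ℝ} (hκ : 1 ≤ κ) {z : P4} (hz : z ∈ V) :
    |Theta K Psi hh κ z| ≤ 9 * C ^ 3 * κ := by
  have hp := h.pt hz
  have hC := hp.bd.one_le
  have hκ0 : 0 < κ := by linarith
  have hbp : 0 < (fderiv ℝ Psi z e1).2.1 := hp.pos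
  have hap : 0 < (fderiv ℝ Psi z e1).2.2.1 := hp.sq_le.2.1
  have hpos : 0 ≤ 9 * C ^ 3 * κ := by positivity
  by_cases hcase : (fderiv ℝ Psi z e1).2.2.1 ≤ 2 * κ ∧ (fderiv ℝ Psi z e1).2.1 ≤ 2 * κ
  · obtain ⟨ha2, hb2⟩ := hcase
    have hxi : K.gF (Psi z) (fderiv ℝ Psi z e1) e1 = PtHyp.xi K Psi z := by
      rw [K.gF_symm, gF_e1]
    have hX : |K.gF (Psi z) (fderiv ℝ Psi z e1) e1|
        ≤ C * (|K.h1 (Psi z) (fderiv ℝ Psi z e1)| + |K.h2 (Psi z) (fderiv ℝ Psi z e1)|) := by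
      rw [hxi]
      have t1 := aux_mul2 hp.bd.g11 (le_refl |K.h1 (Psi z) (fderiv ℝ Psi z e1)|)
      have t2 := aux_mul2 hp.bd.g12 (le_refl |K.h2 (Psi z) (fderiv ℝ Psi z e1)|)
      refine (abs_add_le _ _).trans ?_
      rw [mul_add]
      exact add_le_add t1 t2
    have hZsq := hp.sq_norm_Z (h.Zf_spec hz)
    rw [← hxi] at hZsq
    have hb := (pe_bounds hC hκ hap hbp ha2 hb2 (by positivity) (pe_y hp.sq_le.1) hX
      (norm_nonneg _) hZsq).2.2.2.1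
    rw [Theta, abs_mul, abs_mul, abs_mul, abs_of_nonneg (hh0 _), abs_of_nonneg (eta_nonneg _),
      abs_of_nonneg (eta_nonneg _)]
    calc hh z.2 * (eta ((fderiv ℝ Psi z e1).2.1 / κ) * (eta ((fderiv ℝ Psi z e1).2.2.1 / κ)
          * |K.gF (Psi z) (fderiv ℝ Psi z e1) e1|))
        ≤ 1 * (1 * (1 * (9 * C ^ 3 * κ))) := by
          gcongr
          · exact mul_nonneg (eta_nonneg _) (mul_nonneg (eta_nonneg _) (abs_nonneg _))
          · exact hh1 _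
          · exact mul_nonneg (eta_nonneg _) (abs_nonneg _)
          · exact eta_le_one _
          · exact eta_le_one _
      _ = _ := by ring
  · have : Theta K Psi hh κ z = 0 := by
      rw [not_and_or] at hcase
      rw [Theta]
      rcases hcase with hc | hc
      · push Not at hc
        have h2 : 2 < (fderiv ℝ Psi z e1).2.2.1 / κ := by
          rw [lt_div_iff₀ hκ0]; exact hc
        rw [eta_zero h2.le]; ring
      · push Not at hc
        have h2 : 2 < (fderiv ℝ Psi z e1).2.1 / κ := by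
          rw [lt_div_iff₀ hκ0]; exact hc
        rw [eta_zero h2.le]; ring
    rw [this, abs_zero]; exact hpos

lemma mm_nonneg (h : PreHyp K G Psi V U C R cv cw cu t0 r f) {hh : P3 → ℝ}
    (hh0 : ∀ x, 0 ≤ hh x) {κ : ℝ} {z : P4} (hz : z ∈ V) : 0 ≤ mm Psi hh κ z := by
  have hbp : 0 < (fderiv ℝ Psi z e1).2.1 := h.pos z hz
  have := hh0 z.2
  have := eta_nonneg ((fderiv ℝ Psi z e1).2.1 / κ)
  have := eta_nonneg ((fderiv ℝ Psi z e1).2.2.1 / κ)
  unfold mm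
  positivity

end Vale.Agent.P354x
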