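import Vale.Agent.P354x.Slice2

set_option maxSynthPendingDepth 3

open Set MeasureTheory Filter Topology

namespace Vale.Agent.P354x

open Vale.Agent.P354w PreHyp CoreHyp

variable {K : Coef} {G : P4 → P4 →L[ℝ] P4 →L[ℝ] ℝ} {Psi : P4 → P4} {V U : Set P4}
    {C R : ℝ} {cv cw cu : ℝ → ℝ} {t0 r : ℝ} {f : P3 → ℝ}

/-- the slice of the image -/
def Sv (Psi : P4 → P4) (t0 r : ℝ) (f : P3 → ℝ) (v : ℝ) : Set P3 := {y | ins v y ∈ Psi '' DD t0 r f}

lemma isOpen_Sv (h : PreHyp K G Psi V U C R cv cw cu t0 r f) (v : ℝ) :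
    IsOpen (Sv Psi t0 r f v) :=
  (isOpen_imDD h).preimage (by unfold ins; fun_prop)

lemma image_sub (h : PreHyp K G Psi V U C R cv cw cu t0 r f) : Psi '' DD t0 r f ⊆ U := by
  rintro _ ⟨z, hz, rfl⟩
  exact h.maps (h.DD_sub hz)

/-- the derivative of g11 in the direction `e4` -/
noncomputable def dg (K : Coef) (y : P4) : ℝ := fderiv ℝ K.g11 y (e4 K y)

lemma continuousOn_dg (h : PreHyp K G Psi V U C R cv cw cu t0 r f) : ContinuousOn (dg K) U := by
  have c1 : ContinuousOn (fderiv ℝ K.g11) U :=
    h.smoothK.g11.continuousOn_fderiv_of_isOpen h.openU (by norm_num)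
  have c2 : ContinuousOn (e4 K) U := by
    unfold e4
    exact h.smoothK.s1.continuousOn.prodMk (continuousOn_const.prodMk (continuousOn_const.prodMk
      h.smoothK.s2.continuousOn))
  exact c1.clm_apply c2

lemma continuousOn_mm (h : PreHyp K G Psi V U C R cv cw cu t0 r f) {hh : P3 → ℝ}
    (hhs : ContDiff ℝ 1 hh) (κ : ℝ) : ContinuousOn (mm Psi hh κ) (DD t0 r f) := by
  intro z hz
  have hP := (h.contDiffAt_P (h.DD_sub hz) e1).continuousAt
  have p2 : ContinuousAt (fun z => (fderiv ℝ Psi z e1).2.1) z := hP.snd.fst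
  have p3 : ContinuousAt (fun z => (fderiv ℝ Psi z e1).2.2.1) z := hP.snd.snd.fst
  have he : Continuous eta := (eta_contDiff (n := 0) (by norm_num)).continuous
  have q2 : ContinuousAt (fun z => eta ((fderiv ℝ Psi z e1).2.1 / κ)) z :=
    ContinuousAt.comp (g := eta) (f := fun z => (fderiv ℝ Psi z e1).2.1 / κ) he.continuousAt
      (p2.div_const κ)
  have q3 : ContinuousAt (fun z => eta ((fderiv ℝ Psi z e1).2.2.1 / κ)) z :=
    ContinuousAt.comp (g := eta) (f := fun z => (fderiv ℝ Psi z e1).2.2.1 / κ) he.continuousAt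
      (p3.div_const κ)
  have q1 : ContinuousAt (fun z : P4 => hh z.2) z :=
    (hhs.continuous.comp continuous_snd).continuousAt
  exact (((continuousAt_const.mul p2)).mul (q1.mul (q2.mul q3))).continuousWithinAt

/-- the slice inequality -/
lemma slice_ineq (h : CoreHyp K G Psi V U C R cv cw cu t0 r f) {hh : P3 → ℝ}
    (hhs : ContDiff ℝ 1 hh) (hh0 : ∀ x, 0 ≤ hh x) (hh1 : ∀ x, hh x ≤ 1) {hb : ℝ}
    (hhb : ∀ x, ‖fderiv ℝ hh x‖ ≤ hb) {B : ℝ} (hB : 1 ≤ B) (hBeta : ∀ s, |deriv eta s| ≤ B)
    {κ : ℝ} (hκ : 1 ≤ κ) {r' v vlo : ℝ} (hr' : r' < r) (hv : v < 0)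
    (hhr : ∀ x, r' < ‖x‖ → hh x = 0)
    (hvlo : ∀ x : P3, ‖x‖ ≤ r' → (Psi (t0, x)).2.1 ≤ vlo) (h1 : vlo < v) {φ : P3 → ℝ}
    (hφ : ContDiff ℝ 1 φ) (hφc : HasCompactSupport φ) (hφ0 : ∀ y, 0 ≤ φ y)
    {σ c : ℝ} (hσ : |σ| = 1) (hc0 : 0 ≤ c)
    (hc : ∀ y : P3, φ y ≠ 0 → ins v y ∈ Psi '' DD t0 r f →
      |fderiv ℝ K.g11 (ins v y) (e4 K (ins v y))| ≤ c ∧
      |fderiv ℝ K.g12 (ins v y) (e4 K (ins v y))| ≤ c ∧
      |fderiv ℝ K.g22 (ins v y) (e4 K (ins v y))| ≤ c ∧
      0 ≤ σ * fderiv ℝ K.g11 (ins v y) (e4 K (ins v y))) :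
    ∫⁻ y in Sv Psi t0 r f v, ENNReal.ofReal (φ y * (mm Psi hh κ (Phi Psi V (ins v y)) *
        (σ * dg K (ins v y)))) ≤
      (∫⁻ y in Sv Psi t0 r f v, ENNReal.ofReal (φ y) * (ENNReal.ofReal (16 * C ^ 4 * B * κ * c) *
          (if κ ≤ (fderiv ℝ Psi (Phi Psi V (ins v y)) e1).2.2.1 then 1 else 0)
        + ENNReal.ofReal (Ck C B hb κ) * (ENNReal.ofReal (1 + cu y.2.1)
          + Lh G Psi V t0 r f (ins v y))))
      + ENNReal.ofReal (9 * C ^ 3 * κ) * ∫⁻ y, ‖fderiv ℝ φ y (1, 0, 0)‖ₑ := by
  have hpre := h.toPreHyp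
  have hSo := isOpen_Sv hpre v
  have hSm : MeasurableSet (Sv Psi t0 r f v) := hSo.measurableSet
  obtain ⟨hXi, hX0⟩ := slice_ibp h hhs (κ := κ) hr' hv hhr hvlo h1 hφ hφc
  set X : P3 → ℝ := fun y => φ y * fderiv ℝ (That K Psi V t0 r f hh κ) (ins v y) e1
      + fderiv ℝ φ y (1, 0, 0) * Tv K Psi V t0 r f hh κ v y with hX
  set g : P3 → ℝ := (Sv Psi t0 r f v).indicator (fun y => φ y *
    (mm Psi hh κ (Phi Psi V (ins v y)) * (σ * dg K (ins v y)))) with hg
  set E : P3 → ENNReal := fun y => (Sv Psi t0 r f v).indicator (fun y =>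
    ENNReal.ofReal (φ y) * (ENNReal.ofReal (16 * C ^ 4 * B * κ * c) *
          (if κ ≤ (fderiv ℝ Psi (Phi Psi V (ins v y)) e1).2.2.1 then 1 else 0)
        + ENNReal.ofReal (Ck C B hb κ) * (ENNReal.ofReal (1 + cu y.2.1)
          + Lh G Psi V t0 r f (ins v y)))) y
      + ENNReal.ofReal (9 * C ^ 3 * κ) * ‖fderiv ℝ φ y (1, 0, 0)‖ₑ with hE
  have hcins : Continuous (fun y : P3 => ins v y) := by unfold ins; fun_prop
  have hgm : AEStronglyMeasurable g volume := by
    apply AEMeasurable.aestronglyMeasurable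
    rw [hg, aemeasurable_indicator_iff hSm]
    apply ContinuousOn.aemeasurable _ hSm
    have c1 : ContinuousOn (fun y : P3 => Phi Psi V (ins v y)) (Sv Psi t0 r f v) :=
      (continuousOn_Phi hpre).comp hcins.continuousOn (fun y hy => hy)
    have c2 : ContinuousOn (fun y : P3 => mm Psi hh κ (Phi Psi V (ins v y))) (Sv Psi t0 r f v) := by
      apply (continuousOn_mm hpre hhs κ).comp c1
      rintro y ⟨z, hz, hzy⟩
      show Phi Psi V (ins v y) ∈ DD t0 r f
      rw [← hzy, h.Phi_left (h.DD_sub hz)]; exact hz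
    have c3 : ContinuousOn (fun y : P3 => dg K (ins v y)) (Sv Psi t0 r f v) :=
      (continuousOn_dg hpre).comp hcins.continuousOn (fun y hy => image_sub hpre hy)
    exact hφ.continuous.continuousOn.mul (c2.mul (continuousOn_const.mul c3))
  have hXi' := hXi.const_mul σ
  have hX0' : ∫ y, σ * X y = 0 := by rw [integral_const_mul, hX0, mul_zero]
  have main := lintegral_le_of_integral_zero (μ := (volume : Measure P3)) (E := E) hXi' hX0' hgm
    (by
      apply ae_of_all
      intro y
      rw [hg]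
      by_cases hy : y ∈ Sv Psi t0 r f v
      · rw [indicator_of_mem hy]
        obtain ⟨z, hz, hzy⟩ := hy
        by_cases hφy : φ y = 0
        · simp [hφy]
        · have hmem : ins v y ∈ Psi '' DD t0 r f := ⟨z, hz, hzy⟩
          have h3 := (hc y hφy hmem).2.2.2
          have hP : Phi Psi V (ins v y) = z := by rw [← hzy]; exact h.Phi_left (h.DD_sub hz)
          rw [hP]
          exact mul_nonneg (hφ0 y) (mul_nonneg (mm_nonneg hpre hh0 (h.DD_sub hz)) h3)
      · rw [indicator_of_notMem hy])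
    (by
      apply ae_of_all
      intro y
      rw [hg, hE]
      simp only
      by_cases hy : y ∈ Sv Psi t0 r f v
      · rw [indicator_of_mem hy, indicator_of_mem hy]
        have hmem : ins v y ∈ Psi '' DD t0 r f := hy
        obtain ⟨z, hz, hzy⟩ := hy
        have hzV := h.DD_sub hz
        have hP : Phi Psi V (ins v y) = z := by rw [← hzy]; exact h.Phi_left hzV
        have hC := (h.pt hzV).bd.one_le
        have hTle : |Tv K Psi V t0 r f hh κ v y| ≤ 9 * C ^ 3 * κ := by
          rw [Tv, ← hzy, h.That_eq hz]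
          exact Theta_le hpre hh0 hh1 hκ hzV
        have hLh : Lh G Psi V t0 r f (ins v y) = ‖fderiv ℝ G z‖ₑ := by
          rw [Lh, indicator_of_mem hmem, hP]
        have hD : fderiv ℝ (That K Psi V t0 r f hh κ) (ins v y) e1 =
            fderiv ℝ (Theta K Psi hh κ) z (Zf Psi V z) := by
          rw [← hzy]; exact h.fderiv_That hhs hz
        have e : σ * X y + φ y * (mm Psi hh κ (Phi Psi V (ins v y)) * (σ * dg K (ins v y))) =
            σ * (φ y * (fderiv ℝ (Theta K Psi hh κ) z (Zf Psi V z) +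
              mm Psi hh κ z * dg K (Psi z)) + fderiv ℝ φ y (1, 0, 0) *
              Tv K Psi V t0 r f hh κ v y) := by
          rw [hX, hP, ← hzy]
          simp only
          rw [hzy, hD]; ring
        rw [e, enorm_mul]
        have hσ' : ‖σ‖ₑ = 1 := by
          rw [← ofReal_norm, Real.norm_eq_abs, hσ, ENNReal.ofReal_one]
        rw [hσ', one_mul]
        refine (enorm_add_le _ _).trans ?_
        rw [hP]
        apply add_le_add
        · rw [enorm_mul]
          have hφe : ‖φ y‖ₑ = ENNReal.ofReal (φ y) := by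
            rw [← ofReal_norm, Real.norm_eq_abs, abs_of_nonneg (hφ0 y)]
          rw [hφe]
          by_cases hφy : φ y = 0
          · simp only [hφy, ENNReal.ofReal_zero, zero_mul, mul_ite, mul_one, mul_zero, Std.le_refl]
          · gcongr
            obtain ⟨k1, k2, k3, _⟩ := hc y hφy hmem
            have hp0 := h.pt hzV
            have hbd : K.Bd (Psi z) C c (cw (Psi z).2.1) (cu (Psi z).2.2.1) :=
              { hp0.bd with
                cv0 := hc0
                g11_4 := by rw [hzy]; exact k1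
                g12_4 := by rw [hzy]; exact k2
                g22_4 := by rw [hzy]; exact k3 }
            have hp : PtHyp K G Psi V z C c (cw (Psi z).2.1) (cu (Psi z).2.2.1) :=
              { hp0 with bd := hbd }
            have hpw := pointwise' hpre hhs hh0 hh1 hhb hB hBeta hκ hzV (h.Zf_spec hzV) hp
            have hcu : cu (Psi z).2.2.1 = cu y.2.1 := by rw [hzy]; rfl
            rw [hcu] at hpw
            have hcu0 : 0 ≤ cu y.2.1 := by rw [← hcu]; exact hp0.bd.cu0
            have hhb0 : 0 ≤ hb := (norm_nonneg _).trans (hhb 0)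
            have hCk : 0 ≤ Ck C B hb κ := by unfold Ck; positivity
            have hbp : 0 < (fderiv ℝ Psi z e1).2.1 := h.pos z hzV
            have hκ0 : 0 < κ := by linarith only [hκ]
            have hLn := norm_nonneg (fderiv ℝ G z)
            have e1' := eta_nonneg ((fderiv ℝ Psi z e1).2.1 / κ)
            have e1'' := eta_le_one ((fderiv ℝ Psi z e1).2.1 / κ)
            have b1 : (fderiv ℝ Psi z e1).2.1 * (hh z.2 * eta ((fderiv ℝ Psi z e1).2.1 / κ)) ≤
                2 * κ := by
              by_cases hb2 : (fderiv ℝ Psi z e1).2.1 ≤ 2 * κ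
              · have : hh z.2 * eta ((fderiv ℝ Psi z e1).2.1 / κ) ≤ 1 :=
                  mul_le_one₀ (hh1 _) e1' e1''
                have h0 : 0 ≤ hh z.2 * eta ((fderiv ℝ Psi z e1).2.1 / κ) :=
                  mul_nonneg (hh0 _) e1'
                linarith only [hb2, mul_le_mul_of_nonneg_left this hbp.le]
              · push Not at hb2
                have h2 : 2 < (fderiv ℝ Psi z e1).2.1 / κ := by
                  rw [lt_div_iff₀ hκ0]; exact hb2
                rw [eta_zero h2.le]
                simp only [mul_zero]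
                linarith only [hκ]
            have hmain : |fderiv ℝ (Theta K Psi hh κ) z (Zf Psi V z) +
                mm Psi hh κ z * dg K (Psi z)| ≤ 16 * C ^ 4 * B * κ * c *
                  (if κ ≤ (fderiv ℝ Psi z e1).2.2.1 then 1 else 0)
                + Ck C B hb κ * ((1 + cu y.2.1) + ‖fderiv ℝ G z‖) := by
              have e3 : fderiv ℝ (Theta K Psi hh κ) z (Zf Psi V z) +
                mm Psi hh κ z * dg K (Psi z) = fderiv ℝ (Theta K Psi hh κ) z (Zf Psi V z)
                + (1/2) * (fderiv ℝ Psi z e1).2.1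
        * fderiv ℝ K.g11 (Psi z) (e4 K (Psi z)) * (hh z.2 * (eta ((fderiv ℝ Psi z e1).2.1 / κ)
          * eta ((fderiv ℝ Psi z e1).2.2.1 / κ))) := by
                rw [mm, dg]; ring
              rw [e3]
              refine hpw.trans ?_
              gcongr ?_ + _
              have hif : (0:ℝ) ≤ (if κ ≤ (fderiv ℝ Psi z e1).2.2.1 then 1 else 0) := by
                split_ifs <;> norm_num
              calc 8 * C ^ 4 * B * (c * (fderiv ℝ Psi z e1).2.1 * (hh z.2 *
                    eta ((fderiv ℝ Psi z e1).2.1 / κ)) *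
                    (if κ ≤ (fderiv ℝ Psi z e1).2.2.1 then 1 else 0))
                  = 8 * C ^ 4 * B * c * ((fderiv ℝ Psi z e1).2.1 * (hh z.2 *
                    eta ((fderiv ℝ Psi z e1).2.1 / κ))) *
                    (if κ ≤ (fderiv ℝ Psi z e1).2.2.1 then 1 else 0) := by ring
                _ ≤ 8 * C ^ 4 * B * c * (2 * κ) *
                    (if κ ≤ (fderiv ℝ Psi z e1).2.2.1 then 1 else 0) := by
                    gcongr
                _ = _ := by ring
            rw [← ofReal_norm, Real.norm_eq_abs]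
            refine (ENNReal.ofReal_le_ofReal hmain).trans (le_of_eq ?_)
            rw [ENNReal.ofReal_add (by
              have hif : (0:ℝ) ≤ (if κ ≤ (fderiv ℝ Psi z e1).2.2.1 then 1 else 0) := by
                split_ifs <;> norm_num
              positivity) (by positivity), ENNReal.ofReal_mul (by positivity),
              ENNReal.ofReal_mul hCk, ENNReal.ofReal_add (by linarith only [hcu0]) hLn, ofReal_norm, hLh]
            congr 2
            split_ifs <;> simp
        · rw [enorm_mul, mul_comm]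
          gcongr
          rw [← ofReal_norm, Real.norm_eq_abs]
          exact ENNReal.ofReal_le_ofReal hTle
      · rw [indicator_of_notMem hy, indicator_of_notMem hy, add_zero, zero_add]
        have hT0 : Tv K Psi V t0 r f hh κ v y = 0 := by
          have hy' : ins v y ∉ Psi '' DD t0 r f := hy
          rw [Tv, That, indicator_of_notMem hy']
        have hD0 : fderiv ℝ (That K Psi V t0 r f hh κ) (ins v y) e1 = 0 := by
          have hnK : ins v y ∉ Psi '' KK Psi t0 r' f (v / 2) := by
            rintro ⟨z, hzK, hzy⟩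
            have : z ∈ DD t0 r f := CoreHyp.mem_DD_of_KK hr' hvlo hzK (by rw [hzy]; exact h1)
            exact hy ⟨z, this, hzy⟩
          rw [h.fderiv_That_zero hr' (v2 := v / 2) (by linarith only [hv]) hhr hnK
            (show v < v / 2 by linarith)]
          rfl
        have : σ * X y = 0 := by rw [hX]; simp only; rw [hT0, hD0]; ring
        rw [this, enorm_zero]
        exact bot_le)
  have e1' : ∫⁻ y, ENNReal.ofReal (g y) = ∫⁻ y in Sv Psi t0 r f v, ENNReal.ofReal (φ y *
      (mm Psi hh κ (Phi Psi V (ins v y)) * (σ * dg K (ins v y)))) := by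
    rw [← lintegral_indicator hSm]
    apply lintegral_congr
    intro y
    rw [hg]
    by_cases hy : y ∈ Sv Psi t0 r f v
    · rw [indicator_of_mem hy, indicator_of_mem hy]
    · rw [indicator_of_notMem hy, indicator_of_notMem hy, ENNReal.ofReal_zero]
  rw [← e1']
  refine main.trans (le_of_eq ?_)
  rw [hE, lintegral_add_right, lintegral_indicator hSm, lintegral_const_mul']
  · exact ENNReal.ofReal_ne_top
  · have c1 : Continuous (fun y => fderiv ℝ φ y (1, 0, 0)) :=
      (hφ.continuous_fderiv (by norm_num)).clm_apply continuous_const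
    exact (c1.measurable.enorm).const_mul _

end Vale.Agent.P354x
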