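import Vale.Agent.P354x.Slice3

set_option maxSynthPendingDepth 3

open Set MeasureTheory Filter Topology

namespace Vale.Agent.P354x

open Vale.Agent.P354w PreHyp CoreHyp

/-- the basic bump function -/
noncomputable def be : ContDiffBump (0 : P3) := ⟨1/4, 1/2, by norm_num, by norm_num⟩

/-- the scaled bump function -/
noncomputable def ph (y0 : P3) (ε : ℝ) (y : P3) : ℝ := be (ε⁻¹ • (y - y0))

lemma exists_be_bound : ∃ N : ℝ, 0 ≤ N ∧ ∀ x, ‖fderiv ℝ (be : P3 → ℝ) x‖ ≤ N := by
  have hbs : ContDiff ℝ 1 (be : P3 → ℝ) := be.contDiff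
  obtain ⟨N, hN⟩ := (be.hasCompactSupport.fderiv (𝕜 := ℝ)).exists_bound_of_continuous
      (hbs.continuous_fderiv (by norm_num))
  exact ⟨N, (norm_nonneg _).trans (hN 0), hN⟩

lemma ph_contDiff (y0 : P3) (ε : ℝ) : ContDiff ℝ 1 (ph y0 ε) := by
  have hbs : ContDiff ℝ 1 (be : P3 → ℝ) := be.contDiff
  have : ContDiff ℝ 1 (fun y : P3 => ε⁻¹ • (y - y0)) := by fun_prop
  exact hbs.comp this

lemma ph_nonneg (y0 : P3) (ε : ℝ) (y : P3) : 0 ≤ ph y0 ε y := be.nonneg

lemma ph_le_one (y0 : P3) (ε : ℝ) (y : P3) : ph y0 ε y ≤ 1 := be.le_one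

lemma ph_one {y0 : P3} {ε : ℝ} (hε : 0 < ε) {y : P3} (hy : y ∈ Metric.ball y0 (ε / 4)) :
    ph y0 ε y = 1 := by
  apply be.one_of_mem_closedBall
  rw [mem_closedBall_zero_iff, norm_smul, norm_inv, Real.norm_eq_abs, abs_of_pos hε]
  rw [Metric.mem_ball, dist_eq_norm] at hy
  show ε⁻¹ * ‖y - y0‖ ≤ 1/4
  rw [inv_mul_le_iff₀ hε]
  linarith only [hy]

lemma ph_zero {y0 : P3} {ε : ℝ} (hε : 0 < ε) {y : P3} (hy : y ∉ Metric.closedBall y0 (ε / 2)) :
    ph y0 ε y = 0 := by
  apply be.zero_of_le_dist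
  rw [dist_zero_right, norm_smul, norm_inv, Real.norm_eq_abs, abs_of_pos hε]
  rw [Metric.mem_closedBall, dist_eq_norm, not_le] at hy
  show 1/2 ≤ ε⁻¹ * ‖y - y0‖
  rw [le_inv_mul_iff₀ hε]
  linarith

lemma ph_compact {y0 : P3} {ε : ℝ} (hε : 0 < ε) : HasCompactSupport (ph y0 ε) :=
  HasCompactSupport.intro (isCompact_closedBall y0 (ε / 2)) (fun _ hy => ph_zero hε hy)

lemma ph_fderiv_zero {y0 : P3} {ε : ℝ} (hε : 0 < ε) {y : P3}
    (hy : y ∉ Metric.closedBall y0 (ε / 2)) : fderiv ℝ (ph y0 ε) y = 0 := by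
  have : ph y0 ε =ᶠ[𝓝 y] fun _ => (0:ℝ) := by
    filter_upwards [Metric.isClosed_closedBall.isOpen_compl.mem_nhds hy] with y' hy'
    exact ph_zero hε hy'
  rw [this.fderiv_eq]; simp

lemma ph_fderiv_le {N : ℝ} (hN : ∀ x, ‖fderiv ℝ (be : P3 → ℝ) x‖ ≤ N) {y0 : P3} {ε : ℝ}
    (hε : 0 < ε) (y : P3) : ‖fderiv ℝ (ph y0 ε) y (1, 0, 0)‖ ≤ N / ε := by
  have hbs : ContDiff ℝ 1 (be : P3 → ℝ) := be.contDiff
  have h1 : HasFDerivAt (be : P3 → ℝ) (fderiv ℝ (be : P3 → ℝ) (ε⁻¹ • (y - y0)))
      (ε⁻¹ • (y - y0)) := ((hbs.differentiable (by norm_num)) _).hasFDerivAt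
  have h2 : HasFDerivAt (fun y : P3 => ε⁻¹ • (y - y0)) (ε⁻¹ • ContinuousLinearMap.id ℝ P3) y :=
    ((hasFDerivAt_id y).sub_const y0).const_smul ε⁻¹
  have h3 := h1.comp y h2
  have h4 : fderiv ℝ (ph y0 ε) y = (fderiv ℝ (be : P3 → ℝ) (ε⁻¹ • (y - y0))).comp
      (ε⁻¹ • ContinuousLinearMap.id ℝ P3) := h3.fderiv
  rw [h4]
  have e : ((fderiv ℝ (be : P3 → ℝ) (ε⁻¹ • (y - y0))).comp
      (ε⁻¹ • ContinuousLinearMap.id ℝ P3)) (1, 0, 0) =
      ε⁻¹ * fderiv ℝ (be : P3 → ℝ) (ε⁻¹ • (y - y0)) (1, 0, 0) := by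
    rw [ContinuousLinearMap.comp_apply, ContinuousLinearMap.smul_apply, map_smul]
    rfl
  rw [e, norm_mul, norm_inv, Real.norm_eq_abs, abs_of_pos hε, div_eq_inv_mul]
  have h5 := (fderiv ℝ (be : P3 → ℝ) (ε⁻¹ • (y - y0))).le_opNorm (1, 0, 0)
  have h6 : ‖((1, 0, 0) : P3)‖ = 1 := by simp only [Prod.norm_def, norm_one, norm_zero, max_self, zero_le_one, sup_of_le_left]
  rw [h6, mul_one] at h5
  have := h5.trans (hN _)
  have hε' : 0 ≤ ε⁻¹ := by positivity
  exact mul_le_mul_of_nonneg_left this hε'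

variable {K : Coef} {G : P4 → P4 →L[ℝ] P4 →L[ℝ] ℝ} {Psi : P4 → P4} {V U : Set P4}
    {C R : ℝ} {cv cw cu : ℝ → ℝ} {t0 r : ℝ} {f : P3 → ℝ}

/-- the cutoff in the exotic space -/
noncomputable def hhf {r : ℝ} (hr : 0 < r) : ContDiffBump (0 : P3) :=
  ⟨r/4, r/2, by linarith, by linarith only [hr]⟩

/-- **Local estimate** on a ball of a slice, direction `theta1`. -/
theorem local_est (h : CoreHyp K G Psi V U C R cv cw cu t0 r f) (hcu : ∀ u, cu u ≤ C)
    {κ : ℝ} (hκ : 1 ≤ κ) : ∃ D : ℝ, 0 < D ∧ ∀ (v y0 ε σ γ c) (Y : Set P3), v < 0 →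
      (∀ x : P3, ‖x‖ ≤ r / 2 → (Psi (t0, x)).2.1 < v) → 0 < ε → ε ≤ 1 → |σ| = 1 → 0 ≤ γ → 0 ≤ c →
      MeasurableSet Y →
      (∀ y ∈ Y, ∃ z ∈ DD t0 r f, Psi z = ins v y ∧ ‖z.2‖ ≤ r / 4 ∧ QQ Psi z ≤ κ) →
      (∀ y ∈ Metric.ball y0 ε, ins v y ∈ Psi '' DD t0 r f →
        |fderiv ℝ K.g11 (ins v y) (e4 K (ins v y))| ≤ c ∧
        |fderiv ℝ K.g12 (ins v y) (e4 K (ins v y))| ≤ c ∧
        |fderiv ℝ K.g22 (ins v y) (e4 K (ins v y))| ≤ c ∧ γ ≤ σ * dg K (ins v y)) →
      ENNReal.ofReal γ * volume (Metric.ball y0 (ε / 4) ∩ Y) ≤ ENNReal.ofReal D *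
        (ENNReal.ofReal c * volume (Metric.ball y0 ε \ Y) +
          ENNReal.ofReal (1 / ε) * volume (Metric.ball y0 ε) +
          ∫⁻ y in Metric.ball y0 ε, Lh G Psi V t0 r f (ins v y)) := by
  have hr := h.r_pos
  have hpre := h.toPreHyp
  have hC : 1 ≤ C := by
    have : ((t0, 0) : P4) ∈ V := h.memV 0 (by simpa only [Metric.mem_ball, dist_self] using hr) t0
      ⟨le_refl _, h.t0f 0 (by simpa only [Metric.mem_ball, dist_self] using hr)⟩
    exact (h.pt this).bd.one_le
  have hC0 : 0 < C := by linarith only [hC]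
  have hκ0 : 0 < κ := by linarith
  obtain ⟨B, hB, hBeta⟩ := exists_eta_bound
  obtain ⟨N, hN0, hN⟩ := exists_be_bound
  set hh := hhf hr with hhd
  have hhs : ContDiff ℝ 1 (hh : P3 → ℝ) := hh.contDiff
  obtain ⟨hb, hhb⟩ : ∃ hb : ℝ, ∀ x, ‖fderiv ℝ (hh : P3 → ℝ) x‖ ≤ hb :=
    (hh.hasCompactSupport.fderiv (𝕜 := ℝ)).exists_bound_of_continuous
      (hhs.continuous_fderiv (by norm_num))
  have hh_in : ∀ x : P3, ‖x‖ ≤ r / 4 → hh x = 1 := by
    intro x hx
    exact hh.one_of_mem_closedBall (by rwa [mem_closedBall_zero_iff])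
  have hh_out : ∀ x : P3, r / 2 < ‖x‖ → hh x = 0 := by
    intro x hx
    apply hh.zero_of_le_dist
    rw [dist_zero_right]
    exact hx.le
  have hhb0 : 0 ≤ hb := (norm_nonneg _).trans (hhb 0)
  have hB0 : 0 < B := by linarith only [hB]
  have hCk : 0 ≤ Ck C B hb κ := by unfold Ck; positivity
  set D1 : ℝ := 16 * C ^ 4 * B * κ with hD1
  set D2 : ℝ := Ck C B hb κ * (1 + C) + 9 * C ^ 3 * κ * N with hD2
  set D3 : ℝ := Ck C B hb κ with hD3
  set D0 : ℝ := D1 + D2 + D3 with hD0
  have hD10 : 0 < D1 := by positivity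
  have hD20 : 0 ≤ D2 := by positivity
  have hD00 : 0 < D0 := by positivity
  refine ⟨4 * C ^ 2 * κ * D0, by positivity, ?_⟩
  intro v y0 ε σ γ c Y hv hvlo0 hε hε1 hσ hγ hc0 hYm hY hball
  -- a uniform vlo
  obtain ⟨vlo, hvlov, hvlo⟩ : ∃ vlo < v, ∀ x : P3, ‖x‖ ≤ r / 2 → (Psi (t0, x)).2.1 ≤ vlo := by
    have hmem0 : ∀ x : P3, ‖x‖ ≤ r / 2 → ((t0, x) : P4) ∈ V := by
      intro x hx
      have hxb : x ∈ Metric.ball (0 : P3) r := by
        rw [mem_ball_zero_iff]; linarith only [hr, hx]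
      exact h.memV x hxb t0 ⟨le_refl _, h.t0f x hxb⟩
    have hcomp : IsCompact (Metric.closedBall (0 : P3) (r/2)) := isCompact_closedBall _ _
    have hne : (Metric.closedBall (0 : P3) (r/2)).Nonempty := ⟨0, by simp only [Metric.mem_closedBall, dist_self]; linarith only [hr]⟩
    have hcont : ContinuousOn (fun x : P3 => (Psi (t0, x)).2.1)
        (Metric.closedBall (0 : P3) (r/2)) := by
      intro x hx
      rw [mem_closedBall_zero_iff] at hx
      have h1 : ContinuousAt Psi (t0, x) := (h.iso.contDiffAt (hmem0 x hx)).continuousAt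
      have h2 : ContinuousAt (fun x : P3 => ((t0, x) : P4)) x := by fun_prop
      have h3 : ContinuousAt (fun x : P3 => Psi (t0, x)) x :=
        ContinuousAt.comp (g := Psi) (f := fun x : P3 => ((t0, x) : P4)) h1 h2
      exact (h3.snd.fst).continuousWithinAt
    obtain ⟨x0, hx0, hmax⟩ := hcomp.exists_isMaxOn hne hcont
    refine ⟨(Psi (t0, x0)).2.1, ?_, ?_⟩
    · rw [mem_closedBall_zero_iff] at hx0
      exact hvlo0 x0 hx0
    · intro x hx
      exact hmax (by rwa [mem_closedBall_zero_iff])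
  have hsupp : ∀ y, ph y0 ε y ≠ 0 → y ∈ Metric.ball y0 ε := by
    intro y hy
    by_contra hc
    apply hy
    apply ph_zero hε
    intro hm
    apply hc
    rw [Metric.mem_closedBall] at hm
    rw [Metric.mem_ball]; linarith only [hε, hm]
  have hSI := slice_ineq h hhs (fun x => hh.nonneg) (fun x => hh.le_one) hhb hB hBeta hκ
    (r' := r/2) (by linarith only [hr]) hv hh_out hvlo hvlov (ph_contDiff y0 ε) (ph_compact hε)
    (ph_nonneg y0 ε) (c := c) hσ hc0
    (fun y hy hm => by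
      obtain ⟨k1, k2, k3, k4⟩ := hball y (hsupp y hy) hm
      exact ⟨k1, k2, k3, hγ.trans k4⟩)
  have hballm : MeasurableSet (Metric.ball y0 ε) := Metric.isOpen_ball.measurableSet
  have hSm : MeasurableSet (Sv Psi t0 r f v) := (isOpen_Sv hpre v).measurableSet
  -- lower bound of the left side
  have low : ENNReal.ofReal (γ / (4 * C ^ 2 * κ)) * volume (Metric.ball y0 (ε / 4) ∩ Y) ≤
      ∫⁻ y in Sv Psi t0 r f v, ENNReal.ofReal (ph y0 ε y * (mm Psi hh κ (Phi Psi V (ins v y)) *
        (σ * dg K (ins v y)))) := by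
    have hsub : Metric.ball y0 (ε / 4) ∩ Y ⊆ Sv Psi t0 r f v := by
      rintro y ⟨_, hyY⟩
      obtain ⟨z, hz, hzy, _⟩ := hY y hyY
      exact ⟨z, hz, hzy⟩
    have hm : MeasurableSet (Metric.ball y0 (ε / 4) ∩ Y) :=
      Metric.isOpen_ball.measurableSet.inter hYm
    calc ENNReal.ofReal (γ / (4 * C ^ 2 * κ)) * volume (Metric.ball y0 (ε / 4) ∩ Y)
        = ∫⁻ y in Metric.ball y0 (ε / 4) ∩ Y, ENNReal.ofReal (γ / (4 * C ^ 2 * κ)) := by
          rw [lintegral_const]; simp only [MeasurableSet.univ, Measure.restrict_apply, univ_inter]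
      _ ≤ ∫⁻ y in Metric.ball y0 (ε / 4) ∩ Y, ENNReal.ofReal (ph y0 ε y *
            (mm Psi hh κ (Phi Psi V (ins v y)) * (σ * dg K (ins v y)))) := by
          apply setLIntegral_mono' hm
          rintro y ⟨hyb, hyY⟩
          apply ENNReal.ofReal_le_ofReal
          obtain ⟨z, hz, hzy, hzn, hzq⟩ := hY y hyY
          have hzV := h.DD_sub hz
          have hP : Phi Psi V (ins v y) = z := by rw [← hzy]; exact h.Phi_left hzV
          rw [ph_one hε hyb, one_mul, hP]
          have hyb' : y ∈ Metric.ball y0 ε := by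
            rw [Metric.mem_ball] at hyb ⊢; linarith only [hε, hyb]
          obtain ⟨_, _, _, k4⟩ := hball y hyb' ⟨z, hz, hzy⟩
          have ha := (h.pt hzV).sq_le.2.1
          have hbp := h.pos z hzV
          have hab := (h.pt hzV).sq_le.2.2
          unfold QQ at hzq
          simp only [PtHyp.PP] at ha hab
          have e1' : eta ((fderiv ℝ Psi z e1).2.1 / κ) = 1 := by
            apply eta_one
            rw [div_le_one hκ0]; linarith only [hzq, ha]
          have e2' : eta ((fderiv ℝ Psi z e1).2.2.1 / κ) = 1 := by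
            apply eta_one
            rw [div_le_one hκ0]; linarith only [hzq, hbp]
          have hmm : 1 / (4 * C ^ 2 * κ) ≤ mm Psi hh κ z := by
            rw [mm, e1', e2', hh_in _ hzn]
            rw [div_le_iff₀ (by positivity)]
            have h3 : (fderiv ℝ Psi z e1).2.2.1 * (fderiv ℝ Psi z e1).2.1 ≤
                κ * (fderiv ℝ Psi z e1).2.1 := by
              apply mul_le_mul_of_nonneg_right _ hbp.le
              linarith only [hzq, hbp]
            calc 1 ≤ 2 * C ^ 2 * ((fderiv ℝ Psi z e1).2.2.1 * (fderiv ℝ Psi z e1).2.1) := hab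
              _ ≤ 2 * C ^ 2 * (κ * (fderiv ℝ Psi z e1).2.1) := by gcongr
              _ = _ := by ring
          calc γ / (4 * C ^ 2 * κ) = 1 / (4 * C ^ 2 * κ) * γ := by ring
            _ ≤ mm Psi hh κ z * (σ * dg K (ins v y)) :=
              mul_le_mul hmm k4 hγ (mm_nonneg hpre (fun x => hh.nonneg) hzV)
      _ ≤ _ := lintegral_mono_set hsub
  -- upper bound of the right side
  have up1 : ∫⁻ y in Sv Psi t0 r f v, ENNReal.ofReal (ph y0 ε y) *
        (ENNReal.ofReal (16 * C ^ 4 * B * κ * c) *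
          (if κ ≤ (fderiv ℝ Psi (Phi Psi V (ins v y)) e1).2.2.1 then 1 else 0)
        + ENNReal.ofReal (Ck C B hb κ) * (ENNReal.ofReal (1 + cu y.2.1)
          + Lh G Psi V t0 r f (ins v y))) ≤
      ENNReal.ofReal (D1 * c) * volume (Metric.ball y0 ε \ Y) +
      ENNReal.ofReal D3 * (ENNReal.ofReal (1 + C) * volume (Metric.ball y0 ε) +
        ∫⁻ y in Metric.ball y0 ε, Lh G Psi V t0 r f (ins v y)) := by
    have hLm : Measurable (fun y : P3 => Lh G Psi V t0 r f (ins v y)) :=
      (measurable_Lh hpre).comp (by unfold ins; fun_prop)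
    calc _ ≤ ∫⁻ y, ((Metric.ball y0 ε \ Y).indicator (fun _ => ENNReal.ofReal (D1 * c)) y +
          (Metric.ball y0 ε).indicator (fun y => ENNReal.ofReal D3 * (ENNReal.ofReal (1 + C) +
            Lh G Psi V t0 r f (ins v y))) y) := by
          rw [← lintegral_indicator hSm]
          apply lintegral_mono
          intro y
          simp only
          by_cases hyS : y ∈ Sv Psi t0 r f v
          · rw [indicator_of_mem hyS]
            by_cases hyb : y ∈ Metric.ball y0 ε
            · rw [indicator_of_mem hyb]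
              have hφ1 : ENNReal.ofReal (ph y0 ε y) ≤ 1 := by
                rw [← ENNReal.ofReal_one]
                exact ENNReal.ofReal_le_ofReal (ph_le_one _ _ _)
              calc _ ≤ 1 * (ENNReal.ofReal (16 * C ^ 4 * B * κ * c) *
                    (if κ ≤ (fderiv ℝ Psi (Phi Psi V (ins v y)) e1).2.2.1 then 1 else 0)
                  + ENNReal.ofReal (Ck C B hb κ) * (ENNReal.ofReal (1 + cu y.2.1)
                    + Lh G Psi V t0 r f (ins v y))) := mul_le_mul_left hφ1 _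
                _ ≤ _ := by
                  rw [one_mul]
                  apply add_le_add
                  · by_cases hyY : y ∈ Y
                    · obtain ⟨z, hz, hzy, _, hzq⟩ := hY y hyY
                      have hzV := h.DD_sub hz
                      have hP : Phi Psi V (ins v y) = z := by rw [← hzy]; exact h.Phi_left hzV
                      have hbp := h.pos z hzV
                      unfold QQ at hzq
                      have hlt : ¬ κ ≤ (fderiv ℝ Psi z e1).2.2.1 := by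
                        intro hle; linarith only [hzq, hbp, hle]
                      rw [hP, if_neg hlt, mul_zero]
                      exact bot_le
                    · rw [indicator_of_mem (show y ∈ Metric.ball y0 ε \ Y from ⟨hyb, hyY⟩)]
                      calc _ ≤ ENNReal.ofReal (16 * C ^ 4 * B * κ * c) * 1 := by
                            gcongr
                            split_ifs <;> simp
                        _ = _ := by rw [mul_one]
                  · gcongr
                    exact hcu _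
            · have hn2 : y ∉ Metric.ball y0 ε \ Y := fun hh => hyb hh.1
              have : ph y0 ε y = 0 := by
                by_contra hne
                exact hyb (hsupp y hne)
              rw [indicator_of_notMem hyb, indicator_of_notMem hn2, this, ENNReal.ofReal_zero,
                zero_mul, add_zero]
          · rw [indicator_of_notMem hyS]
            exact bot_le
      _ = _ := by
          rw [lintegral_add_left (measurable_const.indicator (hballm.diff hYm)),
            lintegral_indicator (hballm.diff hYm), lintegral_indicator hballm,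
            lintegral_const_mul' _ _ ENNReal.ofReal_ne_top,
            lintegral_add_left measurable_const]
          simp only [lintegral_const, Measure.restrict_apply MeasurableSet.univ, univ_inter]
  have up2 : ENNReal.ofReal (9 * C ^ 3 * κ) * ∫⁻ y, ‖fderiv ℝ (ph y0 ε) y (1, 0, 0)‖ₑ ≤
      ENNReal.ofReal (9 * C ^ 3 * κ * N) * (ENNReal.ofReal (1 / ε) *
        volume (Metric.ball y0 ε)) := by
    have h1 : ∫⁻ y, ‖fderiv ℝ (ph y0 ε) y (1, 0, 0)‖ₑ ≤
        ∫⁻ y, (Metric.ball y0 ε).indicator (fun _ => ENNReal.ofReal (N / ε)) y := by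
      apply lintegral_mono
      intro y
      simp only
      by_cases hyb : y ∈ Metric.ball y0 ε
      · rw [indicator_of_mem hyb, ← ofReal_norm]
        exact ENNReal.ofReal_le_ofReal (ph_fderiv_le hN hε y)
      · rw [indicator_of_notMem hyb, ph_fderiv_zero hε]
        · simp
        · intro hm
          apply hyb
          rw [Metric.mem_closedBall] at hm
          rw [Metric.mem_ball]; linarith only [hε, hm]
    rw [lintegral_indicator hballm] at h1
    simp only [lintegral_const, Measure.restrict_apply MeasurableSet.univ, univ_inter] at h1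
    calc ENNReal.ofReal (9 * C ^ 3 * κ) * ∫⁻ y, ‖fderiv ℝ (ph y0 ε) y (1, 0, 0)‖ₑ
        ≤ ENNReal.ofReal (9 * C ^ 3 * κ) * (ENNReal.ofReal (N / ε) *
          volume (Metric.ball y0 ε)) := by gcongr
      _ = _ := by
          rw [← mul_assoc, ← mul_assoc, ← ENNReal.ofReal_mul (by positivity),
            ← ENNReal.ofReal_mul (by positivity)]
          congr 2
          ring
  have hone : ENNReal.ofReal (1 + C) ≤ ENNReal.ofReal (1 + C) * ENNReal.ofReal (1 / ε) := by
    rw [← ENNReal.ofReal_mul (by positivity)]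
    apply ENNReal.ofReal_le_ofReal
    have : 1 ≤ 1 / ε := by rw [le_div_iff₀ hε]; linarith only [hε1]
    linarith only [mul_le_mul_of_nonneg_left this (by positivity : (0 : ℝ) ≤ 1 + C)]
  have tot : ENNReal.ofReal (γ / (4 * C ^ 2 * κ)) * volume (Metric.ball y0 (ε / 4) ∩ Y) ≤
      ENNReal.ofReal D0 * (ENNReal.ofReal c * volume (Metric.ball y0 ε \ Y) +
          ENNReal.ofReal (1 / ε) * volume (Metric.ball y0 ε) +
          ∫⁻ y in Metric.ball y0 ε, Lh G Psi V t0 r f (ins v y)) := by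
    set b1 := volume (Metric.ball y0 ε \ Y)
    set b2 := volume (Metric.ball y0 ε)
    set b3 := ∫⁻ y in Metric.ball y0 ε, Lh G Psi V t0 r f (ins v y)
    have hDD1 : ENNReal.ofReal D1 ≤ ENNReal.ofReal D0 := ENNReal.ofReal_le_ofReal (by linarith only [hCk, hD20])
    have hDD2 : ENNReal.ofReal D2 ≤ ENNReal.ofReal D0 := ENNReal.ofReal_le_ofReal (by linarith only [hCk, hD10])
    have hDD3 : ENNReal.ofReal D3 ≤ ENNReal.ofReal D0 := ENNReal.ofReal_le_ofReal (by linarith only [hD10, hD20])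
    have hD2' : ENNReal.ofReal D2 = ENNReal.ofReal D3 * ENNReal.ofReal (1 + C) +
        ENNReal.ofReal (9 * C ^ 3 * κ * N) := by
      rw [hD2, ENNReal.ofReal_add (by positivity) (by positivity), ENNReal.ofReal_mul hCk]
    calc _ ≤ _ := low
      _ ≤ _ := hSI
      _ ≤ (ENNReal.ofReal (D1 * c) * b1 + ENNReal.ofReal D3 * (ENNReal.ofReal (1 + C) * b2 + b3))
          + ENNReal.ofReal (9 * C ^ 3 * κ * N) * (ENNReal.ofReal (1 / ε) * b2) :=
        add_le_add up1 up2
      _ ≤ (ENNReal.ofReal (D1 * c) * b1 + ENNReal.ofReal D3 *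
          ((ENNReal.ofReal (1 + C) * ENNReal.ofReal (1 / ε)) * b2 + b3))
          + ENNReal.ofReal (9 * C ^ 3 * κ * N) * (ENNReal.ofReal (1 / ε) * b2) := by
        gcongr
      _ = ENNReal.ofReal D1 * (ENNReal.ofReal c * b1) +
          ENNReal.ofReal D2 * (ENNReal.ofReal (1 / ε) * b2) + ENNReal.ofReal D3 * b3 := by
        rw [hD2', ENNReal.ofReal_mul hD10.le]
        ring
      _ ≤ ENNReal.ofReal D0 * (ENNReal.ofReal c * b1) +
          ENNReal.ofReal D0 * (ENNReal.ofReal (1 / ε) * b2) + ENNReal.ofReal D0 * b3 := by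
        gcongr
      _ = _ := by ring
  have hq : (0:ℝ) < 4 * C ^ 2 * κ := by positivity
  calc ENNReal.ofReal γ * volume (Metric.ball y0 (ε / 4) ∩ Y)
      = ENNReal.ofReal (4 * C ^ 2 * κ) * (ENNReal.ofReal (γ / (4 * C ^ 2 * κ)) *
        volume (Metric.ball y0 (ε / 4) ∩ Y)) := by
        rw [← mul_assoc, ← ENNReal.ofReal_mul hq.le]
        congr 2
        field_simp
    _ ≤ _ := mul_le_mul_right tot _
    _ = _ := by rw [← mul_assoc, ← ENNReal.ofReal_mul hq.le]

end Vale.Agent.P354x
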